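import Crest.Agent.R160.Gauss

/-! Row 160, sub-task A2: localisation and smoothing by a rotation; dyadic noise. -/

set_option autoImplicit false

namespace Crest.Agent.R160

open MeasureTheory ProbabilityTheory Finset

namespace S

/-- coordinatewise rotation of pairs of coordinates -/
def rotJ {ι : Type*} (c s : ι → ℝ) (x : ι ⊕ ι → ℝ) : ι ⊕ ι → ℝ
  | Sum.inl i => c i * x (Sum.inl i) + s i * x (Sum.inr i)
  | Sum.inr i => -s i * x (Sum.inl i) + c i * x (Sum.inr i)

theorem rotJ_mp {ι : Type*} (c s : ι → ℝ) (h : ∀ i, c i ^ 2 + s i ^ 2 = 1) :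
    MeasurePreserving (rotJ c s) (gam _) (gam _) := by
  classical
  let S : ι ⊕ ι → Finset (ι ⊕ ι) := fun k => {Sum.inl (k.elim id id), Sum.inr (k.elim id id)}
  let a : ι ⊕ ι → ι ⊕ ι → ℝ := fun k j => match k, j with
    | Sum.inl i, Sum.inl j => if i = j then c i else 0
    | Sum.inl i, Sum.inr j => if i = j then s i else 0
    | Sum.inr i, Sum.inl j => if i = j then -s i else 0
    | Sum.inr i, Sum.inr j => if i = j then c i else 0
  have := gam_orth S a ?_ ?_
  · convert this using 1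
    funext x k
    rcases k with i | i <;> simp [S, a, rotJ]
  · rintro (i | i) (j | j) hj <;> simp only [S, a, Sum.elim_inl, Sum.elim_inr, id, mem_insert,
      mem_singleton, Sum.inl.injEq, Sum.inr.injEq, reduceCtorEq, or_false, false_or] at hj ⊢ <;>
      rw [if_neg fun e => hj e.symm]
  · rintro (i | i) (j | j) <;> simp only [S, a, Sum.elim_inl, Sum.elim_inr, id] <;>
      rw [sum_pair (by simp)] <;> by_cases e : j = i
    all_goals first
      | (subst e; have := h j; simp; nlinarith)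
      | (have e' : ¬ i = j := fun e' => e e'.symm
         simp [e, e'])

theorem split_mp (ι : Type*) : MeasurePreserving
    (fun x : ι ⊕ ι → ℝ => ((fun i => x (Sum.inl i)), (fun i => x (Sum.inr i)))) (gam _)
    ((gam ι).prod (gam ι)) := by
  have h1 := gam_merge (J := ι ⊕ ι) (fun j => j.isLeft = true)
  have h2 := (gam_inj (Sum.inl_injective (α := ι) (β := ι))).prod
    (gam_inj (Sum.inr_injective (α := ι) (β := ι)))
  refine ⟨by fun_prop, ?_⟩
  rw [← h1.map_eq, Measure.map_map (by fun_prop) h1.measurable, ← h2.map_eq]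
  congr 1

/-- rotation on pairs of configurations -/
def rot {ι : Type*} (c s : ι → ℝ) (p : (ι → ℝ) × (ι → ℝ)) : (ι → ℝ) × (ι → ℝ) :=
  (fun i => c i * p.1 i + s i * p.2 i, fun i => -s i * p.1 i + c i * p.2 i)

theorem rot_mp {ι : Type*} (c s : ι → ℝ) (h : ∀ i, c i ^ 2 + s i ^ 2 = 1) :
    MeasurePreserving (rot c s) ((gam ι).prod (gam ι)) ((gam ι).prod (gam ι)) := by
  have hm : Measurable (rot c s) := by unfold rot; fun_prop
  refine ⟨hm, ?_⟩
  have h1 := split_mp ι
  have h2 := h1.comp (rotJ_mp c s h)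
  conv_lhs => rw [← h1.map_eq, Measure.map_map hm h1.measurable]
  rw [← h2.map_eq]
  congr 1

theorem sq_int_le {α : Type*} [MeasurableSpace α] {μ : Measure α} [IsProbabilityMeasure μ]
    {X : α → ℝ} (hm : Measurable X) (h : Integrable (fun x => X x ^ 2) μ) :
    (∫ x, X x ∂μ) ^ 2 ≤ ∫ x, X x ^ 2 ∂μ := by
  have h1 : MemLp X 2 μ := (memLp_two_iff_integrable_sq hm.aestronglyMeasurable).2 h
  have h2 := variance_nonneg X μ
  rw [variance_eq_sub h1] at h2
  simpa using h2

theorem ofReal_sq_int_le {α : Type*} [MeasurableSpace α] {μ : Measure α} [IsProbabilityMeasure μ]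
    {X : α → ℝ} (h : BM X) :
    ENNReal.ofReal ((∫ x, X x ∂μ) ^ 2) ≤ ∫⁻ x, ENNReal.ofReal (X x ^ 2) ∂μ := by
  rw [← ofReal_integral_eq_lintegral_ofReal ((h.pow 2).integrable μ)
    (ae_of_all _ fun _ => sq_nonneg _)]
  exact ENNReal.ofReal_le_ofReal (sq_int_le h.1 ((h.pow 2).integrable μ))

/-- total variation of a Cameron-Martin shift -/
theorem shift_le {ι : Type*} [DecidableEq ι] (B : Finset ι) (a : ι → ℝ) {H : (ι → ℝ) → ℝ}
    (hH : Measurable H) (h1 : ∀ z, |H z| ≤ 1) :
    |∫ z, H (fun i => z i + if i ∈ B then a i else 0) ∂gam ι - ∫ z, H z ∂gam ι| ≤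
      2 * √(∑ i ∈ B, a i ^ 2) := by
  set s := ∑ i ∈ B, a i ^ 2 with hs
  have hs0 : 0 ≤ s := sum_nonneg fun _ _ => sq_nonneg _
  have hb : ∀ {f : (ι → ℝ) → ℝ}, (∀ z, |f z| ≤ 1) → |∫ z, f z ∂gam ι| ≤ 1 := fun {f} hf => by
    simpa using norm_integral_le_of_norm_le_const (μ := gam ι) (f := f) (C := 1) (ae_of_all _ hf)
  rcases le_total 1 s with h | h
  · have := Real.one_le_sqrt.2 h
    have e1 := hb (f := fun z => H (fun i => z i + if i ∈ B then a i else 0)) fun z => h1 _
    have e2 := hb h1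
    exact (abs_sub _ _).trans (by linarith)
  let E : (ι → ℝ) → ℝ := fun z => Real.exp (∑ i ∈ B, (a i * z i - a i ^ 2 / 2))
  have hE : ∀ z, E z = Real.exp (-s / 2) * Real.exp (∑ i ∈ B, a i * z i) := fun z => by
    simp only [E, ← Real.exp_add, sum_sub_distrib, ← sum_div, ← hs]
    congr 1; ring
  have hE2 : ∀ z, E z ^ 2 = Real.exp (-s) * Real.exp (∑ i ∈ B, (2 * a i) * z i) := fun z => by
    simp only [hE, sq, ← Real.exp_add, mul_assoc, ← mul_sum]
    congr 1; ring
  have mE : Measurable E := by fun_prop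
  have iE : Integrable E (gam ι) := by
    rw [funext hE]; exact (integrable_exp_lin B a).const_mul _
  have iE2 : Integrable (fun z => E z ^ 2) (gam ι) := by
    rw [funext hE2]; exact (integrable_exp_lin B _).const_mul _
  have vE : ∫ z, E z ∂gam ι = 1 := by
    simp only [hE]
    rw [integral_const_mul, integral_exp_lin, ← Real.exp_add, ← hs]
    simp [neg_div]
  have vE2 : ∫ z, E z ^ 2 ∂gam ι = Real.exp s := by
    simp only [hE2]
    rw [integral_const_mul, integral_exp_lin, ← Real.exp_add]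
    simp only [mul_pow, ← mul_sum, ← hs]
    congr 1; ring
  have e3 : ∀ z, |E z - 1| ^ 2 = E z ^ 2 - 2 * E z + 1 := fun z => by rw [sq_abs]; ring
  have i3 : Integrable (fun z => |E z - 1| ^ 2) (gam ι) := by
    rw [funext e3]; exact (iE2.sub (iE.const_mul 2)).add (integrable_const _)
  have v3 : ∫ z, |E z - 1| ^ 2 ∂gam ι = Real.exp s - 1 := by
    simp only [e3]
    rw [integral_add (f := fun z => E z ^ 2 - 2 * E z) (iE2.sub (iE.const_mul 2))
      (integrable_const _), integral_sub iE2 (iE.const_mul 2), integral_const_mul, vE, vE2]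
    simp; ring
  have hHb : BM H := ⟨hH, 1, h1⟩
  have iEH : Integrable (fun z => E z * H z) (gam ι) :=
    iE.mul_bdd hH.aestronglyMeasurable (ae_of_all _ h1)
  have k1 := sq_int_le (μ := gam ι) (X := fun z => |E z - 1|) (by fun_prop) i3
  have k2 : Real.exp s ≤ 1 + 2 * s := by
    have := Real.abs_exp_sub_one_le (x := s) (by rw [abs_of_nonneg hs0]; exact h)
    rw [abs_of_nonneg hs0] at this
    linarith [le_abs_self (Real.exp s - 1)]
  rw [integral_shift B a hH, ← integral_sub iEH (hHb.integrable _)]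
  calc _ ≤ ∫ z, |E z - 1| ∂gam ι := by
        rw [← Real.norm_eq_abs]
        refine norm_integral_le_of_norm_le (g := fun z => |E z - 1|)
          (iE.sub (integrable_const 1)).abs (ae_of_all _ fun z => ?_)
        rw [Real.norm_eq_abs, show E z * H z - H z = (E z - 1) * H z by ring, abs_mul]
        exact mul_le_of_le_one_right (abs_nonneg _) (h1 z)
    _ ≤ _ := by
        refine abs_le_of_sq_le_sq' ?_ (by positivity) |>.2
        rw [mul_pow, Real.sq_sqrt hs0]
        linarith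

theorem energy {ι : Type*} (A : Finset ι) {D : ι → (ι → ℝ) → ℝ} (hD : ∀ i, BM (D i)) (f : ι → ℝ) :
    ∫⁻ p, ENNReal.ofReal ((∑ i ∈ A, D i p.1 * (f i * p.2 i)) ^ 2) ∂(gam ι).prod (gam ι) =
      ENNReal.ofReal (∫ z, ∑ i ∈ A, (D i z * f i) ^ 2 ∂gam ι) := by
  have hm : ∀ i, Measurable (D i) := fun i => (hD i).1
  rw [lintegral_prod _ (Measurable.aemeasurable (by fun_prop)),
    ofReal_integral_eq_lintegral_ofReal
      ((BM.sum A fun i _ => ((hD i).mul (BM.const (f i))).pow 2).integrable _)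
      (ae_of_all _ fun z => sum_nonneg fun _ _ => sq_nonneg _)]
  refine lintegral_congr fun z => ?_
  simp only [← mul_assoc]
  rw [← ofReal_integral_eq_lintegral_ofReal (integrable_lin_pow A (fun i => D i z * f i) 2)
    (ae_of_all _ fun z => sq_nonneg _), integral_lin_sq]

theorem path_le {ι : Type*} (A : Finset ι) {F : (ι → ℝ) → ℝ} {D : ι → (ι → ℝ) → ℝ}
    (hD : ∀ i, BM (D i))
    (hder : ∀ (c : ℝ → ι → ℝ) (c' : ι → ℝ) (t : ℝ), (∀ i, HasDerivAt (fun τ => c τ i) (c' i) t) →
      HasDerivAt (fun τ => F (c τ)) (∑ i ∈ A, D i (c t) * c' i) t) (f : ι → ℝ)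
    (p : (ι → ℝ) × (ι → ℝ)) :
    ENNReal.ofReal ((F p.1 - F (fun i => Real.cos (f i) * p.1 i + Real.sin (f i) * p.2 i)) ^ 2) ≤
      ∫⁻ t in Set.Ioc (0 : ℝ) 1, ENNReal.ofReal ((∑ i ∈ A,
        D i (rot (fun i => Real.cos (t * f i)) (fun i => Real.sin (t * f i)) p).1 *
          (f i * (rot (fun i => Real.cos (t * f i)) (fun i => Real.sin (t * f i)) p).2 i)) ^ 2) := by
  have : IsProbabilityMeasure (volume.restrict (Set.Ioc (0 : ℝ) 1)) := ⟨by simp⟩
  let g : ℝ → ℝ := fun t => ∑ i ∈ A,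
    D i (rot (fun i => Real.cos (t * f i)) (fun i => Real.sin (t * f i)) p).1 *
      (f i * (rot (fun i => Real.cos (t * f i)) (fun i => Real.sin (t * f i)) p).2 i)
  have hs : ∀ i, BM fun t : ℝ => Real.sin (t * f i) := fun i =>
    ⟨by fun_prop, 1, fun _ => Real.abs_sin_le_one _⟩
  have hc : ∀ i, BM fun t : ℝ => Real.cos (t * f i) := fun i =>
    ⟨by fun_prop, 1, fun _ => Real.abs_cos_le_one _⟩
  have hg : BM g := BM.sum A fun i _ => ((hD i).comp (by unfold rot; fun_prop)).mul
    ((BM.const _).mul (((hs i).neg.mul (BM.const _)).add ((hc i).mul (BM.const _))))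
  have hd : ∀ t, HasDerivAt (fun t => F (rot (fun i => Real.cos (t * f i))
      (fun i => Real.sin (t * f i)) p).1) (g t) t := fun t => by
    refine hder _ _ t fun i => ?_
    have e : HasDerivAt (fun τ : ℝ => τ * f i) (f i) t := by
      simpa using (hasDerivAt_id t).mul_const (f i)
    refine ((e.cos.mul_const (p.1 i)).add (e.sin.mul_const (p.2 i))).congr_deriv ?_
    simp only [rot]; ring
  have := intervalIntegral.integral_eq_sub_of_hasDerivAt (a := 0) (b := 1) (fun t _ => hd t)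
    ((intervalIntegrable_iff_integrableOn_Ioc_of_le zero_le_one).2 (hg.integrable _))
  rw [intervalIntegral.integral_of_le zero_le_one] at this
  refine le_trans (le_of_eq ?_) (ofReal_sq_int_le hg)
  rw [this]
  simp only [rot, one_mul, zero_mul, Real.cos_zero, Real.sin_zero, add_zero]
  congr 1; ring

end S

theorem smooth {ι : Type*} [DecidableEq ι] (A B : Finset ι) (F : (ι → ℝ) → ℝ)
    (D : ι → (ι → ℝ) → ℝ) (hF : Measurable F) (hF1 : ∀ z, |F z| ≤ 1) (hD : ∀ i, BM (D i))
    (hder : ∀ (c : ℝ → ι → ℝ) (c' : ι → ℝ) (t : ℝ), (∀ i, HasDerivAt (fun τ => c τ i) (c' i) t) →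
      HasDerivAt (fun τ => F (c τ)) (∑ i ∈ A, D i (c t) * c' i) t)
    {φ : ℝ} (h0 : 0 < φ) (h1 : φ ≤ 1) :
    ∃ Gs : (ι → ℝ) → ℝ, Measurable Gs ∧ (∀ z, |Gs z| ≤ 1) ∧
      (∀ z z', |Gs z - Gs z'| ≤ 4 / φ * √(∑ i ∈ B, (z i - z' i) ^ 2)) ∧
      ∫ z, (F z - Gs z) ^ 2 ∂gam ι ≤ φ ^ 2 * ∫ z, ∑ i ∈ A, D i z ^ 2 ∂gam ι +
        3 * ∫ z, ∑ i ∈ A \ B, D i z ^ 2 ∂gam ι := by
  let f : ι → ℝ := fun i => if i ∈ B then φ else Real.pi / 2
  let K : (ι → ℝ) × (ι → ℝ) → ℝ :=
    fun p => F (fun i => Real.cos (f i) * p.1 i + Real.sin (f i) * p.2 i)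
  have hK : BM K := ⟨hF.comp (by fun_prop), 1, fun _ => hF1 _⟩
  have hG := hK.integral_right (gam ι)
  have hm : ∀ i, Measurable (D i) := fun i => (hD i).1
  refine ⟨fun z => ∫ z', K (z, z') ∂gam ι, hG.1, fun z => ?_, fun z y => ?_, ?_⟩
  · simpa using norm_integral_le_of_norm_le_const (μ := gam ι) (f := fun z' => K (z, z')) (C := 1)
      (ae_of_all _ fun _ => hF1 _)
  · have hs : φ / 2 ≤ Real.sin φ := by
      have := Real.sin_gt_sub_cube h0
      have : φ ^ 3 ≤ φ := by
        calc φ ^ 3 ≤ φ ^ 1 := pow_le_pow_of_le_one h0.le h1 (by norm_num)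
          _ = φ := pow_one _
      linarith
    have hs0 : 0 < Real.sin φ := by linarith
    have key := S.shift_le B (fun i => Real.cos φ / Real.sin φ * (z i - y i))
      (H := fun z' => K (y, z')) (hK.1.comp (by fun_prop)) fun _ => hF1 _
    have e : ∀ z' : ι → ℝ, K (y, fun i => z' i +
        if i ∈ B then Real.cos φ / Real.sin φ * (z i - y i) else 0) = K (z, z') := fun z' => by
      simp only [K]
      congr 1
      funext i
      by_cases hi : i ∈ B
      · simp only [f, if_pos hi]; field_simp; ring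
      · simp [f, hi]
    simp only [e] at key
    refine key.trans ?_
    simp only [mul_pow, ← mul_sum]
    rw [Real.sqrt_mul (sq_nonneg _), Real.sqrt_sq_eq_abs, ← mul_assoc]
    refine mul_le_mul_of_nonneg_right ?_ (Real.sqrt_nonneg _)
    rw [abs_div, abs_of_pos hs0, ← mul_div_assoc, div_le_div_iff₀ hs0 h0]
    nlinarith [Real.abs_cos_le_one φ, abs_nonneg (Real.cos φ)]
  · have hFb : BM F := ⟨hF, 1, hF1⟩
    have b1 : BM fun z => ∑ i ∈ A, D i z ^ 2 := BM.sum A fun i _ => (hD i).pow 2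
    have b2 : BM fun z => ∑ i ∈ A \ B, D i z ^ 2 := BM.sum _ fun i _ => (hD i).pow 2
    have b3 : BM fun z => ∑ i ∈ A, (D i z * f i) ^ 2 :=
      BM.sum A fun i _ => ((hD i).mul (BM.const (f i))).pow 2
    have k1 : ∫ z, (F z - ∫ z', K (z, z') ∂gam ι) ^ 2 ∂gam ι ≤
        ∫ z, ∑ i ∈ A, (D i z * f i) ^ 2 ∂gam ι := by
      rw [← ENNReal.ofReal_le_ofReal_iff
        (integral_nonneg fun z => sum_nonneg fun _ _ => sq_nonneg _),
        ofReal_integral_eq_lintegral_ofReal (((hFb.sub hG).pow 2).integrable _)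
          (ae_of_all _ fun _ => sq_nonneg _)]
      let G : (ι → ℝ) × (ι → ℝ) → ℝ → ENNReal := fun p t => ENNReal.ofReal ((∑ i ∈ A,
        D i (S.rot (fun i => Real.cos (t * f i)) (fun i => Real.sin (t * f i)) p).1 *
          (f i * (S.rot (fun i => Real.cos (t * f i)) (fun i => Real.sin (t * f i)) p).2 i)) ^ 2)
      have hGm : Measurable (Function.uncurry G) := by
        simp only [G, S.rot, Function.uncurry_def]; fun_prop
      calc _ ≤ ∫⁻ z, ∫⁻ z', ENNReal.ofReal ((F z - K (z, z')) ^ 2) ∂gam ι ∂gam ι := by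
            refine lintegral_mono fun z => ?_
            have hz : BM fun z' => K (z, z') := hK.comp (by fun_prop)
            refine le_trans (le_of_eq ?_) (S.ofReal_sq_int_le ((BM.const (F z)).sub hz))
            rw [integral_sub (integrable_const _) (hz.integrable _)]
            simp
        _ = ∫⁻ p, ENNReal.ofReal ((F p.1 - K p) ^ 2) ∂(gam ι).prod (gam ι) := by
            have := hK.1
            rw [lintegral_prod _ (Measurable.aemeasurable (by fun_prop))]
        _ ≤ ∫⁻ p, ∫⁻ t in Set.Ioc (0 : ℝ) 1, G p t ∂volume ∂(gam ι).prod (gam ι) :=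
            lintegral_mono fun p => S.path_le A hD hder f p
        _ = ∫⁻ t in Set.Ioc (0 : ℝ) 1, ∫⁻ p, G p t ∂(gam ι).prod (gam ι) :=
            lintegral_lintegral_swap hGm.aemeasurable
        _ = ∫⁻ t in Set.Ioc (0 : ℝ) 1, ENNReal.ofReal (∫ z, ∑ i ∈ A, (D i z * f i) ^ 2 ∂gam ι) := by
            refine lintegral_congr fun t => ?_
            rw [← S.energy A hD f]
            exact (S.rot_mp (fun i => Real.cos (t * f i))
              (fun i => Real.sin (t * f i)) fun i => Real.cos_sq_add_sin_sq _).lintegral_comp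
              (f := fun p => ENNReal.ofReal ((∑ i ∈ A, D i p.1 * (f i * p.2 i)) ^ 2)) (by fun_prop)
        _ = _ := by simp
    refine k1.trans ?_
    rw [← integral_const_mul, ← integral_const_mul, ← integral_add
      ((b1.integrable _).const_mul _) ((b2.integrable _).const_mul _)]
    refine integral_mono (b3.integrable _) (((b1.integrable _).const_mul _).add
      ((b2.integrable _).const_mul _)) fun z => ?_
    simp only [sdiff_eq_filter, sum_filter, mul_sum, ← sum_add_distrib]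
    refine sum_le_sum fun i _ => ?_
    by_cases hi : i ∈ B
    · simp only [f, hi, if_true, not_true, if_false]; nlinarith
    · simp only [f, hi, if_true, not_false_iff, if_false]
      have h3 : (Real.pi / 2) ^ 2 ≤ 3 := by nlinarith [Real.pi_lt_d2, Real.pi_pos]
      nlinarith [sq_nonneg (D i z), sq_nonneg (φ * D i z)]

/-- aggregate two consecutive normalised increments -/
noncomputable def agg {V : Type*} (p : V × ℕ → ℝ) : V × ℕ → ℝ :=
  fun i => (p (i.1, 2 * i.2) + p (i.1, 2 * i.2 + 1)) / √2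

theorem S.half : ((√2)⁻¹ : ℝ) ^ 2 + (√2)⁻¹ ^ 2 = 1 := by
  rw [inv_pow, Real.sq_sqrt zero_le_two]; norm_num

theorem agg_mp (V : Type*) : MeasurePreserving (agg (V := V)) (gam _) (gam _) := by
  let e : (V × ℕ) ⊕ (V × ℕ) → V × ℕ :=
    Sum.elim (fun i => (i.1, 2 * i.2)) (fun i => (i.1, 2 * i.2 + 1))
  have he : Function.Injective e := by
    rintro (⟨v, k⟩ | ⟨v, k⟩) (⟨w, l⟩ | ⟨w, l⟩) h <;>
      simp only [e, Sum.elim_inl, Sum.elim_inr, Prod.mk.injEq] at h <;> obtain ⟨rfl, h⟩ := h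
    · rw [show k = l by omega]
    · omega
    · omega
    · rw [show k = l by omega]
  have := (gam_inj (Sum.inl_injective (α := V × ℕ) (β := V × ℕ))).comp
    ((S.rotJ_mp (fun _ => (√2)⁻¹) (fun _ => (√2)⁻¹) fun _ => S.half).comp (gam_inj he))
  convert this using 1
  funext p i
  simp only [agg, Function.comp, S.rotJ, e, Sum.elim_inl, Sum.elim_inr]
  ring

theorem S.exists_ref : ∃ ref : (ℕ × ℕ → ℝ) → (ℕ × ℕ → ℝ),
    MeasurePreserving ref (gam _) (gam _) ∧
      ∀ g k, (ref g (0, 2 * k) + ref g (0, 2 * k + 1)) / √2 = g (0, k) := by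
  let e1 : (ℕ × ℕ) ⊕ (ℕ × ℕ) → ℕ × ℕ :=
    Sum.elim (fun i => (2 * i.1, i.2)) (fun i => (2 * i.1 + 1, i.2))
  have h1 : Function.Injective e1 := by
    rintro (⟨v, k⟩ | ⟨v, k⟩) (⟨w, l⟩ | ⟨w, l⟩) h <;>
      simp only [e1, Sum.elim_inl, Sum.elim_inr, Prod.mk.injEq] at h <;> obtain ⟨h, rfl⟩ := h
    · rw [show v = w by omega]
    · omega
    · omega
    · rw [show v = w by omega]
  let e2 : ℕ × ℕ → (ℕ × ℕ) ⊕ (ℕ × ℕ) :=
    fun i => if i.2 % 2 = 0 then Sum.inl (i.1, i.2 / 2) else Sum.inr (i.1, i.2 / 2)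
  have h2 : Function.Injective e2 := by
    rintro ⟨v, k⟩ ⟨w, l⟩ h
    simp only [e2] at h
    split_ifs at h <;> simp only [Sum.inl.injEq, Sum.inr.injEq, Prod.mk.injEq] at h <;>
      obtain ⟨rfl, h⟩ := h <;> rw [show k = l by omega]
  refine ⟨_, (gam_inj h2).comp ((S.rotJ_mp (fun _ => (√2)⁻¹) (fun _ => -(√2)⁻¹)
    fun _ => by rw [neg_sq]; exact S.half).comp (gam_inj h1)), fun g k => ?_⟩
  have k1 : e2 (0, 2 * k) = Sum.inl (0, k) := by
    simp only [e2]; rw [if_pos (by omega), show 2 * k / 2 = k by omega]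
  have k2 : e2 (0, 2 * k + 1) = Sum.inr (0, k) := by
    simp only [e2]; rw [if_neg (by omega), show (2 * k + 1) / 2 = k by omega]
  simp only [Function.comp, k1, k2, S.rotJ, e1, Sum.elim_inl, Sum.elim_inr, mul_zero]
  have := S.half
  linear_combination (g (0, k)) * this

theorem exists_noise (V : Type*) : ∃ lev : ℕ → (V → unitInterval) → (V × ℕ → ℝ),
    (∀ n, MeasurePreserving (lev n) (Crest.ProbabilityR.Labels.labelMeasure V) (gam _)) ∧
    (∀ n x, agg (lev (n + 1) x) = lev n x) ∧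
    (∀ n (e : V → V) x v k, lev n (x ∘ e) (v, k) = lev n x (e v, k)) := by
  obtain ⟨ref, h1, h2⟩ := S.exists_ref
  obtain ⟨g, hg, hg'⟩ := (gam (ℕ × ℕ)).exists_measurable_map_eq
  have hg2 : MeasurePreserving g volume (gam (ℕ × ℕ)) := ⟨hg, hg'⟩
  refine ⟨fun n x i => ref^[n] (g (x i.1)) (0, i.2), fun n => ?_, fun n x => ?_,
    fun _ _ _ _ _ => rfl⟩
  · have h3 := (gam_inj (ι := fun k : ℕ => ((0 : ℕ), k)) (fun a b h => by simpa using h)).comp
      ((h1.iterate n).comp hg2)
    have h4 : MeasurePreserving (fun (x : V → unitInterval) v k => ref^[n] (g (x v)) (0, k))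
        (Crest.ProbabilityR.Labels.labelMeasure V) (Measure.infinitePi fun _ : V => gam ℕ) := by
      refine ⟨measurable_pi_lambda _ fun v => h3.measurable.comp (measurable_pi_apply v), ?_⟩
      rw [Crest.ProbabilityR.Labels.labelMeasure,
        Measure.infinitePi_map_pi _ (f := fun _ u k => ref^[n] (g u) (0, k)) fun _ => h3.measurable]
      congr 1
      funext v
      exact h3.map_eq
    have h5 : MeasurePreserving (MeasurableEquiv.curry V ℕ ℝ).symm
        (Measure.infinitePi fun _ : V => gam ℕ) (gam (V × ℕ)) :=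
      ⟨(MeasurableEquiv.curry V ℕ ℝ).symm.measurable,
        Measure.infinitePi_map_curry_symm (fun _ _ => gaussianReal 0 1)⟩
    exact h5.comp h4
  · funext i
    simp only [agg, Function.iterate_succ_apply', h2]

end Crest.Agent.R160
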