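import Crest.Agent.R160.Bayes
import Crest.Agent.R160.Smooth

/-! Row 160, sub-task H, auxiliary facts: aggregation, marginals, monotone energy. -/

set_option autoImplicit false
set_option linter.unusedSectionVars false

namespace Crest.Agent.R160.H

open MeasureTheory Finset BayesAux

variable {V : Type*} [DecidableEq V] {Λ Λ0 : Finset V} {μ μ0 : Finset V → ℝ}

theorem sqrt_two_mul (δ : ℝ) : √(2 * δ) = √2 * √δ := Real.sqrt_mul zero_le_two δ

theorem two_div_sqrt : (2 : ℝ) / √2 = √2 := Real.div_sqrt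

theorem agg_obs (δ : ℝ) (A : Finset V) (z : V × ℕ → ℝ) :
    agg (obs δ A z) = obs (2 * δ) A (agg z) := by
  funext i
  simp only [agg, obs, sqrt_two_mul]
  conv_rhs => rw [← two_div_sqrt]
  rw [two_div_sqrt]
  have : (√2 : ℝ) ≠ 0 := by positivity
  field_simp
  rw [Real.sq_sqrt zero_le_two]; ring

theorem iter_obs (m : ℕ) : ∀ (δ : ℝ) (A : Finset V) (z : V × ℕ → ℝ),
    agg^[m] (obs δ A z) = obs (2 ^ m * δ) A (agg^[m] z) := by
  induction m with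
  | zero => simp
  | succ m ih =>
    intro δ A z
    rw [Function.iterate_succ_apply, agg_obs, ih, Function.iterate_succ_apply]
    congr 1; ring

theorem iter_mp (m : ℕ) : MeasurePreserving (agg (V := V))^[m] (gam _) (gam _) :=
  (agg_mp V).iterate m

theorem EE_agg (δ : ℝ) (m : ℕ) {Φ : Finset V → (V × ℕ → ℝ) → ℝ} (hΦ : ∀ A, Measurable (Φ A)) :
    EE Λ μ δ (fun A p => Φ A (agg^[m] p)) = EE Λ μ (2 ^ m * δ) Φ := by
  unfold EE
  refine sum_congr rfl fun A _ => ?_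
  simp only [iter_obs]
  rw [integral_mp (iter_mp m) (f := fun z => Φ A (obs (2 ^ m * δ) A z))
    ((hΦ A).comp (measurable_obs _ A))]

/-- the prior on `Λ0` is the marginal of the prior on `Λ` -/
def Marg (Λ : Finset V) (μ : Finset V → ℝ) (Λ0 : Finset V) (μ0 : Finset V → ℝ) : Prop :=
  Λ0 ⊆ Λ ∧ ∀ φ : Finset V → ℝ,
    ∑ A ∈ Λ.powerset, μ A * φ (A ∩ Λ0) = ∑ A ∈ Λ0.powerset, μ0 A * φ A

theorem sp_inter (A : Finset V) {u : V} (hu : u ∈ Λ0) : sp (A ∩ Λ0) u = sp A u := by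
  simp [sp, hu]

theorem EE_marg (h : Marg Λ μ Λ0 μ0) (δ : ℝ) {K : ℕ} {Φ : Finset V → (V × ℕ → ℝ) → ℝ}
    (h1 : ∀ A, Φ (A ∩ Λ0) = Φ A) (h2 : ∀ A, DependsOn (Φ A) (past Λ0 K)) :
    EE Λ μ δ Φ = EE Λ0 μ0 δ Φ := by
  unfold EE
  rw [← h.2]
  refine sum_congr rfl fun A _ => ?_
  rw [h1]
  congr 2
  funext z
  exact h2 A fun i hi => by simp only [obs, sp_inter A hi.1]

theorem sum_two (f : ℕ → ℝ) (k : ℕ) :
    ∑ j ∈ range (2 * k), f j = ∑ j ∈ range k, (f (2 * j) + f (2 * j + 1)) := by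
  induction k with
  | zero => simp
  | succ k ih => rw [mul_add, mul_one, sum_range_succ, sum_range_succ, ih, sum_range_succ, add_assoc]

theorem Yp_agg (δ : ℝ) (p : V × ℕ → ℝ) (k : ℕ) : Yp (2 * δ) (agg p) k = Yp δ p (2 * k) := by
  funext v
  simp only [Yp, agg, sqrt_two_mul, sum_two, ← sum_div]
  have : (√2 : ℝ) ≠ 0 := by positivity
  field_simp

theorem Yp_iter (m : ℕ) : ∀ (δ : ℝ) (p : V × ℕ → ℝ) (k : ℕ),
    Yp (2 ^ m * δ) (agg^[m] p) k = Yp δ p (2 ^ m * k) := by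
  induction m with
  | zero => simp
  | succ m ih =>
    intro δ p k
    rw [Function.iterate_succ_apply, show (2 : ℝ) ^ (m + 1) * δ = 2 ^ m * (2 * δ) by ring, ih,
      Yp_agg]
    congr 1; ring

theorem iter_sub (m : ℕ) : ∀ x y : V × ℕ → ℝ,
    agg^[m] (fun i => x i - y i) = fun i => agg^[m] x i - agg^[m] y i := by
  induction m with
  | zero => simp
  | succ m ih =>
    intro x y
    simp only [Function.iterate_succ_apply, ← ih]
    congr 1
    funext i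
    simp only [agg]; ring

theorem iter_sq (m : ℕ) (u : V) : ∀ (x : V × ℕ → ℝ) (K : ℕ),
    ∑ k ∈ range K, agg^[m] x (u, k) ^ 2 ≤ ∑ j ∈ range (2 ^ m * K), x (u, j) ^ 2 := by
  induction m with
  | zero => simp
  | succ m ih =>
    intro x K
    rw [Function.iterate_succ_apply, show 2 ^ (m + 1) * K = 2 * (2 ^ m * K) by ring, sum_two]
    refine (ih _ _).trans (sum_le_sum fun j _ => ?_)
    simp only [agg, div_pow, Real.sq_sqrt zero_le_two]
    nlinarith [sq_nonneg (x (u, 2 * j) - x (u, 2 * j + 1))]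

theorem iter_block (m : ℕ) (g : V × ℕ → ℝ) : ∀ δ : ℝ,
    agg^[m] (fun i => √δ * g (i.1, i.2 / 2 ^ m)) = fun i => √(2 ^ m * δ) * g i := by
  induction m with
  | zero => simp
  | succ m ih =>
    intro δ
    rw [Function.iterate_succ_apply, show (2 : ℝ) ^ (m + 1) * δ = 2 ^ m * (2 * δ) by ring, ← ih]
    congr 1
    funext i
    have e1 : 2 * i.2 / 2 ^ (m + 1) = i.2 / 2 ^ m := by
      rw [pow_succ', ← Nat.div_div_eq_div_mul]; congr 1; omega
    have e2 : (2 * i.2 + 1) / 2 ^ (m + 1) = i.2 / 2 ^ m := by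
      rw [pow_succ', ← Nat.div_div_eq_div_mul]; congr 1; omega
    simp only [agg, e1, e2, sqrt_two_mul]
    have : (√2 : ℝ) ≠ 0 := by positivity
    field_simp
    rw [Real.sq_sqrt zero_le_two]; ring

theorem iter_dep {β : Type*} (m : ℕ) {K : ℕ} {Φ : (V × ℕ → ℝ) → β} (h : DependsOn Φ (past Λ K)) :
    DependsOn (fun z => Φ (agg^[m] z)) (past Λ (2 ^ m * K)) := by
  induction m with
  | zero => simpa using h
  | succ m ih =>
    intro z z' hz
    simp only [Function.iterate_succ_apply]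
    refine ih fun i hi => ?_
    have h2 : i.2 < 2 ^ m * K := hi.2
    have e : 2 ^ (m + 1) * K = 2 * (2 ^ m * K) := by ring
    simp only [agg]
    rw [hz (i.1, 2 * i.2) ⟨hi.1, by simp only [e]; omega⟩,
      hz (i.1, 2 * i.2 + 1) ⟨hi.1, by simp only [e]; omega⟩]

theorem sum_block (N : ℕ) (hN : 0 < N) (g : ℕ → ℝ) (K : ℕ) :
    ∑ j ∈ range (N * K), g (j / N) = N * ∑ k ∈ range K, g k := by
  induction K with
  | zero => simp
  | succ K ih =>
    rw [mul_add, mul_one, sum_range_add, ih, sum_range_succ, mul_add]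
    congr 1
    rw [sum_congr rfl (g := fun _ => g K) fun x hx => by
      rw [Nat.mul_add_div hN, Nat.div_eq_of_lt (mem_range.1 hx), add_zero]]
    simp

theorem past_mono (h : Λ0 ⊆ Λ) {k k' : ℕ} (hk : k ≤ k') : past Λ0 k ⊆ past Λ k' :=
  fun _ hi => ⟨h hi.1, hi.2.trans_le hk⟩

theorem mg_Yp_dep (δ : ℝ) (k : ℕ) (u : V) :
    DependsOn (fun p => mg Λ μ (Yp δ p k) u) (past Λ k) := fun p p' hp => by
  simp only [mg_dep (Yp_dep δ hp le_rfl)]

theorem bm_mgY (h : Prior Λ μ) (δ : ℝ) (k : ℕ) (u : V) : BM fun p => mg Λ μ (Yp δ p k) u :=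
  (h.bm_mg u).comp (measurable_Yp δ k)

theorem EE_sub (δ : ℝ) {Φ Ψ : Finset V → (V × ℕ → ℝ) → ℝ}
    (hΦ : ∀ A, BM (Φ A)) (hΨ : ∀ A, BM (Ψ A)) :
    EE Λ μ δ (fun A p => Φ A p - Ψ A p) = EE Λ μ δ Φ - EE Λ μ δ Ψ := by
  have := EE_add (Λ := Λ) (μ := μ) δ (Φ := fun A p => Φ A p - Ψ A p) (Ψ := Ψ)
    (fun A => (hΦ A).sub (hΨ A)) hΨ
  simp only [sub_add_cancel] at this
  rw [this]; ring

theorem pyth (h : Prior Λ μ) (h0 : Prior Λ0 μ0) (hm : Marg Λ μ Λ0 μ0) {δ : ℝ} (hδ : 0 ≤ δ)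
    (m j : ℕ) {u : V} (hu : u ∈ Λ0) :
    EE Λ μ δ (fun _ p => (mg Λ μ (Yp δ p j) u -
      mg Λ0 μ0 (Yp (2 ^ m * δ) (agg^[m] p) (j / 2 ^ m)) u) ^ 2) =
      EE Λ μ δ (fun _ p => mg Λ μ (Yp δ p j) u ^ 2) -
        EE Λ0 μ0 (2 ^ m * δ) (fun _ p => mg Λ0 μ0 (Yp (2 ^ m * δ) p (j / 2 ^ m)) u ^ 2) := by
  set k := j / 2 ^ m
  set δ0 := 2 ^ m * δ
  have hδ0 : 0 ≤ δ0 := by positivity
  have b0 := bm_mgY h0 δ0 k u
  have b1 := bm_mgY h δ j u
  have b2 := b0.comp (iter_mp (V := V) m).measurable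
  have d0 := mg_Yp_dep (Λ := Λ0) (μ := μ0) δ0 k u
  have d2 : DependsOn (fun p => mg Λ0 μ0 (Yp δ0 (agg^[m] p) k) u) (past Λ j) :=
    (iter_dep m d0).mono (past_mono hm.1 (Nat.mul_div_le j _))
  have e1 := bayes h hδ j b2 d2 (fun A => sp A u)
  have e2 : EE Λ μ δ (fun A p => sp A u * mg Λ0 μ0 (Yp δ0 (agg^[m] p) k) u) =
      EE Λ0 μ0 δ0 (fun _ p => mg Λ0 μ0 (Yp δ0 p k) u ^ 2) := by
    rw [EE_agg δ m (Φ := fun A p => sp A u * mg Λ0 μ0 (Yp δ0 p k) u)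
        fun A => b0.1.const_mul _,
      EE_marg hm _ (K := k) (fun A => by simp only [sp_inter A hu])
        fun A p p' hp => by simp only [d0 hp], bayes h0 hδ0 k b0 d0 (fun A => sp A u)]
    simp only [mg, sq]
  have e3 : EE Λ μ δ (fun _ p => mg Λ0 μ0 (Yp δ0 (agg^[m] p) k) u ^ 2) =
      EE Λ0 μ0 δ0 (fun _ p => mg Λ0 μ0 (Yp δ0 p k) u ^ 2) := by
    rw [EE_agg δ m (Φ := fun _ p => mg Λ0 μ0 (Yp δ0 p k) u ^ 2) fun A => (b0.pow 2).1,
      EE_marg hm _ (K := k) (fun A => rfl) fun A p p' hp => by simp only [d0 hp]]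
  simp only [sub_sq, mul_assoc]
  rw [EE_add δ (fun _ => (b1.pow 2).sub ((BM.const 2).mul (b1.mul b2))) (fun _ => b2.pow 2),
    EE_sub δ (fun _ => b1.pow 2) (fun _ => (BM.const 2).mul (b1.mul b2)), EE_mul, e3]
  have e4 : EE Λ μ δ (fun _ p => mg Λ μ (Yp δ p j) u * mg Λ0 μ0 (Yp δ0 (agg^[m] p) k) u) =
      EE Λ0 μ0 δ0 (fun _ p => mg Λ0 μ0 (Yp δ0 p k) u ^ 2) := by rw [← e2, e1]; rfl
  rw [e4]; ring

/-- time-integrated energy of the posterior means on `U` -/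
noncomputable def II (U Λ : Finset V) (μ : Finset V → ℝ) (δ : ℝ) (K : ℕ) : ℝ :=
  ∑ u ∈ U, ∑ k ∈ range K, δ * EE Λ μ δ (fun _ p => mg Λ μ (Yp δ p k) u ^ 2)

theorem II_le (U : Finset V) (h : Prior Λ μ) {δ : ℝ} (hδ : 0 ≤ δ) (K : ℕ) :
    II U Λ μ δ K ≤ #U * (K * δ) := by
  calc _ ≤ ∑ u ∈ U, ∑ k ∈ range K, δ * 1 := by
        refine sum_le_sum fun u _ => sum_le_sum fun k _ => mul_le_mul_of_nonneg_left ?_ hδ
        rw [← h.EE_const δ 1]
        refine h.EE_mono δ (fun _ => (bm_mgY h δ k u).pow 2) (fun _ => BM.const 1) fun _ p => ?_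
        rw [sq_le_one_iff_abs_le_one]; exact h.abs_mg_le _ _
    _ = _ := by simp

/-- squared distance between the two drifts -/
noncomputable def DD (U Λ : Finset V) (μ : Finset V → ℝ) (Λ0 : Finset V) (μ0 : Finset V → ℝ)
    (δ : ℝ) (m K : ℕ) (p : V × ℕ → ℝ) : ℝ :=
  ∑ u ∈ U, ∑ j ∈ range (2 ^ m * K), δ * (mg Λ μ (Yp δ p j) u -
    mg Λ0 μ0 (Yp (2 ^ m * δ) (agg^[m] p) (j / 2 ^ m)) u) ^ 2

theorem bm_diff (h : Prior Λ μ) (h0 : Prior Λ0 μ0) (δ : ℝ) (m j : ℕ) (u : V) :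
    BM fun p => δ * (mg Λ μ (Yp δ p j) u -
      mg Λ0 μ0 (Yp (2 ^ m * δ) (agg^[m] p) (j / 2 ^ m)) u) ^ 2 :=
  (BM.const δ).mul (((bm_mgY h δ j u).sub
    ((bm_mgY h0 _ _ u).comp (iter_mp (V := V) m).measurable)).pow 2)

theorem bm_DD (U : Finset V) (h : Prior Λ μ) (h0 : Prior Λ0 μ0) (δ : ℝ) (m K : ℕ) :
    BM (DD U Λ μ Λ0 μ0 δ m K) :=
  BM.sum U fun u _ => BM.sum _ fun j _ => bm_diff h h0 δ m j u

theorem EE_DD {U : Finset V} (hU : U ⊆ Λ0) (h : Prior Λ μ) (h0 : Prior Λ0 μ0)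
    (hm : Marg Λ μ Λ0 μ0) {δ : ℝ} (hδ : 0 ≤ δ) (m K : ℕ) :
    EE Λ μ δ (fun _ p => DD U Λ μ Λ0 μ0 δ m K p) =
      II U Λ μ δ (2 ^ m * K) - II U Λ0 μ0 (2 ^ m * δ) K := by
  unfold DD II
  rw [EE_sum U δ (Φ := fun u _ p => ∑ j ∈ range (2 ^ m * K), δ * (mg Λ μ (Yp δ p j) u -
    mg Λ0 μ0 (Yp (2 ^ m * δ) (agg^[m] p) (j / 2 ^ m)) u) ^ 2)
    (fun u _ _ => BM.sum _ fun j _ => bm_diff h h0 δ m j u), ← sum_sub_distrib]
  refine sum_congr rfl fun u hu => ?_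
  rw [EE_sum _ δ (Φ := fun j _ p => δ * (mg Λ μ (Yp δ p j) u -
    mg Λ0 μ0 (Yp (2 ^ m * δ) (agg^[m] p) (j / 2 ^ m)) u) ^ 2)
    (fun j _ _ => bm_diff h h0 δ m j u)]
  simp only [EE_mul, pyth h h0 hm hδ m _ (hU hu), mul_sub, sum_sub_distrib, ← mul_sum]
  rw [sum_block (2 ^ m) (by positivity)
    (fun k => EE Λ0 μ0 (2 ^ m * δ) (fun _ p => mg Λ0 μ0 (Yp (2 ^ m * δ) p k) u ^ 2))]
  push_cast; ring

theorem II_mono {U : Finset V} (hU : U ⊆ Λ0) (h : Prior Λ μ) (h0 : Prior Λ0 μ0)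
    (hm : Marg Λ μ Λ0 μ0) {δ : ℝ} (hδ : 0 ≤ δ) (m K : ℕ) :
    II U Λ0 μ0 (2 ^ m * δ) K ≤ II U Λ μ δ (2 ^ m * K) := by
  rw [← sub_nonneg, ← EE_DD hU h h0 hm hδ, ← h.EE_const δ 0]
  exact h.EE_mono δ (fun _ => BM.const 0) (fun _ => bm_DD U h h0 δ m K) fun _ p =>
    sum_nonneg fun _ _ => sum_nonneg fun _ _ => by positivity

theorem dist_le (U : Finset V) {δ : ℝ} (hδ : 0 ≤ δ) (m K : ℕ) (p : V × ℕ → ℝ) :
    ∑ i ∈ U ×ˢ range K, (agg^[m] (inn Λ μ δ p) i - inn Λ0 μ0 (2 ^ m * δ) (agg^[m] p) i) ^ 2 ≤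
      DD U Λ μ Λ0 μ0 δ m K p := by
  rw [sum_product]
  refine sum_le_sum fun u _ => ?_
  let g : V × ℕ → ℝ := fun i => mg Λ0 μ0 (Yp (2 ^ m * δ) (agg^[m] p) i.2) i.1
  have e : ∀ i, agg^[m] (inn Λ μ δ p) i - inn Λ0 μ0 (2 ^ m * δ) (agg^[m] p) i =
      agg^[m] (fun i => √δ * g (i.1, i.2 / 2 ^ m) - √δ * mg Λ μ (Yp δ p i.2) i.1) i := fun i => by
    unfold inn
    rw [iter_sub, iter_sub, iter_block]
    simp only [g]; ring
  simp only [e]
  refine (iter_sq m u _ K).trans (le_of_eq (sum_congr rfl fun j _ => ?_))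
  simp only [g]
  rw [← mul_sub, mul_pow, Real.sq_sqrt hδ]; ring

/-! ### the hyperbolic tangent -/

theorem hasDerivAt_tanh (x : ℝ) : HasDerivAt Real.tanh (1 - Real.tanh x ^ 2) x := by
  have hc := (Real.cosh_pos x).ne'
  have := (Real.hasDerivAt_sinh x).div (Real.hasDerivAt_cosh x) hc
  rw [show Real.tanh = fun x => Real.sinh x / Real.cosh x from
    funext Real.tanh_eq_sinh_div_cosh]
  refine this.congr_deriv ?_
  field_simp

theorem measurable_tanh : Measurable Real.tanh :=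
  (continuous_iff_continuousAt.2 fun x => (hasDerivAt_tanh x).continuousAt).measurable

theorem bm_tanh : BM Real.tanh := ⟨measurable_tanh, 1, fun x => (Real.abs_tanh_lt_one x).le⟩

theorem tanh_one (x : ℝ) : (Real.tanh x - 1) ^ 2 ≤ 2 * Real.exp (-x) := by
  have h1 : 1 - Real.tanh x ≤ Real.exp (-x) := by
    have h := Real.one_le_cosh x
    rw [Real.cosh_eq] at h
    have h0 := Real.exp_pos (-x)
    rw [Real.tanh_eq, one_sub_div (by linarith), div_le_iff₀ (by linarith)]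
    nlinarith
  nlinarith [Real.tanh_lt_one x, Real.neg_one_lt_tanh x]

theorem tanh_sp (A : Finset V) (v : V) (x : ℝ) :
    (Real.tanh x - sp A v) ^ 2 ≤ 2 * Real.exp (-(sp A v * x)) := by
  unfold sp
  split_ifs
  · simpa using tanh_one x
  · have := tanh_one (-x)
    rw [Real.tanh_neg] at this
    simp only [neg_mul, one_mul]
    nlinarith

theorem EE_tanh (h : Prior Λ μ) {δ : ℝ} (hδ : 0 ≤ δ) (K : ℕ) (v : V) :
    EE Λ μ δ (fun A p => (Real.tanh (Yp δ p K v) - sp A v) ^ 2) ≤ 2 * Real.exp (-(K * δ) / 2) := by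
  rw [EE_law hδ K (f := fun A y => (Real.tanh (y v) - sp A v) ^ 2)
    fun A => ((measurable_tanh.comp (measurable_pi_apply v)).sub measurable_const).pow_const 2,
    ← one_mul (2 * _), ← h.sum, sum_mul]
  refine sum_le_sum fun A _ => mul_le_mul_of_nonneg_left ?_ (h.pos A).le
  set τ : ℝ := K * δ
  have hτ : 0 ≤ τ := by positivity
  have e : ∀ g : V → ℝ, 2 * Real.exp (-(sp A v * (τ * sp A v + √τ * g v))) =
      2 * Real.exp (-τ) * Real.exp (∑ i ∈ {v}, (-(sp A v * √τ)) * g i) := fun g => by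
    rw [sum_singleton, mul_assoc 2, ← Real.exp_add]
    congr 2
    linear_combination (-τ) * sp_sq A v
  calc _ ≤ ∫ g, 2 * Real.exp (-τ) * Real.exp (∑ i ∈ {v}, (-(sp A v * √τ)) * g i) ∂gam V := by
        refine integral_mono_of_nonneg (ae_of_all _ fun _ => sq_nonneg _)
          ((integrable_exp_lin {v} fun _ => -(sp A v * √τ)).const_mul _) (ae_of_all _ fun g => ?_)
        simp only [← e]
        exact tanh_sp A v _
    _ = _ := by
        rw [integral_const_mul, integral_exp_lin {v} fun _ => -(sp A v * √τ), sum_singleton,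
          mul_assoc, ← Real.exp_add, neg_sq, mul_pow, sp_sq, Real.sq_sqrt hτ]
        congr 2; ring

/-! ### the linear response -/

theorem measurable_xi (δ : ℝ) (u : V) (s t : ℕ) : Measurable fun Y => xi Λ μ δ Y u s t := by
  induction t with
  | zero => exact measurable_const
  | succ t ih =>
    refine measurable_pi_lambda _ fun v => ((measurable_pi_apply v).comp ih).add
      (Measurable.const_mul (Finset.measurable_sum _ fun w _ => ?_) _)
    exact ((measurable_cv v w).comp (measurable_pi_apply _)).mul ((measurable_pi_apply w).comp ih)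

theorem abs_xi_le (h : Prior Λ μ) {δ : ℝ} (hδ : 0 ≤ δ) (Y : ℕ → V → ℝ) (u : V) (s t : ℕ) :
    ∀ v, |xi Λ μ δ Y u s t v| ≤ Real.exp (4 * #Λ * (t * δ)) := by
  induction t with
  | zero => intro v; simp only [xi]; split_ifs <;> simp
  | succ t ih =>
    intro v
    simp only [xi]
    set E := Real.exp (4 * #Λ * (t * δ))
    have hE : 0 ≤ E := (Real.exp_pos _).le
    have h1 : |∑ w ∈ Λ, cv Λ μ (Y (s + 1 + t)) v w * xi Λ μ δ Y u s t w| ≤ #Λ * (4 * E) := by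
      refine (abs_sum_le_sum_abs _ _).trans ?_
      rw [← nsmul_eq_mul]
      refine sum_le_card_nsmul _ _ _ fun w _ => ?_
      rw [abs_mul]
      exact mul_le_mul (h.abs_cv_le _ _ _) (ih w) (abs_nonneg _) (by norm_num)
    calc _ ≤ E + δ * (#Λ * (4 * E)) := by
          refine (abs_add_le _ _).trans (add_le_add (ih v) ?_)
          rw [abs_mul, abs_of_nonneg hδ]
          exact mul_le_mul_of_nonneg_left h1 hδ
      _ = E * (4 * #Λ * δ + 1) := by ring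
      _ ≤ E * Real.exp (4 * #Λ * δ) := mul_le_mul_of_nonneg_left (Real.add_one_le_exp _) hE
      _ = _ := by rw [← Real.exp_add]; congr 1; push_cast; ring

theorem xi_dep (δ : ℝ) {Y Y' : ℕ → V → ℝ} (u : V) (s t : ℕ)
    (h : ∀ j ≤ s + t, ∀ w ∈ Λ, Y j w = Y' j w) : xi Λ μ δ Y u s t = xi Λ μ δ Y' u s t := by
  induction t with
  | zero => rfl
  | succ t ih =>
    funext v
    simp only [xi]
    rw [ih fun j hj => h j (by omega), cv_dep (h (s + 1 + t) (by omega))]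

/-- total squared response -/
noncomputable def XS (W Λ : Finset V) (μ : Finset V → ℝ) (δ : ℝ) (K : ℕ) (v : V)
    (Y : ℕ → V → ℝ) : ℝ := ∑ s ∈ range K, ∑ u ∈ W, δ * xi Λ μ δ Y u s (K - 1 - s) v ^ 2

theorem measurable_eul' (δ : ℝ) : Measurable (eul Λ μ δ) :=
  measurable_pi_lambda _ (measurable_eul δ)

theorem measurable_XS (W : Finset V) (δ : ℝ) (K : ℕ) (v : V) : Measurable (XS W Λ μ δ K v) :=
  Finset.measurable_sum _ fun s _ => Finset.measurable_sum _ fun u _ =>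
    (((measurable_pi_apply v).comp (measurable_xi δ u s _)).pow_const 2).const_mul δ

theorem XS_mem (h : Prior Λ μ) {W : Finset V} (hW : W ⊆ Λ) {δ T : ℝ} (hδ : 0 ≤ δ) {K : ℕ}
    (hK : K * δ ≤ T) (v : V) (Y : ℕ → V → ℝ) :
    0 ≤ XS W Λ μ δ K v Y ∧ XS W Λ μ δ K v Y ≤ T * #Λ * Real.exp (4 * #Λ * T) ^ 2 := by
  refine ⟨sum_nonneg fun _ _ => sum_nonneg fun _ _ => by positivity, ?_⟩
  set E := Real.exp (4 * #Λ * T) ^ 2
  have hE : 0 ≤ E := by positivity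
  calc _ ≤ ∑ s ∈ range K, ∑ u ∈ W, δ * E := by
        refine sum_le_sum fun s _ => sum_le_sum fun u _ => mul_le_mul_of_nonneg_left ?_ hδ
        refine sq_le_sq' (abs_le.1 ?_).1 (abs_le.1 ?_).2 <;>
        · refine (abs_xi_le h hδ Y u s _ v).trans (Real.exp_le_exp.2 ?_)
          have : ((K - 1 - s : ℕ) : ℝ) ≤ K := by exact_mod_cast (by omega : K - 1 - s ≤ K)
          exact mul_le_mul_of_nonneg_left ((mul_le_mul_of_nonneg_right this hδ).trans hK)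
            (by positivity)
    _ = (K * δ) * #W * E := by simp; ring
    _ ≤ _ := by
        have : (#W : ℝ) ≤ #Λ := by exact_mod_cast card_le_card hW
        have h1 : (0 : ℝ) ≤ K * δ := by positivity
        have := h1.trans hK
        gcongr

theorem XS_dep (W : Finset V) (δ : ℝ) (K : ℕ) (v : V) :
    DependsOn (fun z => XS W Λ μ δ K v (eul Λ μ δ z)) (past Λ K) := fun z z' hz => by
  simp only [XS]
  refine sum_congr rfl fun s hs => sum_congr rfl fun u _ => ?_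
  have := mem_range.1 hs
  rw [xi_dep δ u s _ fun j hj => eul_dep δ hz (by omega)]

theorem smooth_eul (h : Prior Λ μ) {δ : ℝ} (hδ : 0 ≤ δ) (K : ℕ) {v : V} (hv : v ∈ Λ) (U : Finset V)
    {φ : ℝ} (h0 : 0 < φ) (h1 : φ ≤ 1) :
    ∃ Gs : (V × ℕ → ℝ) → ℝ, Measurable Gs ∧ (∀ z, |Gs z| ≤ 1) ∧
      (∀ z z', |Gs z - Gs z'| ≤ 4 / φ * √(∑ i ∈ U ×ˢ range K, (z i - z' i) ^ 2)) ∧
      ∫ z, (Real.tanh (eul Λ μ δ z K v) - Gs z) ^ 2 ∂gam _ ≤
        φ ^ 2 * ∫ z, XS Λ Λ μ δ K v (eul Λ μ δ z) ∂gam _ +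
          3 * ∫ z, XS (Λ \ U) Λ μ δ K v (eul Λ μ δ z) ∂gam _ := by
  have bt : BM fun z => Real.tanh (eul Λ μ δ z K v) :=
    bm_tanh.comp ((measurable_pi_apply v).comp (measurable_eul δ K))
  let D : V × ℕ → (V × ℕ → ℝ) → ℝ := fun i z => (1 - Real.tanh (eul Λ μ δ z K v) ^ 2) *
    (√δ * xi Λ μ δ (eul Λ μ δ z) i.1 i.2 (K - 1 - i.2) v)
  have hD : ∀ i, BM (D i) := fun i => ((BM.const 1).sub (bt.pow 2)).mul ((BM.const _).mul
    ⟨(measurable_pi_apply v).comp ((measurable_xi δ i.1 i.2 _).comp (measurable_eul' δ)), _,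
      fun z => abs_xi_le h hδ _ _ _ _ v⟩)
  obtain ⟨Gs, g1, g2, g3, g4⟩ := smooth (Λ ×ˢ range K) (U ×ˢ range K) _ D bt.1
    (fun z => (Real.abs_tanh_lt_one _).le) hD (fun c c' t hc => by
      refine ((hasDerivAt_tanh _).comp t (eul_deriv h δ c c' t hc K hv)).congr_deriv ?_
      rw [sum_product_right]
      simp only [D, mul_sum, mul_assoc]) h0 h1
  refine ⟨Gs, g1, g2, g3, g4.trans ?_⟩
  have key : ∀ W ⊆ Λ, ∫ z, ∑ i ∈ W ×ˢ range K, D i z ^ 2 ∂gam _ ≤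
      ∫ z, XS W Λ μ δ K v (eul Λ μ δ z) ∂gam _ := fun W hW => by
    have bX : BM fun z => XS W Λ μ δ K v (eul Λ μ δ z) :=
      ⟨(measurable_XS W δ K v).comp (measurable_eul' δ), _, fun z => by
        have := XS_mem h hW hδ (K := K) le_rfl v (eul Λ μ δ z)
        exact (abs_of_nonneg this.1).trans_le this.2⟩
    refine integral_mono ((BM.sum _ fun i _ => (hD i).pow 2).integrable _) (bX.integrable _)
      fun z => ?_
    simp only [XS]
    rw [sum_product_right]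
    refine sum_le_sum fun s _ => sum_le_sum fun u _ => ?_
    simp only [D, mul_pow, Real.sq_sqrt hδ]
    refine mul_le_of_le_one_left (by positivity) ?_
    have := Real.tanh_sq_lt_one (eul Λ μ δ z K v)
    nlinarith [sq_nonneg (Real.tanh (eul Λ μ δ z K v))]
  have e : (Λ ×ˢ range K) \ (U ×ˢ range K) = (Λ \ U) ×ˢ range K := by
    ext i; simp only [mem_sdiff, mem_product]; tauto
  rw [e]
  have := key Λ subset_rfl
  have := key (Λ \ U) sdiff_subset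
  gcongr

/-- `tv` for a nonnegative functional bounded by `M` -/
theorem tv' (Λ : Finset V) (T M : ℝ) {ε : ℝ} (hε : 0 < ε) : ∃ n0 : ℕ,
    ∀ μ, Prior Λ μ → ∀ n, n0 ≤ n → ∀ K : ℕ, K * (1 / 2 ^ n : ℝ) ≤ T →
    ∀ Φ : (V × ℕ → ℝ) → ℝ, Measurable Φ → (∀ z, |Φ z| ≤ M) → DependsOn Φ (past Λ K) →
      |∫ z, Φ z ∂gam _ - EE Λ μ (1 / 2 ^ n) (fun _ p => Φ (inn Λ μ (1 / 2 ^ n) p))| ≤ ε := by
  have hM : 0 < |M| + 1 := by positivity
  obtain ⟨δ0, h0, h⟩ := tv Λ T (div_pos hε hM)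
  obtain ⟨n0, hn0⟩ := exists_pow_lt_of_lt_one h0 (by norm_num : (1 / 2 : ℝ) < 1)
  refine ⟨n0, fun μ hμ n hn K hK Φ h1 h2 h3 => ?_⟩
  have hn' : (1 / 2 ^ n : ℝ) ≤ δ0 := by
    rw [← one_div_pow]
    exact (pow_le_pow_of_le_one (by norm_num) (by norm_num) hn).trans hn0.le
  have := h μ hμ _ (by positivity) hn' K hK (fun z => (|M| + 1)⁻¹ * Φ z) (h1.const_mul _)
    (fun z => by
      rw [abs_mul, abs_of_pos (inv_pos.2 hM), inv_mul_le_iff₀ hM]
      linarith [h2 z, le_abs_self M]) fun z z' hz => by simp only [h3 hz]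
  rw [integral_const_mul, EE_mul, ← mul_sub, abs_mul, abs_of_pos (inv_pos.2 hM),
    inv_mul_le_iff₀ hM, mul_div_cancel₀ _ hM.ne'] at this
  exact this

end Crest.Agent.R160.H
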