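import Crest.Agent.R160.Core
import Crest.Agent.R160.Smooth
import Crest.Agent.R160.ApproxA

/-! Row 160, sub-task H: the local approximations recover the spin in every larger system. -/

set_option autoImplicit false

namespace Crest.Agent.R160

open MeasureTheory Finset

variable {V : Type*} [DecidableEq V]

/-- the local approximation of the spin at `v` -/
noncomputable def FF (G : SimpleGraph V) [G.LocallyFinite] (θ : ℝ) (T R n : ℕ) (v : V)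
    (z : V × ℕ → ℝ) : ℝ :=
  Real.tanh (eul (ball G v R) (mu G θ (ball G v R)) (1 / 2 ^ n) z (T * 2 ^ n) v)

theorem measurable_FF (G : SimpleGraph V) [G.LocallyFinite] (θ : ℝ) (T R n : ℕ) (v : V) :
    Measurable (FF G θ T R n v) :=
  H.measurable_tanh.comp ((measurable_pi_apply v).comp (measurable_eul _ _))

namespace H

open BayesAux

theorem self_mem_ball (G : SimpleGraph V) [G.LocallyFinite] (v : V) (R : ℕ) : v ∈ ball G v R := by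
  induction R with
  | zero => simp [ball]
  | succ R ih => exact mem_union_left _ ih

variable {Λ Λ0 : Finset V} {μ μ0 : Finset V → ℝ}

theorem tanh_dep (δ : ℝ) (K : ℕ) {v : V} (hv : v ∈ Λ) :
    DependsOn (fun z => Real.tanh (eul Λ μ δ z K v)) (past Λ K) := fun z z' hz => by
  simp only [eul_dep δ hz le_rfl v hv]

omit [DecidableEq V] in
theorem lip_dep {U : Finset V} (hU : U ⊆ Λ) {K : ℕ} {Gs : (V × ℕ → ℝ) → ℝ} {c : ℝ}
    (h : ∀ z z', |Gs z - Gs z'| ≤ c * √(∑ i ∈ U ×ˢ range K, (z i - z' i) ^ 2)) :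
    DependsOn Gs (past Λ K) := fun z z' hz => by
  have := h z z'
  rw [sum_eq_zero fun i hi => by
    rw [hz i ⟨hU (mem_product.1 hi).1, mem_range.1 (mem_product.1 hi).2⟩]; simp] at this
  simpa [sub_eq_zero] using this

theorem four (h : Prior Λ μ) (h0 : Prior Λ0 μ0) (hm : Marg Λ μ Λ0 μ0) {δ : ℝ} (hδ : 0 ≤ δ)
    (m K : ℕ) {v : V} (hv : v ∈ Λ0) {U : Finset V} (hU : U ⊆ Λ0) {Gs : (V × ℕ → ℝ) → ℝ}
    (g1 : BM Gs) {c : ℝ}
    (g3 : ∀ z z', |Gs z - Gs z'| ≤ c * √(∑ i ∈ U ×ˢ range K, (z i - z' i) ^ 2)) :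
    EE Λ μ δ (fun A p =>
        (Real.tanh (eul Λ0 μ0 (2 ^ m * δ) (agg^[m] (inn Λ μ δ p)) K v) - sp A v) ^ 2) ≤
      4 * (EE Λ μ δ (fun _ p => (Real.tanh (eul Λ0 μ0 (2 ^ m * δ) (agg^[m] (inn Λ μ δ p)) K v) -
          Gs (agg^[m] (inn Λ μ δ p))) ^ 2) +
        c ^ 2 * (II U Λ μ δ (2 ^ m * K) - II U Λ0 μ0 (2 ^ m * δ) K) +
        EE Λ0 μ0 (2 ^ m * δ) (fun _ p => (Real.tanh (eul Λ0 μ0 (2 ^ m * δ)
          (inn Λ0 μ0 (2 ^ m * δ) p) K v) - Gs (inn Λ0 μ0 (2 ^ m * δ) p)) ^ 2) +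
        2 * Real.exp (-(K * (2 ^ m * δ)) / 2)) := by
  set δ0 := 2 ^ m * δ with hδ0
  have hδ0' : 0 ≤ δ0 := by positivity
  let F : (V × ℕ → ℝ) → ℝ := fun z => Real.tanh (eul Λ0 μ0 δ0 z K v)
  have bF : BM F := bm_tanh.comp ((measurable_pi_apply v).comp (measurable_eul δ0 K))
  have bQ : BM fun z => (F z - Gs z) ^ 2 := (bF.sub g1).pow 2
  have ma : Measurable fun p => agg^[m] (inn Λ μ δ p) :=
    (iter_mp m).measurable.comp (measurable_inn δ)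
  have bT : ∀ A, BM fun p => (Real.tanh (Yp δ0 p K v) - sp A v) ^ 2 := fun A =>
    ((bm_tanh.comp ((measurable_pi_apply v).comp (measurable_Yp δ0 K))).sub (BM.const _)).pow 2
  have b1 := bQ.comp ma
  have b2 := (BM.const (c ^ 2)).mul (bm_DD U h h0 δ m K)
  have b3 := (bQ.comp (measurable_inn (Λ := Λ0) (μ := μ0) δ0)).comp (iter_mp (V := V) m).measurable
  have b4 := fun A => (bT A).comp (iter_mp (V := V) m).measurable
  have e3 : EE Λ μ δ (fun _ p => (F (inn Λ0 μ0 δ0 (agg^[m] p)) -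
      Gs (inn Λ0 μ0 δ0 (agg^[m] p))) ^ 2) =
      EE Λ0 μ0 δ0 (fun _ p => (F (inn Λ0 μ0 δ0 p) - Gs (inn Λ0 μ0 δ0 p)) ^ 2) := by
    rw [EE_agg δ m (Φ := fun _ p => (F (inn Λ0 μ0 δ0 p) - Gs (inn Λ0 μ0 δ0 p)) ^ 2)
      fun _ => (bQ.comp (measurable_inn δ0)).1]
    refine EE_marg hm _ (K := K) (fun _ => rfl) fun _ => ?_
    exact inn_dep δ0 (Φ := fun z => (F z - Gs z) ^ 2) fun z z' hz => by
      simp only [F, tanh_dep δ0 K hv hz, lip_dep hU g3 hz]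
  have e4 : EE Λ μ δ (fun A p => (Real.tanh (Yp δ0 (agg^[m] p) K v) - sp A v) ^ 2) ≤
      2 * Real.exp (-(K * δ0) / 2) := by
    rw [EE_agg δ m (Φ := fun A p => (Real.tanh (Yp δ0 p K v) - sp A v) ^ 2) fun A => (bT A).1]
    exact EE_tanh h hδ0' K v
  calc _ ≤ EE Λ μ δ (fun A p => 4 * ((F (agg^[m] (inn Λ μ δ p)) - Gs (agg^[m] (inn Λ μ δ p))) ^ 2 +
        c ^ 2 * DD U Λ μ Λ0 μ0 δ m K p +
        (F (inn Λ0 μ0 δ0 (agg^[m] p)) - Gs (inn Λ0 μ0 δ0 (agg^[m] p))) ^ 2 +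
        (Real.tanh (Yp δ0 (agg^[m] p) K v) - sp A v) ^ 2)) := by
        refine h.EE_mono δ (fun A => ((bF.comp ma).sub (BM.const _)).pow 2)
          (fun A => (BM.const 4).mul (((b1.add b2).add b3).add (b4 A))) fun A p => ?_
        have k1 : (Gs (agg^[m] (inn Λ μ δ p)) - Gs (inn Λ0 μ0 δ0 (agg^[m] p))) ^ 2 ≤
            c ^ 2 * DD U Λ μ Λ0 μ0 δ m K p := by
          have := pow_le_pow_left₀ (abs_nonneg _)
            (g3 (agg^[m] (inn Λ μ δ p)) (inn Λ0 μ0 δ0 (agg^[m] p))) 2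
          rw [sq_abs, mul_pow, Real.sq_sqrt (sum_nonneg fun _ _ => sq_nonneg _)] at this
          exact this.trans (mul_le_mul_of_nonneg_left (dist_le U hδ m K p) (sq_nonneg _))
        have k2 : F (inn Λ0 μ0 δ0 (agg^[m] p)) = Real.tanh (Yp δ0 (agg^[m] p) K v) := by
          simp only [F, eul_inn hδ0']
        rw [← k2]
        change (F (agg^[m] (inn Λ μ δ p)) - _) ^ 2 ≤ _
        generalize F (agg^[m] (inn Λ μ δ p)) = x1 at *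
        generalize Gs (agg^[m] (inn Λ μ δ p)) = x2 at *
        generalize Gs (inn Λ0 μ0 δ0 (agg^[m] p)) = x3 at *
        generalize F (inn Λ0 μ0 δ0 (agg^[m] p)) = x4 at *
        generalize sp A v = x5 at *
        nlinarith [sq_nonneg ((x1 - x2) - (x2 - x3)), sq_nonneg ((x1 - x2) - (x3 - x4)),
          sq_nonneg ((x1 - x2) - (x4 - x5)), sq_nonneg ((x2 - x3) - (x3 - x4)),
          sq_nonneg ((x2 - x3) - (x4 - x5)), sq_nonneg ((x3 - x4) - (x4 - x5))]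
    _ ≤ _ := by
        rw [EE_mul, EE_add δ (fun _ => (b1.add b2).add b3) b4,
          EE_add δ (fun _ => b1.add b2) (fun _ => b3), EE_add δ (fun _ => b1) (fun _ => b2),
          EE_mul, EE_DD hU h h0 hm hδ, e3]
        simp only [F]
        linarith

theorem pow_eq (n m : ℕ) : (2 : ℝ) ^ m * (1 / 2 ^ (n + m)) = 1 / 2 ^ n := by
  rw [pow_add]; field_simp

theorem pow_eq' (T n m : ℕ) : 2 ^ m * (T * 2 ^ n) = T * 2 ^ (n + m) := by ring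

theorem pow_eq'' (T n : ℕ) : ((T * 2 ^ n : ℕ) : ℝ) * (1 / 2 ^ n) = T := by
  push_cast; field_simp

end H

theorem FF_dep (G : SimpleGraph V) [G.LocallyFinite] (θ : ℝ) (T R n m : ℕ) (v : V) :
    DependsOn (fun z => FF G θ T R n v (agg^[m] z)) (past (ball G v R) (T * 2 ^ (n + m))) := by
  rw [← H.pow_eq']
  exact H.iter_dep m (H.tanh_dep _ _ (H.self_mem_ball G v R))

open H in
theorem approx {G : SimpleGraph V} (hT : G.IsTree) [G.LocallyFinite] {d : ℕ} (hd : 3 ≤ d)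
    (hreg : G.IsRegularOfDegree d) {θ : ℝ} (h0 : 0 ≤ θ) (hθ : ((d : ℝ) - 1) * θ ^ 2 ≤ 1)
    {ε : ℝ} (hε : 0 < ε) : ∃ T : ℕ, ∀ v : V, ∃ R0 : ℕ, ∀ R, R0 ≤ R → ∃ n0 : ℕ, ∀ n, n0 ≤ n →
    ∀ Λ : Finset V, Cvx G Λ → ball G v R ⊆ Λ → ∃ m0 : ℕ, ∀ m, m0 ≤ m →
      EE Λ (mu G θ Λ) (1 / 2 ^ (n + m)) (fun A p =>
        (FF G θ T R n v (agg^[m] (inn Λ (mu G θ Λ) (1 / 2 ^ (n + m)) p)) - sp A v) ^ 2) ≤ ε := by
  have hθ1 : θ < 1 := by
    have : (3 : ℝ) ≤ d := by exact_mod_cast hd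
    nlinarith [sq_nonneg θ]
  have hprior : ∀ Λ, Cvx G Λ → Λ.Nonempty → Prior Λ (mu G θ Λ) := fun Λ h1 h2 =>
    prior_mu hT h1 h2 h0 hθ1
  have hmarg : ∀ Λ Λ0, Cvx G Λ → Cvx G Λ0 → Λ0 ⊆ Λ → Λ0.Nonempty →
      Marg Λ (mu G θ Λ) Λ0 (mu G θ Λ0) := fun Λ Λ0 h1 h2 h3 h4 => ⟨h3, mu_marg hT h1 h2 h3 h4⟩
  obtain ⟨T, hT1⟩ : ∃ T : ℕ, 2 * Real.exp (-(T : ℝ) / 2) ≤ ε / 16 := by
    obtain ⟨T, hT⟩ := exists_nat_ge (64 / ε)
    refine ⟨T, ?_⟩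
    have h1 := Real.add_one_le_exp ((T : ℝ) / 2)
    rw [div_le_iff₀ hε] at hT
    rw [neg_div, Real.exp_neg, ← div_eq_mul_inv, div_le_iff₀ (Real.exp_pos _)]
    nlinarith
  obtain ⟨C, hC⟩ := core hT hd hreg h0 hθ T
  set e : ℝ := min 1 (ε / 200) with he
  have e0 : 0 < e := lt_min one_pos (by positivity)
  have e1 : e ≤ 1 := min_le_left _ _
  have e2 : e ≤ ε / 200 := min_le_right _ _
  set φ : ℝ := e / (|C| + 1) with hφ
  have hC1 : 0 < |C| + 1 := by positivity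
  have φ0 : 0 < φ := div_pos e0 hC1
  have φ1 : φ ≤ 1 := by rw [hφ, div_le_one hC1]; linarith [abs_nonneg C]
  have φ2 : φ ^ 2 * (C + e) ≤ e := by
    have : φ * (|C| + 1) = e := div_mul_cancel₀ _ hC1.ne'
    have h3 : φ * (C + e) ≤ e := by nlinarith [le_abs_self C]
    nlinarith [le_abs_self C, abs_nonneg C, neg_abs_le C]
  obtain ⟨r, hr⟩ := hC e e0
  refine ⟨T, fun v => ?_⟩
  set U := ball G v r with hU
  have hvU : v ∈ U := self_mem_ball G v r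
  let S : Set ℝ := {x | ∃ Λ n, Cvx G Λ ∧ U ⊆ Λ ∧ x = II U Λ (mu G θ Λ) (1 / 2 ^ n) (T * 2 ^ n)}
  have Sb : BddAbove S := ⟨#U * T, by
    rintro _ ⟨Λ, n, h1, h2, rfl⟩
    have := II_le U (hprior Λ h1 ⟨v, h2 hvU⟩) (δ := 1 / 2 ^ n) (by positivity) (T * 2 ^ n)
    rwa [pow_eq''] at this⟩
  have Sn : S.Nonempty := ⟨_, U, 0, cvx_ball hT v r, subset_rfl, rfl⟩
  obtain ⟨_, ⟨Λ1, n1, c1, s1, rfl⟩, hsup⟩ := exists_lt_of_lt_csSup Sn
    (show sSup S - φ ^ 2 * ε / 256 < sSup S by linarith [show 0 < φ ^ 2 * ε / 256 by positivity])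
  refine ⟨max r (Λ1.sup fun x => G.dist x v), fun R hR => ?_⟩
  set Λ0 := ball G v R with hΛ0
  have hv0 : v ∈ Λ0 := self_mem_ball G v R
  have c0 : Cvx G Λ0 := cvx_ball hT v R
  have p0 := hprior Λ0 c0 ⟨v, hv0⟩
  have hU0 : U ⊆ Λ0 := fun x hx => (mem_ball hT).2
    (((mem_ball hT).1 hx).trans ((le_max_left _ _).trans hR))
  have h10 : Λ1 ⊆ Λ0 := fun x hx => (mem_ball hT).2
    ((le_sup (f := fun x => G.dist x v) hx).trans ((le_max_right _ _).trans hR))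
  obtain ⟨na, hna⟩ := hr v R Λ0 rfl
  obtain ⟨nb, hnb⟩ := tv' Λ0 T (T * #Λ0 * Real.exp (4 * #Λ0 * T) ^ 2) e0
  obtain ⟨nc, hnc⟩ := tv' Λ0 T 4 e0
  refine ⟨max (max na n1) (max nb nc), fun n hn Λ cΛ sΛ => ?_⟩
  simp only [max_le_iff] at hn
  obtain ⟨⟨hn1, hn2⟩, hn3, hn4⟩ := hn
  have pΛ := hprior Λ cΛ ⟨v, sΛ hv0⟩
  obtain ⟨m0, hm0⟩ := tv' Λ T 4 e0
  refine ⟨m0, fun m hm => ?_⟩
  set K := T * 2 ^ n with hK
  set δ : ℝ := 1 / 2 ^ n with hδ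
  have hδ0 : 0 ≤ δ := by positivity
  have hKδ : K * δ = T := pow_eq'' T n
  obtain ⟨Gs, g1, g2, g3, g4⟩ := smooth_eul p0 hδ0 K hv0 U φ0 φ1
  obtain ⟨k1, k2⟩ := hna n hn1 δ K rfl rfl
  have hX : ∀ W ⊆ Λ0, ∫ z, XS W Λ0 (mu G θ Λ0) δ K v (eul Λ0 (mu G θ Λ0) δ z) ∂gam _ ≤
      EE Λ0 (mu G θ Λ0) δ (fun _ p => XS W Λ0 (mu G θ Λ0) δ K v (Yp δ p)) + e := fun W hW => by
    have := hnb _ p0 n hn3 K hKδ.le (fun z => XS W Λ0 (mu G θ Λ0) δ K v (eul Λ0 (mu G θ Λ0) δ z))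
      ((measurable_XS W δ K v).comp (measurable_eul' δ))
      (fun z => by
        have := XS_mem p0 hW hδ0 hKδ.le v (eul Λ0 (mu G θ Λ0) δ z)
        exact (abs_of_nonneg this.1).trans_le this.2) (XS_dep W δ K v)
    simp only [← hδ, funext (eul_inn hδ0 _)] at this
    linarith [(abs_le.1 this).2]
  let Q : (V × ℕ → ℝ) → ℝ := fun z => (Real.tanh (eul Λ0 (mu G θ Λ0) δ z K v) - Gs z) ^ 2
  have hQ : ∫ z, Q z ∂gam _ ≤ 7 * e := by
    have a1 := (hX Λ0 subset_rfl).trans (add_le_add_left k1 e)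
    have a2 := (hX (Λ0 \ U) sdiff_subset).trans (add_le_add_left k2 e)
    have a3 := mul_le_mul_of_nonneg_left a1 (sq_nonneg φ)
    linarith
  have mQ : Measurable Q :=
    ((measurable_tanh.comp ((measurable_pi_apply v).comp (measurable_eul δ K))).sub g1).pow_const 2
  have bQ : ∀ z, |Q z| ≤ 4 := fun z => by
    have a1 := abs_le.1 (g2 z)
    have a2 := abs_lt.1 (Real.abs_tanh_lt_one (eul Λ0 (mu G θ Λ0) δ z K v))
    rw [abs_of_nonneg (sq_nonneg _)]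
    nlinarith
  have dQ : DependsOn Q (past Λ0 K) := fun z z' hz => by
    simp only [Q, tanh_dep δ K hv0 hz, lip_dep hU0 g3 hz]
  have t3 := hnc _ p0 n hn4 K hKδ.le Q mQ bQ dQ
  have t1 := hm0 _ pΛ (n + m) (by omega) (T * 2 ^ (n + m)) (pow_eq'' T _).le
    (fun z => Q (agg^[m] z)) (mQ.comp (iter_mp m).measurable) (fun z => bQ _)
    (by rw [← pow_eq']; exact (iter_dep m dQ).mono (past_mono sΛ le_rfl))
  rw [integral_mp (iter_mp m) mQ] at t1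
  have t2 : II U Λ (mu G θ Λ) (1 / 2 ^ (n + m)) (T * 2 ^ (n + m)) - II U Λ0 (mu G θ Λ0) δ K ≤
      φ ^ 2 * ε / 256 := by
    have a1 : II U Λ (mu G θ Λ) (1 / 2 ^ (n + m)) (T * 2 ^ (n + m)) ≤ sSup S :=
      le_csSup Sb ⟨Λ, n + m, cΛ, hU0.trans sΛ, rfl⟩
    obtain ⟨l, rfl⟩ := Nat.exists_eq_add_of_le hn2
    have a2 := II_mono s1 p0 (hprior Λ1 c1 ⟨v, s1 hvU⟩) (hmarg Λ0 Λ1 c0 c1 h10 ⟨v, s1 hvU⟩)
      hδ0 l (T * 2 ^ n1)
    rw [hδ, pow_eq, pow_eq'] at a2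
    linarith
  have key := four pΛ p0 (hmarg Λ Λ0 cΛ c0 sΛ ⟨v, hv0⟩) (δ := 1 / 2 ^ (n + m)) (by positivity) m K
    hv0 hU0 ⟨g1, 1, g2⟩ g3
  rw [pow_eq, ← hδ, hKδ, pow_eq'] at key
  refine key.trans ?_
  have a4 : (4 / φ) ^ 2 * (II U Λ (mu G θ Λ) (1 / 2 ^ (n + m)) (T * 2 ^ (n + m)) -
      II U Λ0 (mu G θ Λ0) δ K) ≤ ε / 16 := by
    refine (mul_le_mul_of_nonneg_left t2 (sq_nonneg _)).trans (le_of_eq ?_)
    field_simp; ring
  have a5 := (abs_le.1 t1).1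
  have a6 := (abs_le.1 t3).1
  simp only [Q] at a5 a6 hQ
  linarith

end Crest.Agent.R160
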