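import Crest.Agent.R160.Gauss

/-! Row 160, sub-task B: Bayes formula, Markov property, total variation, derivative. -/

set_option autoImplicit false

namespace Crest.Agent.R160

open MeasureTheory ProbabilityTheory Finset

variable {V : Type*} [DecidableEq V] {Λ : Finset V} {μ : Finset V → ℝ}

namespace BayesAux

theorem sum_S {δ : ℝ} (hδ : 0 ≤ δ) (k : ℕ) (A : Finset V) (z : V × ℕ → ℝ) :
    ∑ i ∈ Λ ×ˢ range k, (√δ * sp A i.1 * z i - (√δ * sp A i.1) ^ 2 / 2) =
      ∑ v ∈ Λ, Yp δ z k v * sp A v - k * δ * #Λ / 2 := by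
  rw [sum_product]
  simp only [mul_pow, sp_sq, Real.sq_sqrt hδ, sum_sub_distrib, sum_const, card_range, nsmul_eq_mul,
    Yp]
  congr 1
  · refine sum_congr rfl fun v _ => ?_
    rw [← mul_sum]; ring
  · ring

theorem integrable_wt (δ : ℝ) (k : ℕ) (A : Finset V) :
    Integrable (fun z => wt Λ μ (Yp δ z k) A) (gam (V × ℕ)) := by
  have := (integrable_exp_lin (Λ ×ˢ range k) (fun i : V × ℕ => √δ * sp A i.1)).const_mul (μ A)
  refine this.congr (ae_of_all _ fun z => ?_)
  simp only [wt, Yp, sum_product]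
  congr 2
  refine sum_congr rfl fun v _ => ?_
  rw [← mul_sum]; ring

theorem obs_int {δ : ℝ} (hδ : 0 ≤ δ) (k : ℕ) (A : Finset V) {F : (V × ℕ → ℝ) → ℝ}
    (hF : Measurable F) (hd : DependsOn F (past Λ k)) :
    μ A * ∫ z, F (obs δ A z) ∂gam _ =
      ∫ z, Real.exp (-(k * δ * #Λ / 2)) * (wt Λ μ (Yp δ z k) A * F z) ∂gam _ := by
  have h1 : ∀ z, F (obs δ A z) =
      F (fun i => z i + if i ∈ Λ ×ˢ range k then √δ * sp A i.1 else 0) := fun z =>
    hd fun i hi => by
      have : i ∈ Λ ×ˢ range k := mem_product.2 ⟨hi.1, mem_range.2 hi.2⟩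
      simp only [obs, this, if_true]
  simp only [h1]
  rw [integral_shift _ _ hF, ← integral_const_mul]
  refine integral_congr_ae (ae_of_all _ fun z => ?_)
  simp only [sum_S hδ, wt]
  rw [sub_eq_add_neg, Real.exp_add]
  ring

theorem EE_dens {δ : ℝ} (hδ : 0 ≤ δ) (k : ℕ) {Φ : Finset V → (V × ℕ → ℝ) → ℝ}
    (hΦ : ∀ A, BM (Φ A)) (hd : ∀ A, DependsOn (Φ A) (past Λ k)) :
    EE Λ μ δ Φ = ∫ z, Real.exp (-(k * δ * #Λ / 2)) *
      ∑ A ∈ Λ.powerset, wt Λ μ (Yp δ z k) A * Φ A z ∂gam _ := by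
  unfold EE
  simp only [fun A => obs_int (μ := μ) hδ k A (hΦ A).1 (hd A), mul_sum]
  rw [integral_finsetSum]
  intro A _
  obtain ⟨h1, C, h2⟩ := hΦ A
  exact ((integrable_wt δ k A).mul_bdd h1.aestronglyMeasurable (ae_of_all _ h2)).const_mul _

theorem bm_Ex {α : Type*} [MeasurableSpace α] (h : Prior Λ μ) {y : α → V → ℝ} (hy : Measurable y)
    {ψ : Finset V → α → ℝ} (hψ : ∀ A, BM (ψ A)) : BM fun a => Ex Λ μ (y a) (fun A => ψ A a) := by
  choose C hC using fun A => (hψ A).2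
  refine ⟨measurable_Ex hy fun A => (hψ A).1, ∑ A ∈ Λ.powerset, |C A|, fun a => ?_⟩
  refine h.abs_Ex_le _ fun A hA => (hC A a).trans ((le_abs_self _).trans ?_)
  exact single_le_sum (f := fun A => |C A|) (fun _ _ => abs_nonneg _) (mem_powerset.2 hA)

theorem bayes' (h : Prior Λ μ) {δ : ℝ} (hδ : 0 ≤ δ) (k : ℕ) {Φ : Finset V → (V × ℕ → ℝ) → ℝ}
    (hΦ : ∀ A, BM (Φ A)) (hd : ∀ A, DependsOn (Φ A) (past Λ k)) :
    EE Λ μ δ Φ = EE Λ μ δ (fun _ p => Ex Λ μ (Yp δ p k) (fun A => Φ A p)) := by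
  rw [EE_dens hδ k hΦ hd, EE_dens hδ k (fun _ => bm_Ex h (measurable_Yp δ k) hΦ)]
  · refine integral_congr_ae (ae_of_all _ fun z => ?_)
    simp only [← sum_mul, Ex]
    rw [mul_div_cancel₀ _ (h.Z_pos _).ne']
  · intro _ p p' hp
    simp only
    rw [Ex_dep (Yp_dep δ hp le_rfl)]
    exact Ex_congr _ fun A _ => hd A hp

theorem measurable_upd {α : Type*} [MeasurableSpace α] {p : α → V × ℕ → ℝ} (hp : Measurable p)
    (k : ℕ) {g : α → V → ℝ} (hg : Measurable g) : Measurable fun a => upd (p a) k (g a) := by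
  refine measurable_pi_lambda _ fun i => ?_
  unfold upd
  split_ifs
  · exact (measurable_pi_apply _).comp hg
  · exact (measurable_pi_apply _).comp hp

theorem integral_upd (k : ℕ) {f : (V × ℕ → ℝ) → ℝ} (hf : BM f) :
    ∫ z, f z ∂gam _ = ∫ z, ∫ g, f (upd z k g) ∂gam V ∂gam _ := by
  rw [integral_merge (fun i : V × ℕ => ¬ i.2 = k) hf]
  refine integral_congr_ae (ae_of_all _ fun z => ?_)
  have hi : Function.Injective fun v : V => (v, k) := fun a b h => (Prod.ext_iff.1 h).1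
  have := integral_mp (gam_inj hi) (f := fun g => f (upd z k g))
    (hf.1.comp (measurable_upd measurable_const k measurable_id))
  simp only
  rw [← this]
  refine integral_congr_ae (ae_of_all _ fun z' => ?_)
  simp only
  congr 1
  funext i
  by_cases hik : i.2 = k
  · simp only [upd, hik, not_true, if_true, if_false]
    rw [← hik]
  · simp [upd, hik]

theorem sum_law (δ : ℝ) {b k : ℕ} (hb : b ≤ k) (a : V → ℝ) {X : (V → ℝ) → ℝ}
    (hX : Measurable X) :
    ∫ z, X (fun v => a v + √δ * ∑ j ∈ Ico b k, z (v, j)) ∂gam (V × ℕ) =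
      ∫ g, X (fun v => a v + √(((k : ℝ) - b) * δ) * g v) ∂gam V := by
  rcases hb.eq_or_lt with rfl | hlt
  · simp
  have hpos : (0 : ℝ) < (k : ℝ) - b := sub_pos.2 (by exact_mod_cast hlt)
  have hs : 0 < √((k : ℝ) - b) := Real.sqrt_pos.2 hpos
  have hm : ∀ (v : V), ∀ j ∈ Ico b k, (v, j) ∈ ({v} : Finset V) ×ˢ Ico b k := fun v j hj =>
    mem_product.2 ⟨mem_singleton_self _, hj⟩
  have hmp := gam_orth (ι := V × ℕ) (κ := V) (fun v => {v} ×ˢ Ico b k)
    (fun v i => if i ∈ {v} ×ˢ Ico b k then 1 / √((k : ℝ) - b) else 0)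
    (fun v i hi => if_neg hi) (fun v v' => by
      rw [sum_product, sum_singleton]
      split_ifs with hv
      · subst hv
        rw [sum_congr rfl (g := fun _ => 1 / ((k : ℝ) - b)) fun j hj => by
          rw [if_pos (hm v j hj), div_mul_div_comm, one_mul,
            Real.mul_self_sqrt hpos.le]]
        rw [sum_const, Nat.card_Ico, nsmul_eq_mul, Nat.cast_sub hb, mul_one_div_cancel hpos.ne']
      · refine sum_eq_zero fun j _ => ?_
        rw [if_neg (c := (v, j) ∈ {v'} ×ˢ Ico b k), mul_zero]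
        exact fun h => hv (mem_singleton.1 (mem_product.1 h).1))
  rw [← integral_mp hmp (f := fun g => X (fun v => a v + √(((k : ℝ) - b) * δ) * g v))
    (hX.comp (by fun_prop))]
  refine integral_congr_ae (ae_of_all _ fun z => ?_)
  simp only
  congr 1
  funext v
  have : ∑ j ∈ Ico b k, (if (v, j) ∈ ({v} : Finset V) ×ˢ Ico b k then 1 / √((k : ℝ) - b) else 0) *
      z (v, j) = 1 / √((k : ℝ) - b) * ∑ j ∈ Ico b k, z (v, j) := by
    rw [mul_sum]
    exact sum_congr rfl fun j hj => by rw [if_pos (hm v j hj)]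
  rw [sum_product, sum_singleton, this, Real.sqrt_mul hpos.le]
  field_simp

end BayesAux

open BayesAux

theorem bayes (h : Prior Λ μ) {δ : ℝ} (hδ : 0 ≤ δ) (k : ℕ) {Φ : (V × ℕ → ℝ) → ℝ} (hΦ : BM Φ)
    (hd : DependsOn Φ (past Λ k)) (ψ : Finset V → ℝ) :
    EE Λ μ δ (fun A p => ψ A * Φ p) = EE Λ μ δ (fun _ p => Ex Λ μ (Yp δ p k) ψ * Φ p) := by
  rw [bayes' h hδ k (fun A => (BM.const (ψ A)).mul hΦ) fun A p p' hp => by simp only [hd hp]]
  congr 1
  funext _ p
  simp only [mul_comm _ (Φ p), Ex_mul]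

theorem markov (h : Prior Λ μ) {δ : ℝ} (hδ : 0 ≤ δ) (k : ℕ) {Ψ : (V × ℕ → ℝ) → ℝ} (hΨ : BM Ψ)
    (hd : DependsOn Ψ (past Λ (k + 1))) :
    EE Λ μ δ (fun _ p => Ψ p) = EE Λ μ δ (fun _ p => Ex Λ μ (Yp δ p k)
      (fun A => ∫ g, Ψ (upd p k (fun v => g v + √δ * sp A v)) ∂gam V)) := by
  rw [← bayes' h hδ k (Φ := fun A p => ∫ g, Ψ (upd p k (fun v => g v + √δ * sp A v)) ∂gam V)]
  · unfold EE
    refine sum_congr rfl fun A _ => ?_
    rw [integral_upd k (hΨ.comp (measurable_obs δ A))]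
    congr 1
    refine integral_congr_ae (ae_of_all _ fun z => integral_congr_ae (ae_of_all _ fun g => ?_))
    simp only
    congr 1
    funext i
    by_cases hik : i.2 = k <;> simp [upd, obs, hik]
  · intro A
    exact BM.integral_right (F := fun q : (V × ℕ → ℝ) × (V → ℝ) =>
      Ψ (upd q.1 k (fun v => q.2 v + √δ * sp A v)))
      (hΨ.comp (measurable_upd measurable_fst k (by fun_prop))) _
  · intro A p p' hp
    refine integral_congr_ae (ae_of_all _ fun g => hd fun i hi => ?_)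
    by_cases hik : i.2 = k
    · simp [upd, hik]
    · simp only [upd, hik, if_false]
      exact hp i ⟨hi.1, lt_of_le_of_ne (Nat.lt_succ_iff.1 hi.2) hik⟩

theorem EE_law {δ : ℝ} (hδ : 0 ≤ δ) (k : ℕ) {f : Finset V → (V → ℝ) → ℝ}
    (hf : ∀ A, Measurable (f A)) :
    EE Λ μ δ (fun A p => f A (Yp δ p k)) = ∑ A ∈ Λ.powerset,
      μ A * ∫ g, f A (fun v => (k * δ) * sp A v + √(k * δ) * g v) ∂gam V := by
  unfold EE
  refine sum_congr rfl fun A _ => ?_
  have := sum_law δ (Nat.zero_le k) (fun v => (k * δ) * sp A v) (hf A)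
  simp only [Nat.cast_zero, sub_zero] at this
  rw [← this]
  congr 1
  refine integral_congr_ae (ae_of_all _ fun z => ?_)
  simp only
  congr 1
  funext v
  simp only [Yp, obs, sum_add_distrib, sum_const, nsmul_eq_mul, range_eq_Ico]
  simp only [Nat.card_Ico, Nat.sub_zero]
  linear_combination (k * sp A v) * Real.mul_self_sqrt hδ

theorem cond_law {δ : ℝ} (hδ : 0 ≤ δ) (A : Finset V) {b k : ℕ} (hb : b ≤ k)
    {f : (V × ℕ → ℝ) → ℝ} (hf : BM f) (hf0 : ∀ p, 0 ≤ f p) (hd : DependsOn f {i | i.2 < b})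
    {X : (V → ℝ) → ℝ} (hX : BM X) {x : ℝ}
    (hx : ∀ a : V → ℝ, ∫ g, X (fun v => a v + √(((k : ℝ) - b) * δ) * g v) ∂gam V ≤ x) :
    ∫ z, f (obs δ A z) * X (Yp δ (obs δ A z) k) ∂gam _ ≤ x * ∫ z, f (obs δ A z) ∂gam _ := by
  have hB : BM fun z => f (obs δ A z) * X (Yp δ (obs δ A z) k) :=
    (hf.comp (measurable_obs δ A)).mul (hX.comp ((measurable_Yp δ k).comp (measurable_obs δ A)))
  rw [integral_merge (fun i : V × ℕ => i.2 < b) hB, ← integral_const_mul]
  refine integral_mono ?_ (((hf.comp (measurable_obs δ A)).integrable _).const_mul _) fun z => ?_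
  · exact (BM.integral_right (hB.comp (gam_merge (fun i : V × ℕ => i.2 < b)).measurable)
      _).integrable _
  · have h1 : ∀ z' : V × ℕ → ℝ, f (obs δ A fun j => if j.2 < b then z j else z' j) =
        f (obs δ A z) := fun z' => hd fun i hi => by
      have hi' : i.2 < b := hi
      simp only [obs, hi', if_true]
    have h2 : ∀ z' : V × ℕ → ℝ, Yp δ (obs δ A fun j => if j.2 < b then z j else z' j) k =
        fun v => (√δ * ∑ j ∈ range b, z (v, j) + k * δ * sp A v) +
          √δ * ∑ j ∈ Ico b k, z' (v, j) := fun z' => by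
      funext v
      simp only [Yp, obs, sum_add_distrib, sum_const, card_range, nsmul_eq_mul]
      rw [← sum_range_add_sum_Ico _ hb,
        sum_congr rfl (g := fun j => z (v, j)) fun j hj => if_pos (mem_range.1 hj),
        sum_congr rfl (g := fun j => z' (v, j)) fun j hj => if_neg (not_lt.2 (mem_Ico.1 hj).1)]
      linear_combination (k * sp A v) * Real.mul_self_sqrt hδ
    simp only [h1, h2]
    rw [integral_const_mul, sum_law δ hb _ hX.1, mul_comm]
    exact mul_le_mul_of_nonneg_right (hx _) (hf0 _)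

namespace BayesAux

theorem integrable_Ex {α : Type*} [MeasurableSpace α] {ν : Measure α} (y : V → ℝ)
    {F : Finset V → α → ℝ} (hF : ∀ A, Integrable (F A) ν) :
    Integrable (fun a => Ex Λ μ y (fun A => F A a)) ν :=
  (integrable_finsetSum _ fun A _ => (hF A).const_mul _).div_const _

theorem integral_Ex {α : Type*} [MeasurableSpace α] {ν : Measure α} (y : V → ℝ)
    {F : Finset V → α → ℝ} (hF : ∀ A, Integrable (F A) ν) :
    ∫ a, Ex Λ μ y (fun A => F A a) ∂ν = Ex Λ μ y (fun A => ∫ a, F A a ∂ν) := by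
  unfold Ex
  rw [integral_div, integral_finsetSum _ fun A _ => (hF A).const_mul _]
  simp only [integral_const_mul]

theorem eul_dep (δ : ℝ) {z z' : V × ℕ → ℝ} {k : ℕ} (h : ∀ i ∈ past Λ k, z i = z' i) {j : ℕ}
    (hj : j ≤ k) : ∀ v ∈ Λ, eul Λ μ δ z j v = eul Λ μ δ z' j v := by
  induction j with
  | zero => intro v _; rfl
  | succ j ih =>
    intro v hv
    have e := ih (Nat.le_of_succ_le hj)
    simp only [eul]
    rw [e v hv, mg_dep e, h (v, j) ⟨hv, hj⟩]

theorem inn_dep (δ : ℝ) {k : ℕ} {Φ : (V × ℕ → ℝ) → ℝ} (hd : DependsOn Φ (past Λ k)) :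
    DependsOn (fun p => Φ (inn Λ μ δ p)) (past Λ k) := fun p p' hp => hd fun i hi => by
  simp only [inn]
  rw [hp i hi, mg_dep (Yp_dep δ hp (le_of_lt hi.2))]

/-- Cameron-Martin density -/
noncomputable def cm (Λ : Finset V) (a g : V → ℝ) : ℝ :=
  Real.exp (∑ v ∈ Λ, (a v * g v - a v ^ 2 / 2))

omit [DecidableEq V] in
theorem cm_mul (a b g : V → ℝ) : cm Λ a g * cm Λ b g =
    Real.exp (-∑ v ∈ Λ, (a v ^ 2 / 2 + b v ^ 2 / 2)) * Real.exp (∑ v ∈ Λ, (a v + b v) * g v) := by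
  simp only [cm, ← Real.exp_add, ← sum_neg_distrib, ← sum_add_distrib]
  congr 1
  exact sum_congr rfl fun v _ => by ring

omit [DecidableEq V] in
theorem integrable_cm_mul (a b : V → ℝ) : Integrable (fun g => cm Λ a g * cm Λ b g) (gam V) := by
  simp only [cm_mul]
  exact (integrable_exp_lin Λ fun v => a v + b v).const_mul _

omit [DecidableEq V] in
theorem integrable_cm (a : V → ℝ) : Integrable (fun g => cm Λ a g) (gam V) := by
  simpa [cm] using integrable_cm_mul (Λ := Λ) a 0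

omit [DecidableEq V] in
theorem integral_cm_mul (a b : V → ℝ) :
    ∫ g, cm Λ a g * cm Λ b g ∂gam V = Real.exp (∑ v ∈ Λ, a v * b v) := by
  simp only [cm_mul]
  rw [integral_const_mul, integral_exp_lin Λ fun v => a v + b v, ← Real.exp_add, sum_div,
    ← sum_neg_distrib, ← sum_add_distrib]
  congr 1
  exact sum_congr rfl fun v _ => by ring

theorem one_step (h : Prior Λ μ) {δ : ℝ} (hδ : 0 ≤ δ) (hs : 4 * δ * #Λ ≤ 1) (y : V → ℝ)
    {H : (V → ℝ) → ℝ} (hH : BM H) (hd : DependsOn H Λ) :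
    (Ex Λ μ y (fun A => ∫ g, H (fun v => g v + √δ * (sp A v - mg Λ μ y v)) ∂gam V)) ^ 2 ≤
      (1 + (4 * δ * #Λ) ^ 2) * ∫ g, H g ^ 2 ∂gam V := by
  set a : Finset V → V → ℝ := fun A v => √δ * (sp A v - mg Λ μ y v) with ha
  have h1 : ∀ A, ∫ g, H (fun v => g v + a A v) ∂gam V = ∫ g, cm Λ (a A) g * H g ∂gam V := by
    intro A
    unfold cm
    rw [← integral_shift Λ (a A) hH.1]
    refine integral_congr_ae (ae_of_all _ fun g => hd fun v hv => ?_)
    have hv' : v ∈ Λ := hv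
    simp only [hv', if_true]
  obtain ⟨hm, C, hC⟩ := id hH
  have i1 : ∀ A, Integrable (fun g => cm Λ (a A) g * H g) (gam V) := fun A =>
    (integrable_cm _).mul_bdd hm.aestronglyMeasurable (ae_of_all _ hC)
  have i2 : ∀ A, Integrable (fun g => Ex Λ μ y (fun B => cm Λ (a A) g * cm Λ (a B) g)) (gam V) :=
    fun A => integrable_Ex y fun B => integrable_cm_mul _ _
  have hR : Ex Λ μ y (fun A => Ex Λ μ y (fun B => Real.exp (∑ v ∈ Λ, a A v * a B v))) ≤
      1 + (4 * δ * #Λ) ^ 2 := by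
    rw [← h.Ex_const y (1 + (4 * δ * #Λ) ^ 2)]
    refine h.Ex_mono y fun A _ => ?_
    have hb : ∀ B, |∑ v ∈ Λ, a A v * a B v| ≤ 4 * δ * #Λ := fun B => by
      refine (abs_sum_le_sum_abs _ _).trans ?_
      refine (sum_le_card_nsmul _ _ (4 * δ) fun v _ => ?_).trans (le_of_eq (by
        rw [nsmul_eq_mul]; ring))
      have e : a A v * a B v = δ * ((sp A v - mg Λ μ y v) * (sp B v - mg Λ μ y v)) := by
        simp only [ha]
        linear_combination ((sp A v - mg Λ μ y v) * (sp B v - mg Λ μ y v)) * Real.mul_self_sqrt hδ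
      rw [e, abs_mul, abs_of_nonneg hδ, abs_mul, mul_comm 4 δ]
      refine mul_le_mul_of_nonneg_left ?_ hδ
      nlinarith [h.abs_sub_mg_le y A v, h.abs_sub_mg_le y B v, abs_nonneg (sp A v - mg Λ μ y v),
        abs_nonneg (sp B v - mg Λ μ y v)]
    have h0 : Ex Λ μ y (fun B => ∑ v ∈ Λ, a A v * a B v) = 0 := by
      rw [Ex_sum]
      refine sum_eq_zero fun v _ => ?_
      simp only [ha]
      rw [Ex_mul, Ex_mul, Ex_sub, h.Ex_const]
      simp [mg]
    calc Ex Λ μ y (fun B => Real.exp (∑ v ∈ Λ, a A v * a B v))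
        ≤ Ex Λ μ y (fun B => (1 + (4 * δ * #Λ) ^ 2) + ∑ v ∈ Λ, a A v * a B v) := by
          refine h.Ex_mono y fun B _ => ?_
          have e1 := (abs_le.1 (Real.abs_exp_sub_one_sub_id_le ((hb B).trans hs))).2
          have e2 := sq_le_sq' (abs_le.1 (hb B)).1 (abs_le.1 (hb B)).2
          linarith
      _ = _ := by rw [Ex_add, h0, h.Ex_const, add_zero]
  rw [show (fun A => ∫ g, H (fun v => g v + √δ * (sp A v - mg Λ μ y v)) ∂gam V) =
    fun A => ∫ g, cm Λ (a A) g * H g ∂gam V from funext h1]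
  set X := Ex Λ μ y (fun A => ∫ g, cm Λ (a A) g * H g ∂gam V) with hX
  set Q := ∫ g, H g ^ 2 ∂gam V with hQ
  have key : ∀ t : ℝ, 0 ≤ Q * (t * t) + (-2 * X) * t + (1 + (4 * δ * #Λ) ^ 2) := by
    intro t
    have e1 : X = ∫ g, Ex Λ μ y (fun A => cm Λ (a A) g * H g) ∂gam V := (integral_Ex y i1).symm
    have e2 : Ex Λ μ y (fun A => Ex Λ μ y (fun B => Real.exp (∑ v ∈ Λ, a A v * a B v))) =
        ∫ g, Ex Λ μ y (fun A => Ex Λ μ y (fun B => cm Λ (a A) g * cm Λ (a B) g)) ∂gam V := by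
      rw [integral_Ex y i2]
      congr 1
      funext A
      rw [integral_Ex y fun B => integrable_cm_mul _ _]
      simp only [integral_cm_mul]
    have j1 := ((hH.pow 2).integrable (gam V)).mul_const (t * t)
    have j2 := ((integrable_Ex (Λ := Λ) (μ := μ) y i1).const_mul (-2)).mul_const t
    have j3 := integrable_Ex (Λ := Λ) (μ := μ) y i2
    have : 0 ≤ ∫ g, (H g ^ 2 * (t * t) + -2 * Ex Λ μ y (fun A => cm Λ (a A) g * H g) * t +
        Ex Λ μ y (fun A => Ex Λ μ y (fun B => cm Λ (a A) g * cm Λ (a B) g))) ∂gam V := by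
      refine integral_nonneg fun g => ?_
      have f1 : Ex Λ μ y (fun A => cm Λ (a A) g * H g) =
          H g * Ex Λ μ y (fun A => cm Λ (a A) g) := by
        rw [← Ex_mul]; exact Ex_congr _ fun A _ => mul_comm _ _
      have f2 : Ex Λ μ y (fun A => Ex Λ μ y (fun B => cm Λ (a A) g * cm Λ (a B) g)) =
          Ex Λ μ y (fun A => cm Λ (a A) g) * Ex Λ μ y (fun A => cm Λ (a A) g) := by
        rw [← Ex_mul]; exact Ex_congr _ fun A _ => by rw [Ex_mul, mul_comm]
      simp only [f1, f2, Pi.zero_apply]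
      nlinarith [sq_nonneg (H g * t - Ex Λ μ y fun B => cm Λ (a B) g)]
    rw [integral_add (j1.fun_add j2) j3, integral_add j1 j2, integral_mul_const, integral_mul_const,
      integral_const_mul, ← e1, ← e2] at this
    linarith
  have := discrim_le_zero key
  unfold discrim at this
  nlinarith

theorem chi2 (h : Prior Λ μ) {δ : ℝ} (hδ : 0 ≤ δ) (hs : 4 * δ * #Λ ≤ 1) (K : ℕ) :
    ∀ Φ : (V × ℕ → ℝ) → ℝ, BM Φ → DependsOn Φ (past Λ K) →
      (EE Λ μ δ (fun _ p => Φ (inn Λ μ δ p))) ^ 2 ≤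
        (1 + (4 * δ * #Λ) ^ 2) ^ K * ∫ z, Φ z ^ 2 ∂gam _ := by
  induction K with
  | zero =>
    intro Φ _ hd
    have : Φ = fun _ => Φ 0 := funext fun z => hd fun i hi => absurd hi.2 (Nat.not_lt_zero _)
    rw [this]
    simp [h.EE_const]
  | succ K ih =>
    intro Φ hΦ hd
    let G : Finset V → (V × ℕ → ℝ) → ℝ := fun A z =>
      ∫ g, Φ (upd z K (fun v => g v + √δ * (sp A v - mg Λ μ (eul Λ μ δ z K) v))) ∂gam V
    have hG : ∀ A, BM (G A) := fun A =>
      BM.integral_right (F := fun q : (V × ℕ → ℝ) × (V → ℝ) =>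
        Φ (upd q.1 K (fun v => q.2 v + √δ * (sp A v - mg Λ μ (eul Λ μ δ q.1 K) v))))
        (hΦ.comp (measurable_upd measurable_fst K (measurable_pi_lambda _ fun v =>
          ((measurable_pi_apply v).comp measurable_snd).add ((measurable_const.sub
            ((measurable_mg v).comp ((measurable_eul δ K).comp measurable_fst))).const_mul _)))) _
    let Φ' : (V × ℕ → ℝ) → ℝ := fun z => Ex Λ μ (eul Λ μ δ z K) (fun A => G A z)
    have hΦ' : BM Φ' := bm_Ex h (measurable_eul δ K) hG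
    have hd' : DependsOn Φ' (past Λ K) := by
      intro z z' hz
      have e := eul_dep (μ := μ) δ hz le_rfl
      simp only [Φ']
      rw [Ex_dep e]
      refine Ex_congr _ fun A _ => ?_
      simp only [G]
      rw [mg_dep e]
      refine integral_congr_ae (ae_of_all _ fun g => hd fun i hi => ?_)
      by_cases hik : i.2 = K
      · simp [upd, hik]
      · simp only [upd, hik, if_false]
        exact hz i ⟨hi.1, lt_of_le_of_ne (Nat.lt_succ_iff.1 hi.2) hik⟩
    have e1 : EE Λ μ δ (fun _ p => Φ (inn Λ μ δ p)) = EE Λ μ δ (fun _ p => Φ' (inn Λ μ δ p)) := by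
      rw [markov h hδ K (hΦ.comp (measurable_inn δ)) (inn_dep δ hd)]
      congr 1
      funext _ p
      simp only [Φ', G, eul_inn hδ]
      refine Ex_congr _ fun A _ => integral_congr_ae (ae_of_all _ fun g => hd fun i hi => ?_)
      have e : ∀ j ≤ K, Yp δ (upd p K fun v => g v + √δ * sp A v) j = Yp δ p j := fun j hj => by
        funext v
        unfold Yp
        rw [sum_congr rfl fun l hl => ?_]
        have : l ≠ K := (lt_of_lt_of_le (mem_range.1 hl) hj).ne
        simp [upd, this]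
      have hi2 : i.2 ≤ K := Nat.lt_succ_iff.1 hi.2
      simp only [inn, e _ hi2]
      by_cases hik : i.2 = K
      · simp only [upd, hik, if_true]
        ring
      · simp only [upd, hik, if_false, inn]
    rw [e1]
    refine (ih Φ' hΦ' hd').trans ?_
    rw [pow_succ _ K, mul_assoc ((1 + (4 * δ * #Λ) ^ 2) ^ K)]
    refine mul_le_mul_of_nonneg_left ?_ (by positivity)
    rw [integral_upd K (hΦ.pow 2), ← integral_const_mul]
    refine integral_mono ((hΦ'.pow 2).integrable _) (((BM.integral_right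
      (F := fun q : (V × ℕ → ℝ) × (V → ℝ) => Φ (upd q.1 K q.2) ^ 2)
      ((hΦ.pow 2).comp (measurable_upd measurable_fst K measurable_snd)) _).integrable
        _).const_mul _) fun z => ?_
    refine one_step h hδ hs (eul Λ μ δ z K) (H := fun g => Φ (upd z K g))
      (hΦ.comp (measurable_upd measurable_const K measurable_id)) fun g g' hg => hd fun i hi => ?_
    by_cases hik : i.2 = K
    · simp only [upd, hik, if_true]
      exact hg _ hi.1
    · simp only [upd, hik, if_false]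

theorem Ex_deriv (h : Prior Λ μ) {y : ℝ → V → ℝ} {y' : V → ℝ} {t : ℝ}
    (hy : ∀ w ∈ Λ, HasDerivAt (fun τ => y τ w) (y' w) t) (ψ : Finset V → ℝ) :
    HasDerivAt (fun τ => Ex Λ μ (y τ) ψ) (Ex Λ μ (y t) (fun A => ψ A * ∑ w ∈ Λ, y' w * sp A w) -
      Ex Λ μ (y t) ψ * Ex Λ μ (y t) (fun A => ∑ w ∈ Λ, y' w * sp A w)) t := by
  have hw : ∀ A, HasDerivAt (fun τ => wt Λ μ (y τ) A)
      (wt Λ μ (y t) A * ∑ w ∈ Λ, y' w * sp A w) t := fun A => by
    have := ((HasDerivAt.fun_sum fun w hw => (hy w hw).mul_const (sp A w)).exp).const_mul (μ A)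
    simpa only [wt, mul_assoc] using this
  have hN := HasDerivAt.fun_sum (u := Λ.powerset) fun A _ => (hw A).mul_const (ψ A)
  have hZ := HasDerivAt.fun_sum (u := Λ.powerset) fun A _ => hw A
  have hp := (h.Z_pos (y t)).ne'
  refine (hN.fun_div hZ hp).congr_deriv ?_
  unfold Ex
  simp only [mul_right_comm (wt Λ μ (y t) _) _ (ψ _), ← mul_assoc (wt Λ μ (y t) _) (ψ _)]
  field_simp

theorem mg_deriv (h : Prior Λ μ) {y : ℝ → V → ℝ} {y' : V → ℝ} {t : ℝ}
    (hy : ∀ w ∈ Λ, HasDerivAt (fun τ => y τ w) (y' w) t) (v : V) :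
    HasDerivAt (fun τ => mg Λ μ (y τ) v) (∑ w ∈ Λ, cv Λ μ (y t) v w * y' w) t := by
  refine (Ex_deriv h hy fun A => sp A v).congr_deriv ?_
  simp only [mul_sum, Ex_sum, ← sum_sub_distrib]
  refine sum_congr rfl fun w _ => ?_
  have e : ∀ A, (sp A v - mg Λ μ (y t) v) * (sp A w - mg Λ μ (y t) w) =
      (sp A v * sp A w - mg Λ μ (y t) w * sp A v) -
        (mg Λ μ (y t) v * sp A w - mg Λ μ (y t) v * mg Λ μ (y t) w) := fun A => by ring
  simp only [cv, e, Ex_sub, Ex_mul, h.Ex_const, mul_left_comm _ (y' w)]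
  simp only [mg]
  ring

end BayesAux

theorem tv (Λ : Finset V) (T : ℝ) {ε : ℝ} (hε : 0 < ε) : ∃ δ0 : ℝ, 0 < δ0 ∧
    ∀ μ, Prior Λ μ → ∀ δ : ℝ, 0 < δ → δ ≤ δ0 → ∀ K : ℕ, K * δ ≤ T →
    ∀ Φ : (V × ℕ → ℝ) → ℝ, Measurable Φ → (∀ z, |Φ z| ≤ 1) → DependsOn Φ (past Λ K) →
      |∫ z, Φ z ∂gam _ - EE Λ μ δ (fun _ p => Φ (inn Λ μ δ p))| ≤ ε := by
  set θ : ℝ := min 1 (ε ^ 2 / 16) with hθ
  have hθ0 : 0 < θ := lt_min one_pos (by positivity)
  have hθ1 : θ ≤ 1 := min_le_left _ _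
  have hθ2 : θ ≤ ε ^ 2 / 16 := min_le_right _ _
  have hlog : 0 < Real.log (1 + θ) := Real.log_pos (by linarith)
  set n : ℝ := (#Λ : ℝ) with hn
  have hn0 : 0 ≤ n := Nat.cast_nonneg _
  refine ⟨min (1 / (4 * n + 1)) (Real.log (1 + θ) / (16 * (|T| + 1) * (n ^ 2 + 1))),
    lt_min (by positivity) (by positivity), fun μ h δ hδ hδ0 K hK Φ hm hb hd => ?_⟩
  have a1 : δ * (4 * n + 1) ≤ 1 := (le_div_iff₀ (by positivity)).1 (hδ0.trans (min_le_left _ _))
  have a2 : δ * (16 * (|T| + 1) * (n ^ 2 + 1)) ≤ Real.log (1 + θ) :=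
    (le_div_iff₀ (by positivity)).1 (hδ0.trans (min_le_right _ _))
  have hs : 4 * δ * n ≤ 1 := by nlinarith
  have hpow : (1 + (4 * δ * n) ^ 2) ^ K ≤ 1 + θ := by
    calc (1 + (4 * δ * n) ^ 2) ^ K ≤ Real.exp ((4 * δ * n) ^ 2) ^ K :=
          pow_le_pow_left₀ (by positivity) (by linarith [Real.add_one_le_exp ((4 * δ * n) ^ 2)]) _
      _ = Real.exp (K * (4 * δ * n) ^ 2) := by rw [← Real.exp_nat_mul]
      _ ≤ Real.exp (Real.log (1 + θ)) := by
          refine Real.exp_le_exp.2 (le_trans ?_ a2)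
          have b1 : (K : ℝ) * δ ≤ |T| + 1 := by linarith [le_abs_self T]
          calc (K : ℝ) * (4 * δ * n) ^ 2 = (K * δ) * (δ * 16 * n ^ 2) := by ring
            _ ≤ (|T| + 1) * (δ * 16 * (n ^ 2 + 1)) := by gcongr; linarith
            _ = _ := by ring
      _ = 1 + θ := Real.exp_log (by linarith)
  have hΦ : BM Φ := ⟨hm, 1, hb⟩
  set m := ∫ z, Φ z ∂gam (V × ℕ) with hm'
  set e := EE Λ μ δ (fun _ p => Φ (inn Λ μ δ p)) with he
  have hm1 : |m| ≤ 1 := by
    simpa using norm_integral_le_of_norm_le_const (μ := gam (V × ℕ)) (f := Φ) (C := 1)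
      (ae_of_all _ hb)
  have key : ∀ l : ℝ, (1 - l * m + l * e) ^ 2 ≤ (1 + θ) * (1 + 4 * l ^ 2) := by
    intro l
    have hB : BM fun z => (1 - l * m) + l * Φ z := (BM.const _).add ((BM.const l).mul hΦ)
    have c := chi2 h hδ.le hs K _ hB fun z z' hz => by simp only [hd hz]
    rw [EE_add δ (fun _ => BM.const _) (fun _ => (BM.const l).mul (hΦ.comp (measurable_inn δ))),
      h.EE_const, EE_mul] at c
    refine c.trans (mul_le_mul hpow ?_ (integral_nonneg fun _ => sq_nonneg _) (by linarith))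
    have hB2 : BM fun z => (1 + 4 * l ^ 2 - 2 * l * m) + 2 * l * Φ z :=
      (BM.const _).add ((BM.const _).mul hΦ)
    refine (integral_mono ((hB.pow 2).integrable _) (hB2.integrable _) fun z => ?_).trans
      (le_of_eq ?_)
    · have b1 : (Φ z - m) ^ 2 ≤ 2 ^ 2 := sq_le_sq' (by linarith [abs_le.1 (hb z), abs_le.1 hm1])
        (by linarith [abs_le.1 (hb z), abs_le.1 hm1])
      have b2 := mul_le_mul_of_nonneg_left b1 (sq_nonneg l)
      simp only
      nlinarith
    · rw [integral_add (integrable_const _) ((hΦ.integrable _).const_mul _), integral_const_mul]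
      simp only [integral_const, probReal_univ, smul_eq_mul, one_mul, ← hm']
      ring
  have k1 := key (ε / 16)
  have k2 := key (-(ε / 16))
  have b : θ * ε ^ 2 ≤ ε ^ 2 := by nlinarith [sq_nonneg ε]
  rw [abs_le]
  constructor
  · by_contra hc
    have : ε < e - m := by linarith
    nlinarith [sq_nonneg (ε / 16 * (e - m)), mul_lt_mul_of_pos_left this hε]
  · by_contra hc
    have : ε < m - e := by linarith
    nlinarith [sq_nonneg (ε / 16 * (e - m)), mul_lt_mul_of_pos_left this hε]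

theorem eul_deriv (h : Prior Λ μ) (δ : ℝ) (c : ℝ → V × ℕ → ℝ) (c' : V × ℕ → ℝ) (t : ℝ)
    (hc : ∀ i, HasDerivAt (fun τ => c τ i) (c' i) t) (K : ℕ) {v : V} (hv : v ∈ Λ) :
    HasDerivAt (fun τ => eul Λ μ δ (c τ) K v) (∑ s ∈ range K, ∑ u ∈ Λ,
      √δ * xi Λ μ δ (eul Λ μ δ (c t)) u s (K - 1 - s) v * c' (u, s)) t := by
  induction K generalizing v with
  | zero => simpa [eul] using hasDerivAt_const t (0 : ℝ)
  | succ K ih =>
    have h1 := mg_deriv h (y := fun τ => eul Λ μ δ (c τ) K) (fun w hw => ih hw) v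
    refine (((ih hv).fun_add (h1.const_mul δ)).fun_add ((hc (v, K)).const_mul √δ)).congr_deriv ?_
    rw [sum_range_succ]
    congr 1
    · simp only [mul_sum]
      rw [sum_comm (s := Λ), ← sum_add_distrib]
      refine sum_congr rfl fun s hs => ?_
      rw [sum_comm (s := Λ), ← sum_add_distrib]
      refine sum_congr rfl fun u _ => ?_
      have hs' := mem_range.1 hs
      have e1 : K + 1 - 1 - s = (K - 1 - s) + 1 := by omega
      have e2 : s + 1 + (K - 1 - s) = K := by omega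
      rw [e1, xi, e2, mul_add, add_mul, mul_sum, mul_sum, sum_mul]
      congr 1
      exact sum_congr rfl fun w _ => by ring
    · simp [xi, hv]

end Crest.Agent.R160
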