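import Crest.Agent.R160.Tree

/-! Row 160, sub-task K: sums over the tree and moments of the weighted kernel. -/

set_option autoImplicit false
set_option linter.unusedSectionVars false

namespace Crest.Agent.R160

open Finset

namespace KerAux

theorem one_lt {d : ℕ} (hd : 3 ≤ d) {B : ℝ} (hB0 : 0 < B) (hB : B ^ 3 = (d : ℝ) - 1) : 1 < B := by
  have : (3 : ℝ) ≤ d := by exact_mod_cast hd
  by_contra hc
  have := pow_le_one₀ (n := 3) hB0.le (not_lt.1 hc)
  linarith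

theorem geom_le {r : ℝ} (h0 : 0 ≤ r) (h1 : r < 1) (N : ℕ) : ∑ i ∈ range N, r ^ i ≤ (1 - r)⁻¹ :=
  sum_le_hasSum _ (fun _ _ => pow_nonneg h0 _) (hasSum_geometric_of_lt_one h0 h1)

theorem exists_S {r : ℝ} (h0 : 0 ≤ r) (h1 : r < 1) :
    ∃ S : ℝ, 1 ≤ S ∧ ∀ N, ∑ n ∈ range N, r ^ n * (1 + n) ≤ S := by
  have hs : Summable fun n : ℕ => r ^ n * (1 + n) := by
    have a := summable_pow_mul_geometric_of_norm_lt_one 1 (r := r) (by rwa [Real.norm_of_nonneg h0])
    refine ((summable_geometric_of_lt_one h0 h1).add a).congr fun n => ?_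
    ring
  have : ∀ N, ∑ n ∈ range N, r ^ n * (1 + n) ≤ ∑' n : ℕ, r ^ n * (1 + n) := fun N =>
    hs.sum_le_tsum _ fun n _ => by positivity
  exact ⟨_, by simpa using this 1, this⟩

theorem S1 {M ε : ℝ} (hM : 1 ≤ M) (h0 : 0 < ε) (h1 : ε ≤ 1) (N : ℕ) :
    ∑ n ∈ range N, Real.exp (-1 / M) ^ n * (1 + (n : ℝ)) ^ ε ≤ 6 * M ^ (1 + ε) := by
  have hM0 : 0 < M := by linarith
  set r := Real.exp (-1 / (2 * M)) with hr
  have hr0 : 0 < r := Real.exp_pos _
  have hr1 : r ≤ 2 * M / (2 * M + 1) := by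
    rw [hr, neg_div, Real.exp_neg, inv_le_comm₀ (Real.exp_pos _) (by positivity), inv_div]
    refine le_trans (le_of_eq ?_) (Real.add_one_le_exp _)
    field_simp
    ring
  have hr2 : 2 * M / (2 * M + 1) = 1 - 1 / (2 * M + 1) := by field_simp; ring
  have hr3 : 1 / (3 * M) ≤ 1 / (2 * M + 1) := one_div_le_one_div_of_le (by linarith) (by linarith)
  have hr4 : 0 < 1 / (3 * M) := by positivity
  have key : ∀ n : ℕ, Real.exp (-1 / M) ^ n * (1 + (n : ℝ)) ^ ε ≤ 2 * M ^ ε * r ^ n := fun n => by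
    have hn : (0 : ℝ) ≤ n / M := by positivity
    have a1 : 1 + (n : ℝ) ≤ M * (1 + n / M) := by
      rw [mul_add, mul_div_cancel₀ _ hM0.ne']; linarith
    have a2 : (1 + (n : ℝ)) ^ ε ≤ M ^ ε * (1 + n / M) := by
      refine (Real.rpow_le_rpow (by positivity) a1 h0.le).trans ?_
      rw [Real.mul_rpow hM0.le (by positivity)]
      refine mul_le_mul_of_nonneg_left ?_ (by positivity)
      simpa using Real.rpow_le_rpow_of_exponent_le (by linarith : 1 ≤ 1 + n / M) h1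
    have a3 : 1 + (n : ℝ) / M ≤ 2 * Real.exp (n / M / 2) := by
      linarith [Real.add_one_le_exp ((n : ℝ) / M / 2)]
    have a4 : r ^ n = Real.exp (-1 / M) ^ n * Real.exp (n / M / 2) := by
      rw [hr, ← Real.exp_nat_mul, ← Real.exp_nat_mul, ← Real.exp_add]
      congr 1
      field_simp
      ring
    calc _ ≤ Real.exp (-1 / M) ^ n * (M ^ ε * (2 * Real.exp (n / M / 2))) := by
          gcongr
          exact a2.trans (mul_le_mul_of_nonneg_left a3 (by positivity))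
      _ = _ := by rw [a4]; ring
  refine (sum_le_sum fun n _ => key n).trans ?_
  rw [← mul_sum, Real.rpow_add hM0, Real.rpow_one]
  have : ∑ n ∈ range N, r ^ n ≤ 3 * M := by
    refine (geom_le hr0.le (by linarith) N).trans ?_
    rw [inv_le_comm₀ (by linarith) (by positivity), ← one_div]
    linarith
  calc 2 * M ^ ε * ∑ n ∈ range N, r ^ n ≤ 2 * M ^ ε * (3 * M) := by gcongr
    _ = _ := by ring

theorem rpow_tri {a b n : ℕ} (h : a ≤ b + n) {ε : ℝ} (h0 : 0 < ε) :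
    (1 + (a : ℝ)) ^ ε ≤ (1 + (b : ℝ)) ^ ε * (1 + (n : ℝ)) ^ ε := by
  rw [← Real.mul_rpow (by positivity) (by positivity)]
  refine Real.rpow_le_rpow (by positivity) ?_ h0.le
  have : (a : ℝ) ≤ b + n := by exact_mod_cast h
  nlinarith [mul_nonneg (Nat.cast_nonneg (α := ℝ) b) (Nat.cast_nonneg (α := ℝ) n)]

theorem rb_eq {B : ℝ} (M : ℝ) (n : ℕ) :
    rb B M n = Real.exp 1 * Real.exp (-1 / M) ^ n * B ^ (-3 * (n : ℤ)) := by
  rw [rb, mul_pow, neg_mul, zpow_neg, zpow_mul, one_div, inv_pow]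
  simp only [zpow_ofNat, zpow_natCast]
  ring

theorem rb_pos {B : ℝ} (hB : 0 < B) (M : ℝ) (n : ℕ) : 0 < rb B M n := by
  unfold rb; positivity

theorem pf_jensen {α ι : Type*} [MeasurableSpace α] {E : (α → ℝ) → ℝ} (hE : PF E) (s : Finset ι)
    {lam : ι → ℝ} {Z : ι → α → ℝ} (hl : ∀ i ∈ s, 0 ≤ lam i) (hpos : 0 < ∑ i ∈ s, lam i)
    (hZ : ∀ i ∈ s, BM (Z i)) (hZ0 : ∀ i ∈ s, ∀ y, 0 ≤ Z i y) (P : ℕ)
    (h : ∀ i ∈ s, E (fun y => Z i y ^ P) ≤ 1) :
    E (fun y => (∑ i ∈ s, lam i * Z i y) ^ P) ≤ (∑ i ∈ s, lam i) ^ P := by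
  set T := ∑ i ∈ s, lam i with hT
  have hw : ∑ i ∈ s, lam i / T = 1 := by rw [← sum_div, div_self hpos.ne']
  have hB : ∀ i ∈ s, BM fun y => lam i / T * Z i y ^ P := fun i hi =>
    (BM.const _).mul ((hZ i hi).pow P)
  refine (hE.mono _ (fun y => T ^ P * ∑ i ∈ s, lam i / T * Z i y ^ P)
    ((BM.sum s fun i hi => (BM.const _).mul (hZ i hi)).pow P) ((BM.const _).mul (BM.sum s hB))
    fun y => ?_).trans ?_
  · have := Real.pow_arith_mean_le_arith_mean_pow s (fun i => lam i / T) (fun i => Z i y)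
      (fun i hi => div_nonneg (hl i hi) hpos.le) hw (fun i hi => hZ0 i hi y) P
    refine le_trans (le_of_eq ?_) (mul_le_mul_of_nonneg_left this (by positivity))
    rw [← mul_pow, mul_sum]
    congr 1
    refine sum_congr rfl fun i _ => ?_
    field_simp
  · rw [hE.mul, hE.sum s hB]
    refine mul_le_of_le_one_right (by positivity) (le_trans (sum_le_sum fun i hi => ?_) hw.le)
    rw [hE.mul]
    exact mul_le_of_le_one_right (div_nonneg (hl i hi) hpos.le) (h i hi)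

theorem pf_three {α : Type*} [MeasurableSpace α] {E : (α → ℝ) → ℝ} (hE : PF E) {f g h : α → ℝ}
    (hf : BM f) (hg : BM g) (hh : BM h) (f0 : ∀ y, 0 ≤ f y) (g0 : ∀ y, 0 ≤ g y) (h0 : ∀ y, 0 ≤ h y)
    {a b c : ℝ} (ha : 0 < a) (hb : 0 < b) (hc : 0 < c) (m : ℕ)
    (h1 : E (fun y => f y ^ (12 * m)) ≤ a ^ (12 * m))
    (h2 : E (fun y => g y ^ (12 * m)) ≤ b ^ (12 * m))
    (h3 : E (fun y => h y ^ (12 * m)) ≤ c ^ (12 * m)) :
    E (fun y => (a⁻¹ * f y * (b⁻¹ * g y) * (c⁻¹ * h y)) ^ (4 * m)) ≤ 1 := by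
  have key : ∀ {f : α → ℝ} {a : ℝ}, 0 < a → E (fun y => f y ^ (12 * m)) ≤ a ^ (12 * m) →
      E (fun y => 1 / 3 * a⁻¹ ^ (12 * m) * f y ^ (12 * m)) ≤ 1 / 3 := fun {f a} ha h => by
    rw [hE.mul]
    refine (mul_le_mul_of_nonneg_left h (by positivity)).trans (le_of_eq ?_)
    rw [mul_assoc, ← mul_pow, inv_mul_cancel₀ ha.ne', one_pow, mul_one]
  have b1 := (BM.const (1 / 3 * a⁻¹ ^ (12 * m))).mul (hf.pow (12 * m))
  have b2 := (BM.const (1 / 3 * b⁻¹ ^ (12 * m))).mul (hg.pow (12 * m))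
  have b3 := (BM.const (1 / 3 * c⁻¹ ^ (12 * m))).mul (hh.pow (12 * m))
  refine (hE.mono _ _ (((((BM.const _).mul hf).mul ((BM.const _).mul hg)).mul
    ((BM.const _).mul hh)).pow _) ((b1.add b2).add b3) fun y => ?_).trans ?_
  · have e : 12 * m = 4 * m * 3 := by ring
    have p1 : 0 ≤ (a⁻¹ * f y) ^ (4 * m) := by have := f0 y; positivity
    have p2 : 0 ≤ (b⁻¹ * g y) ^ (4 * m) := by have := g0 y; positivity
    have p3 : 0 ≤ (c⁻¹ * h y) ^ (4 * m) := by have := h0 y; positivity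
    simp only [mul_assoc (1 / 3 : ℝ), ← mul_pow _ _ (12 * m)]
    rw [e, pow_mul _ (4 * m) 3, pow_mul _ (4 * m) 3, pow_mul _ (4 * m) 3,
      mul_pow _ (c⁻¹ * h y), mul_pow _ (b⁻¹ * g y)]
    generalize (a⁻¹ * f y) ^ (4 * m) = x at *
    generalize (b⁻¹ * g y) ^ (4 * m) = z at *
    generalize (c⁻¹ * h y) ^ (4 * m) = w at *
    nlinarith [mul_nonneg (add_nonneg (add_nonneg p1 p2) p3)
      (add_nonneg (add_nonneg (sq_nonneg (x - z)) (sq_nonneg (z - w))) (sq_nonneg (w - x)))]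
  · rw [hE.add _ _ (b1.add b2) b3, hE.add _ _ b1 b2]
    linarith [key ha h1, key hb h2, key hc h3]

end KerAux

open KerAux

variable {V : Type*} [DecidableEq V] {G : SimpleGraph V} (hT : G.IsTree) [G.LocallyFinite]
include hT

theorem KerAux.sphere_succ {d : ℕ} (hreg : G.IsRegularOfDegree d) (a : V) (k : ℕ) :
    ∀ Λ : Finset V, #{c ∈ Λ | G.dist c a = k + 1} ≤ d * (d - 1) ^ k := by
  induction k with
  | zero =>
    intro Λ
    rw [pow_zero, mul_one]
    refine le_trans (card_le_card fun c hc => ?_) (ch_card hT hreg Λ a a).1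
    obtain ⟨h1, h2⟩ := mem_filter.1 hc
    have hca : c ≠ a := by rintro rfl; simp at h2
    have := (par_spec hT hca).2
    exact (mem_ch hT).2 ⟨h1, hca, (dist_zero hT).1 (by omega)⟩
  | succ k ih =>
    intro Λ
    have hsub : {c ∈ Λ | G.dist c a = k + 1 + 1} ⊆
        ({z ∈ Λ.image (par G a) | G.dist z a = k + 1}).biUnion fun z => (tfo hT Λ a).ch z := by
      intro c hc
      obtain ⟨h1, h2⟩ := mem_filter.1 hc
      have hca : c ≠ a := by rintro rfl; simp at h2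
      have := (par_spec hT hca).2
      exact mem_biUnion.2 ⟨par G a c, mem_filter.2 ⟨mem_image_of_mem _ h1, by omega⟩,
        (mem_ch hT).2 ⟨h1, hca, rfl⟩⟩
    refine (card_le_card hsub).trans ((card_biUnion_le_card_mul _ _ (d - 1) fun z hz => ?_).trans ?_)
    · refine (ch_card hT hreg Λ a z).2 ?_
      rintro rfl
      simpa using (mem_filter.1 hz).2
    · rw [pow_succ, ← mul_assoc]
      exact Nat.mul_le_mul_right _ (ih _)

theorem KerAux.sphere {d : ℕ} (hd : 3 ≤ d) (hreg : G.IsRegularOfDegree d) {B : ℝ}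
    (hB : B ^ 3 = (d : ℝ) - 1) (a : V) (k : ℕ) (Λ : Finset V) :
    (#{c ∈ Λ | G.dist c a = k} : ℝ) ≤ 2 * (B ^ 3) ^ k := by
  have hd' : (3 : ℝ) ≤ d := by exact_mod_cast hd
  cases k with
  | zero =>
    have : #{c ∈ Λ | G.dist c a = 0} ≤ 1 := card_le_one.2 fun x hx y hy => by
      rw [(dist_zero hT).1 (mem_filter.1 hx).2, (dist_zero hT).1 (mem_filter.1 hy).2]
    have : (#{c ∈ Λ | G.dist c a = 0} : ℝ) ≤ 1 := by exact_mod_cast this
    rw [pow_zero]; linarith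
  | succ k =>
    have h1 : (#{c ∈ Λ | G.dist c a = k + 1} : ℝ) ≤ ((d * (d - 1) ^ k : ℕ) : ℝ) := by
      exact_mod_cast KerAux.sphere_succ hT hreg a k Λ
    rw [Nat.cast_mul, Nat.cast_pow, Nat.cast_sub (by omega), Nat.cast_one] at h1
    rw [hB, pow_succ]
    have : (0 : ℝ) ≤ ((d : ℝ) - 1) ^ k := pow_nonneg (by linarith) _
    nlinarith

/-- the basic tree sum -/
theorem tsum_le {d : ℕ} (hd : 3 ≤ d) (hreg : G.IsRegularOfDegree d) {B : ℝ} (hB0 : 0 < B)
    (hB : B ^ 3 = (d : ℝ) - 1) : ∃ C : ℝ, 1 ≤ C ∧ ∀ (Λ : Finset V) (v x : V) (ψ : ℕ → ℝ) (S : ℝ),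
    (∀ n, 0 ≤ ψ n) → (∀ N, ∑ n ∈ range N, ψ n ≤ S) →
    ∑ c ∈ Λ, B ^ ((G.dist v x : ℤ) - G.dist c x - 2 * G.dist c v) * ψ (G.dist c v) ≤ C * S := by
  classical
  have hB1 := one_lt hd hB0 hB
  have hr0 : 0 < B⁻¹ := inv_pos.2 hB0
  have hr1 : B⁻¹ < 1 := inv_lt_one_of_one_lt₀ hB1
  have hC : 1 ≤ (1 - B⁻¹)⁻¹ := (one_le_inv₀ (by linarith)).2 (by linarith)
  refine ⟨2 * (1 - B⁻¹)⁻¹, by linarith, fun Λ v x ψ S hψ hS => ?_⟩
  set N := Λ.sup (fun c => G.dist c v) + 1 with hN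
  let P : ℕ → ℕ → V → Prop := fun n i c => G.dist c v = n ∧
    ∃ a, Btw G c a v ∧ Btw G v a x ∧ Btw G c a x ∧ G.dist v a = i
  have h1 : ∀ c ∈ Λ, B ^ ((G.dist v x : ℤ) - G.dist c x - 2 * G.dist c v) * ψ (G.dist c v) ≤
      ∑ n ∈ range N, ∑ i ∈ range N,
        if P n i c then B ^ (2 * (i : ℤ) - 3 * n) * ψ n else 0 := fun c hc => by
    obtain ⟨a, a1, a2, a3⟩ := median hT v x _ c rfl
    have hn : G.dist c v < N := Nat.lt_succ_of_le (le_sup (f := fun c => G.dist c v) hc)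
    have hcomm : G.dist a v = G.dist v a := G.dist_comm
    have hi : G.dist v a < N := by unfold Btw at a1; omega
    have nn : ∀ n i : ℕ, 0 ≤ if P n i c then B ^ (2 * (i : ℤ) - 3 * n) * ψ n else 0 :=
      fun n i => by
        split_ifs
        · exact mul_nonneg (zpow_nonneg hB0.le _) (hψ n)
        · exact le_rfl
    refine le_trans ?_ (single_le_sum (fun n _ => sum_nonneg fun i _ => nn n i) (mem_range.2 hn))
    refine le_trans (le_of_eq ?_) (single_le_sum (fun i _ => nn _ i) (mem_range.2 hi))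
    rw [if_pos ⟨rfl, a, a1, a2, a3, rfl⟩]
    congr 2
    unfold Btw at *
    omega
  have h2 : ∀ n i : ℕ, (#{c ∈ Λ | P n i c} : ℝ) * B ^ (2 * (i : ℤ) - 3 * n) ≤ 2 * B⁻¹ ^ i := by
    intro n i
    rcases ({c ∈ Λ | P n i c}).eq_empty_or_nonempty with h | ⟨c0, hc0⟩
    · rw [h]; simp only [card_empty, Nat.cast_zero, zero_mul]; positivity
    obtain ⟨-, e0, a0, b1, b2, -, b4⟩ := mem_filter.1 hc0
    have hcomm : G.dist a0 v = G.dist v a0 := G.dist_comm
    obtain ⟨k, rfl⟩ : ∃ k, n = i + k := ⟨G.dist c0 a0, by unfold Btw at b1; omega⟩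
    have hsub : {c ∈ Λ | P (i + k) i c} ⊆ {c ∈ Λ | G.dist c a0 = k} := fun c hc => by
      obtain ⟨hc1, e, a, a1, a2, -, a4⟩ := mem_filter.1 hc
      have := (btw_total hT _ v rfl a2 b2 (by omega)).1
      obtain rfl : a = a0 := (dist_zero hT).1 (by unfold Btw at this; omega)
      exact mem_filter.2 ⟨hc1, by unfold Btw at a1; omega⟩
    have : (#{c ∈ Λ | P (i + k) i c} : ℝ) ≤ 2 * (B ^ 3) ^ k :=
      le_trans (by exact_mod_cast card_le_card hsub) (KerAux.sphere hT hd hreg hB a0 k Λ)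
    refine (mul_le_mul_of_nonneg_right this (zpow_nonneg hB0.le _)).trans (le_of_eq ?_)
    rw [mul_assoc, ← pow_mul, ← zpow_natCast B, ← zpow_add₀ hB0.ne', inv_pow, ← zpow_natCast,
      ← zpow_neg]
    congr 2
    push_cast
    ring
  refine (sum_le_sum h1).trans ?_
  rw [sum_comm]
  refine le_trans (sum_le_sum fun n _ => ?_) (le_trans (le_of_eq (mul_sum _ _ _).symm)
    (mul_le_mul_of_nonneg_left (hS N) (by linarith)))
  rw [sum_comm]
  calc _ ≤ ∑ i ∈ range N, 2 * B⁻¹ ^ i * ψ n := sum_le_sum fun i _ => by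
        rw [← sum_filter, sum_const, nsmul_eq_mul, ← mul_assoc]
        exact mul_le_mul_of_nonneg_right (h2 n i) (hψ n)
    _ ≤ _ := by
        rw [← sum_mul, ← mul_sum]
        exact mul_le_mul_of_nonneg_right (mul_le_mul_of_nonneg_left (geom_le hr0.le hr1 N)
          zero_le_two) (hψ n)

theorem ker {d : ℕ} (hd : 3 ≤ d) (hreg : G.IsRegularOfDegree d) {B : ℝ} (hB0 : 0 < B)
    (hB : B ^ 3 = (d : ℝ) - 1) : ∃ CW C : ℝ, 1 ≤ CW ∧ 1 ≤ C ∧ ∀ (Λ : Finset V) (o : V),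
    (∀ θ : ℝ, 0 ≤ θ → θ < 1 → Cvx G Λ → ∀ E, PF E → ∀ mm l M : ℝ, 0 < mm → 0 < l →
      ∀ m : ℕ, 1 ≤ m →
      (∀ c ∈ Λ, E (fun y => mg Λ (mu G θ Λ) y c ^ (2 * (12 * m))) ≤ mm ^ (12 * m)) →
      (∀ c ∈ Λ, E (fun y => LL hT θ Λ y c ^ (12 * m)) ≤ l ^ (12 * m)) →
      (∀ c ∈ Λ, ∀ v ∈ Λ, E (fun y => rv hT θ Λ y c v ^ (2 * (12 * m))) ≤
        rb B M (G.dist v c) ^ (12 * m)) →
      ∀ u : V, ∀ c ∈ Λ, ∀ v ∈ Λ,
        E (fun y => (kap hT θ B Λ u y c v * (om G B o u v / om G B o u c)) ^ (4 * m)) ≤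
          Kb G B CW Λ o mm l M c v ^ (4 * m)) ∧
    (∀ mm l M ε : ℝ, 0 ≤ mm → 0 ≤ l → 1 ≤ M → 0 < ε → ε ≤ 1 → ∀ v,
      ∑ w ∈ Λ, Kb G B CW Λ o mm l M w v * Psi G B o ε w ≤
        C * mm * l * M ^ (1 + ε) * Psi G B o ε v) ∧
    (∀ (r : ℕ) (M ε : ℝ), (∀ u ∈ Λ, r ≤ G.dist u o) → 1 ≤ M → 0 < ε → ε ≤ 1 → ∀ v,
      ∑ u ∈ Λ, om G B o u v * rb B M (G.dist u v) ≤
        C * M ^ (1 + ε) * (1 / (1 + (r : ℝ))) ^ ε * Psi G B o ε v) := by
  obtain ⟨C0, hC0, ts⟩ := tsum_le hT hd hreg hB0 hB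
  have hB1 := one_lt hd hB0 hB
  have hr0 : 0 < B⁻¹ := inv_pos.2 hB0
  obtain ⟨S, hS1, hS⟩ := exists_S hr0.le (inv_lt_one_of_one_lt₀ hB1)
  have he : 1 ≤ Real.exp 1 := Real.one_le_exp zero_le_one
  have hCW : 1 ≤ C0 * S := one_le_mul_of_one_le_of_one_le hC0 hS1
  have hK : 1 ≤ Real.exp 1 * C0 := one_le_mul_of_one_le_of_one_le he hC0
  have zinv : ∀ n : ℕ, B⁻¹ ^ n = B ^ (-(n : ℤ)) := fun n => by rw [inv_pow, zpow_neg, zpow_natCast]
  have z2 : ∀ x y : ℤ, B ^ x * B ^ y = B ^ (x + y) := fun x y => (zpow_add₀ hB0.ne' x y).symm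
  have zle : ∀ {x y : ℤ}, x ≤ y → B ^ x ≤ B ^ y := fun h => zpow_le_zpow_right₀ hB1.le h
  have zp : ∀ x : ℤ, 0 < B ^ x := fun x => zpow_pos hB0 x
  -- the main sum
  have main : ∀ (Λ : Finset V) (o v : V) (M ε : ℝ), 1 ≤ M → 0 < ε → ε ≤ 1 →
      ∑ w ∈ Λ, B ^ ((G.dist v o : ℤ) - G.dist w o - 2 * G.dist w v) *
        (Real.exp (-1 / M) ^ G.dist w v * (1 + (G.dist w v : ℝ)) ^ ε) ≤ C0 * (6 * M ^ (1 + ε)) :=
    fun Λ o v M ε hM h0 h1 => ts Λ v o (fun n => Real.exp (-1 / M) ^ n * (1 + (n : ℝ)) ^ ε) _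
      (fun n => by positivity) (S1 hM h0 h1)
  have sec : ∀ (Λ : Finset V) (v x : V), ∑ w ∈ Λ, B ^ ((G.dist v x : ℤ) - G.dist w x -
      2 * G.dist w v) * (B⁻¹ ^ G.dist w v * (1 + (G.dist w v : ℝ))) ≤ C0 * S :=
    fun Λ v x => ts Λ v x (fun n => B⁻¹ ^ n * (1 + (n : ℝ))) _ (fun n => by positivity) hS
  refine ⟨C0 * S, 48 * (C0 * S) * (Real.exp 1 * C0), hCW, by nlinarith, fun Λ o => ⟨?_, ?_, ?_⟩⟩
  · intro θ h0 h1 hΛ E hE mm l M hmm hl m _ hmg hL hrv u c hc v hv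
    have hpr := prior_mu hT hΛ ⟨c, hc⟩ h0 h1
    let ex : V → ℤ := fun c' => (G.dist v u : ℤ) - G.dist c' u - 3 * G.dist c c' +
      2 * G.dist c o - 2 * G.dist v o
    let lam : V ⊕ V → ℝ := Sum.elim (fun c' => 4 * mm * l * (rb B M (G.dist v c) * B ^ ex c'))
      fun c' => 4 * mm * l * (rb B M (G.dist v c') * B ^ ex c')
    let Z : V ⊕ V → (V → ℝ) → ℝ := Sum.elim
      (fun c' y => mm⁻¹ * mg Λ (mu G θ Λ) y c ^ 2 *
        ((rb B M (G.dist v c))⁻¹ * rv hT θ Λ y c v ^ 2) * (l⁻¹ * LL hT θ Λ y c'))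
      fun c' y => mm⁻¹ * mg Λ (mu G θ Λ) y c ^ 2 *
        ((rb B M (G.dist v c'))⁻¹ * rv hT θ Λ y c' v ^ 2) * (l⁻¹ * LL hT θ Λ y c)
    have hX : ∀ y, kap hT θ B Λ u y c v * (om G B o u v / om G B o u c) =
        ∑ i ∈ Λ.disjSum Λ, lam i * Z i y := fun y => by
      rw [sum_disjSum, ← sum_add_distrib, kap, if_pos ⟨hc, hv⟩, mul_sum, sum_mul]
      refine sum_congr rfl fun c' _ => ?_
      have e : B ^ ex c' = B ^ ((G.dist c u : ℤ) - G.dist c' u - 3 * G.dist c c') *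
          (om G B o u v / om G B o u c) := by
        rw [om, om, ← zpow_sub₀ hB0.ne', z2]
        congr 1
        simp only [ex]
        ring
      have p1 := (rb_pos hB0 M (G.dist v c)).ne'
      have p2 := (rb_pos hB0 M (G.dist v c')).ne'
      simp only [lam, Z, Sum.elim_inl, Sum.elim_inr, e]
      generalize om G B o u v / om G B o u c = q
      field_simp
    have hlam : ∀ i, 0 < lam i := by
      rintro (c' | c')
      · exact mul_pos (by positivity) (mul_pos (rb_pos hB0 _ _) (zp _))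
      · exact mul_pos (by positivity) (mul_pos (rb_pos hB0 _ _) (zp _))
    have hsum : 0 < ∑ i ∈ Λ.disjSum Λ, lam i :=
      sum_pos (fun i _ => hlam i) ⟨Sum.inl c, inl_mem_disjSum.2 hc⟩
    simp only [hX]
    refine (pf_jensen hE (Λ.disjSum Λ) (fun i _ => (hlam i).le) hsum ?_ ?_ (4 * m) ?_).trans
      (pow_le_pow_left₀ hsum.le ?_ _)
    · rintro (c' | c') _
      · exact (((BM.const _).mul ((hpr.bm_mg c).pow 2)).mul ((BM.const _).mul
          ((bm_rv hT h0 h1 c v).pow 2))).mul ((BM.const _).mul (bm_LL hT h0 h1 c'))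
      · exact (((BM.const _).mul ((hpr.bm_mg c).pow 2)).mul ((BM.const _).mul
          ((bm_rv hT h0 h1 c' v).pow 2))).mul ((BM.const _).mul (bm_LL hT h0 h1 c))
    · rintro (c' | c') _ y
      · have := LL_nonneg hT (θ := θ) (Λ := Λ) y c'
        have := rb_pos hB0 M (G.dist v c)
        simp only [Z, Sum.elim_inl]
        positivity
      · have := LL_nonneg hT (θ := θ) (Λ := Λ) y c
        have := rb_pos hB0 M (G.dist v c')
        simp only [Z, Sum.elim_inr]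
        positivity
    · rintro (c' | c') hi
      · exact pf_three hE ((hpr.bm_mg c).pow 2) ((bm_rv hT h0 h1 c v).pow 2) (bm_LL hT h0 h1 c')
          (fun _ => sq_nonneg _) (fun _ => sq_nonneg _) (fun y => LL_nonneg hT y c') hmm
          (rb_pos hB0 _ _) hl m (by simpa only [← pow_mul] using hmg c hc)
          (by simpa only [← pow_mul] using hrv c hc v hv) (hL c' (inl_mem_disjSum.1 hi))
      · exact pf_three hE ((hpr.bm_mg c).pow 2) ((bm_rv hT h0 h1 c' v).pow 2) (bm_LL hT h0 h1 c)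
          (fun _ => sq_nonneg _) (fun _ => sq_nonneg _) (fun y => LL_nonneg hT y c) hmm
          (rb_pos hB0 _ _) hl m (by simpa only [← pow_mul] using hmg c hc)
          (by simpa only [← pow_mul] using hrv c' (inr_mem_disjSum.1 hi) v hv) (hL c hc)
    · rw [sum_disjSum, Kb]
      simp only [lam, Sum.elim_inl, Sum.elim_inr, ← mul_sum]
      rw [← mul_add]
      refine mul_le_mul_of_nonneg_left (add_le_add ?_ (sum_le_sum fun c' _ => ?_)) (by positivity)
      · rw [k3b, mul_left_comm, mul_comm (C0 * S)]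
        refine mul_le_mul_of_nonneg_left ?_ (rb_pos hB0 _ _).le
        refine le_trans ?_ (mul_le_mul_of_nonneg_left (sec Λ c u) (zp _).le)
        rw [mul_sum]
        refine sum_le_sum fun c' _ => ?_
        rw [zinv, ← mul_assoc (B ^ _), ← mul_assoc, z2, z2]
        refine le_trans (zle ?_) (le_mul_of_one_le_right (zp _).le (by simp))
        have t1 := tri hT v c u
        have t2 : G.dist c v = G.dist v c := G.dist_comm
        have t3 : G.dist c c' = G.dist c' c := G.dist_comm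
        simp only [ex]
        omega
      · rw [k2, k3b, mul_left_comm, z2]
        refine mul_le_mul_of_nonneg_left (zle ?_) (rb_pos hB0 _ _).le
        have t1 := tri hT v c' u
        have t2 : G.dist c' v = G.dist v c' := G.dist_comm
        simp only [ex]
        omega
  · intro mm l M ε hmm hl hM h0 h1 v
    have hPsi : ∀ w, 0 < Psi G B o ε w := fun w => mul_pos (zp _) (by positivity)
    have hk3 : ∀ w, 0 < k3b G B M o w v := fun w => mul_pos (rb_pos hB0 _ _) (zp _)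
    have ha : ∑ w ∈ Λ, k3b G B M o w v * Psi G B o ε w ≤
        Real.exp 1 * Psi G B o ε v * (C0 * (6 * M ^ (1 + ε))) := by
      refine le_trans ?_ (mul_le_mul_of_nonneg_left (main Λ o v M ε hM h0 h1)
        (mul_pos (Real.exp_pos _) (hPsi v)).le)
      rw [mul_sum]
      refine sum_le_sum fun w _ => ?_
      have t1 := rpow_tri (a := G.dist w o) (b := G.dist v o) (n := G.dist w v)
        (by have := tri hT w v o; omega) h0
      have t2 : G.dist v w = G.dist w v := G.dist_comm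
      have e : B ^ (-3 * (G.dist w v : ℤ)) *
          B ^ ((G.dist w v : ℤ) + 2 * G.dist w o - 2 * G.dist v o) * B ^ (-3 * (G.dist w o : ℤ)) =
          B ^ (-3 * (G.dist v o : ℤ)) * B ^ ((G.dist v o : ℤ) - G.dist w o - 2 * G.dist w v) := by
        rw [z2, z2, z2]; congr 1; ring
      rw [k3b, rb_eq, t2, Psi, Psi]
      calc _ = Real.exp 1 * Real.exp (-1 / M) ^ G.dist w v * (B ^ (-3 * (G.dist w v : ℤ)) *
          B ^ ((G.dist w v : ℤ) + 2 * G.dist w o - 2 * G.dist v o) * B ^ (-3 * (G.dist w o : ℤ))) *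
          (1 + (G.dist w o : ℝ)) ^ ε := by ring
        _ ≤ Real.exp 1 * Real.exp (-1 / M) ^ G.dist w v * (B ^ (-3 * (G.dist v o : ℤ)) *
          B ^ ((G.dist v o : ℤ) - G.dist w o - 2 * G.dist w v)) *
          ((1 + (G.dist v o : ℝ)) ^ ε * (1 + (G.dist w v : ℝ)) ^ ε) := by
            rw [e]
            exact mul_le_mul_of_nonneg_left t1 (mul_nonneg (by positivity)
              (mul_pos (zp _) (zp _)).le)
        _ = _ := by ring
    have hb : ∀ c', ∑ w ∈ Λ, k2 G B o w c' * Psi G B o ε w ≤ Psi G B o ε c' * (C0 * S) := by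
      intro c'
      refine le_trans ?_ (mul_le_mul_of_nonneg_left (sec Λ c' o) (hPsi c').le)
      rw [mul_sum]
      refine sum_le_sum fun w _ => ?_
      have t1 := rpow_tri (a := G.dist w o) (b := G.dist c' o) (n := G.dist w c')
        (by have := tri hT w c' o; omega) h0
      have t2 : (1 + (G.dist w c' : ℝ)) ^ ε ≤ 1 + G.dist w c' := by
        simpa using Real.rpow_le_rpow_of_exponent_le (by simp : 1 ≤ 1 + (G.dist w c' : ℝ)) h1
      have e : B ^ (2 * (G.dist w o : ℤ) - 2 * G.dist c' o - 3 * G.dist w c') *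
          B ^ (-3 * (G.dist w o : ℤ)) = B ^ (-3 * (G.dist c' o : ℤ)) *
          B ^ ((G.dist c' o : ℤ) - G.dist w o - 2 * G.dist w c') * B ^ (-(G.dist w c' : ℤ)) := by
        rw [z2, z2, z2]; congr 1; ring
      rw [k2, Psi, Psi, zinv, ← mul_assoc, e]
      calc _ ≤ B ^ (-3 * (G.dist c' o : ℤ)) *
          B ^ ((G.dist c' o : ℤ) - G.dist w o - 2 * G.dist w c') * B ^ (-(G.dist w c' : ℤ)) *
          ((1 + (G.dist c' o : ℝ)) ^ ε * (1 + (G.dist w c' : ℝ))) :=
            mul_le_mul_of_nonneg_left (t1.trans (mul_le_mul_of_nonneg_left t2 (by positivity)))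
              (mul_pos (mul_pos (zp _) (zp _)) (zp _)).le
        _ = _ := by ring
    have hc : ∑ w ∈ Λ, (∑ c' ∈ Λ, k2 G B o w c' * k3b G B M o c' v) * Psi G B o ε w ≤
        C0 * S * ∑ w ∈ Λ, k3b G B M o w v * Psi G B o ε w := by
      simp only [sum_mul]
      rw [sum_comm, mul_sum]
      refine sum_le_sum fun c' _ => ?_
      have := mul_le_mul_of_nonneg_left (hb c') (hk3 c').le
      rw [mul_sum] at this
      refine le_trans (le_of_eq (sum_congr rfl fun w _ => by ring)) (this.trans (le_of_eq (by ring)))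
    have e : ∑ w ∈ Λ, Kb G B (C0 * S) Λ o mm l M w v * Psi G B o ε w = 4 * mm * l *
        (C0 * S * ∑ w ∈ Λ, k3b G B M o w v * Psi G B o ε w +
          ∑ w ∈ Λ, (∑ c' ∈ Λ, k2 G B o w c' * k3b G B M o c' v) * Psi G B o ε w) := by
      rw [mul_sum, ← sum_add_distrib, mul_sum]
      exact sum_congr rfl fun w _ => by rw [Kb]; ring
    have ha' := mul_le_mul_of_nonneg_left ha (by linarith : 0 ≤ C0 * S)
    rw [e]
    refine (mul_le_mul_of_nonneg_left (add_le_add ha' (hc.trans ha')) (by positivity)).trans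
      (le_of_eq ?_)
    ring
  · intro r M ε hr hM h0 h1 v
    have hPsi : 0 < Psi G B o ε v := mul_pos (zp _) (by positivity)
    have hq : 0 < (1 / (1 + (r : ℝ))) ^ ε := by positivity
    have hMp : 0 < M ^ (1 + ε) := by positivity
    calc _ ≤ Real.exp 1 * (1 / (1 + (r : ℝ))) ^ ε * Psi G B o ε v * (C0 * (6 * M ^ (1 + ε))) := by
          refine le_trans ?_ (mul_le_mul_of_nonneg_left (main Λ o v M ε hM h0 h1) (by positivity))
          rw [mul_sum]
          refine sum_le_sum fun w hw => ?_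
          have t1 := rpow_tri (a := r) (b := G.dist v o) (n := G.dist w v)
            (by have := tri hT w v o; have := hr w hw; omega) h0
          have t2 : G.dist v w = G.dist w v := G.dist_comm
          have t3 : 1 ≤ (1 / (1 + (r : ℝ))) ^ ε *
              ((1 + (G.dist v o : ℝ)) ^ ε * (1 + (G.dist w v : ℝ)) ^ ε) := by
            refine le_trans (le_of_eq ?_) (mul_le_mul_of_nonneg_left t1 hq.le)
            rw [← Real.mul_rpow (by positivity) (by positivity), one_div_mul_cancel (by positivity),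
              Real.one_rpow]
          have e : B ^ ((G.dist w v : ℤ) - 2 * G.dist v o - G.dist w o) *
              B ^ (-3 * (G.dist w v : ℤ)) = B ^ (-3 * (G.dist v o : ℤ)) *
              B ^ ((G.dist v o : ℤ) - G.dist w o - 2 * G.dist w v) := by
            rw [z2, z2]; congr 1; ring
          rw [om, rb_eq, t2, Psi]
          calc _ = Real.exp 1 * Real.exp (-1 / M) ^ G.dist w v *
              (B ^ ((G.dist w v : ℤ) - 2 * G.dist v o - G.dist w o) *
                B ^ (-3 * (G.dist w v : ℤ))) := by ring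
            _ ≤ Real.exp 1 * Real.exp (-1 / M) ^ G.dist w v * (B ^ (-3 * (G.dist v o : ℤ)) *
              B ^ ((G.dist v o : ℤ) - G.dist w o - 2 * G.dist w v)) * ((1 / (1 + (r : ℝ))) ^ ε *
              ((1 + (G.dist v o : ℝ)) ^ ε * (1 + (G.dist w v : ℝ)) ^ ε)) := by
                rw [e]
                exact le_mul_of_one_le_right (mul_nonneg (by positivity)
                  (mul_pos (zp _) (zp _)).le) t3
            _ = _ := by ring
      _ = 6 * (Real.exp 1 * C0) * (M ^ (1 + ε) * (1 / (1 + (r : ℝ))) ^ ε * Psi G B o ε v) := by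
          ring
      _ ≤ 48 * (C0 * S) * (Real.exp 1 * C0) *
          (M ^ (1 + ε) * (1 / (1 + (r : ℝ))) ^ ε * Psi G B o ε v) :=
          mul_le_mul_of_nonneg_right (by nlinarith) (by positivity)
      _ = _ := by ring

end Crest.Agent.R160
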