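import Crest.Agent.R160.MartA

/-! Row 160, sub-task C, part 2: the one-step estimate. -/

set_option autoImplicit false
set_option linter.unusedSectionVars false

namespace Crest.Agent.R160.C

open MeasureTheory ProbabilityTheory Finset

variable {V : Type*} [DecidableEq V] {Λ : Finset V} {μ : Finset V → ℝ}

/-- envelope -/
noncomputable def Wt (Λ : Finset V) (g : V → ℝ) : ℝ := 1 + ∑ x ∈ Λ, (|g x| + 1)

theorem Wt_ge (g : V → ℝ) : 1 + (#Λ : ℝ) ≤ Wt Λ g := by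
  unfold Wt
  have : ∑ _x ∈ Λ, (1 : ℝ) ≤ ∑ x ∈ Λ, (|g x| + 1) :=
    sum_le_sum fun x _ => by linarith [abs_nonneg (g x)]
  simp only [sum_const, nsmul_eq_mul, mul_one] at this
  linarith

theorem Wt_int (Λ : Finset V) : Integrable (fun g => Wt Λ g ^ 8) (gam V) := by
  have b : MemLp (fun _ : V → ℝ => (1 : ℝ)) (8 : ℕ) (gam V) := memLp_const 1
  have h0 : ∀ x : V, MemLp (fun g : V → ℝ => g x) (8 : ℕ) (gam V) := fun x => by
    have := (memLp_id_gaussianReal' (μ := 0) (v := 1) (8 : ℕ) (by simp)).comp_measurePreserving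
      (gam_eval x)
    exact this
  have h1 : ∀ x : V, MemLp (fun g : V → ℝ => |g x| + 1) (8 : ℕ) (gam V) := fun x => by
    have a := (h0 x).abs
    exact a.add b
  have h1' : MemLp (fun g : V → ℝ => ∑ x ∈ Λ, (|g x| + 1)) (8 : ℕ) (gam V) :=
    memLp_finsetSum Λ fun x _ => h1 x
  have h2 : MemLp (Wt Λ) (8 : ℕ) (gam V) := b.add h1'
  have h3 := MemLp.integrable_norm_pow h2 (by norm_num)
  refine h3.congr (ae_of_all _ fun g => ?_)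
  simp only [Real.norm_eq_abs]
  exact Even.pow_abs (by decide) _

theorem lin_mul_eq {ι : Type*} (S : Finset ι) (a b z : ι → ℝ) :
    (∑ i ∈ S, a i * z i) * (∑ i ∈ S, b i * z i) =
      (1 / 4) * (∑ i ∈ S, (a i + b i) * z i) ^ 2 - (1 / 4) * (∑ i ∈ S, (a i - b i) * z i) ^ 2 := by
  simp only [add_mul, sub_mul, sum_add_distrib, sum_sub_distrib]
  ring

theorem integrable_lin_mul {ι : Type*} (S : Finset ι) (a b : ι → ℝ) :
    Integrable (fun z : ι → ℝ => (∑ i ∈ S, a i * z i) * (∑ i ∈ S, b i * z i)) (gam ι) := by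
  simp only [lin_mul_eq]
  exact ((integrable_lin_pow S _ 2).const_mul _).sub ((integrable_lin_pow S _ 2).const_mul _)

theorem integral_lin_mul {ι : Type*} (S : Finset ι) (a b : ι → ℝ) :
    ∫ z, (∑ i ∈ S, a i * z i) * (∑ i ∈ S, b i * z i) ∂gam ι = ∑ i ∈ S, a i * b i := by
  simp only [lin_mul_eq]
  rw [integral_sub ((integrable_lin_pow S _ 2).const_mul _)
    ((integrable_lin_pow S _ 2).const_mul _), integral_const_mul, integral_const_mul,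
    integral_lin_sq, integral_lin_sq, mul_sum, mul_sum, ← sum_sub_distrib]
  exact sum_congr rfl fun i _ => by ring

theorem integrable_lin {ι : Type*} (S : Finset ι) (a : ι → ℝ) :
    Integrable (fun z : ι → ℝ => ∑ i ∈ S, a i * z i) (gam ι) := by
  simpa using integrable_lin_pow S a 1

theorem incr_le {δ : ℝ} (hδ1 : δ ≤ 1) (A : Finset V) (g : V → ℝ) :
    ∑ x ∈ Λ, |√δ * (g x + √δ * sp A x)| ≤ √δ * Wt Λ g := by
  have hs : √δ ≤ 1 := Real.sqrt_le_one.mpr hδ1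
  have hs0 := Real.sqrt_nonneg δ
  unfold Wt
  rw [mul_add, mul_sum]
  refine le_add_of_nonneg_of_le (by positivity) (sum_le_sum fun x _ => ?_)
  rw [abs_mul, abs_of_nonneg hs0]
  refine mul_le_mul_of_nonneg_left ((abs_add_le _ _).trans ?_) hs0
  rw [abs_mul, abs_sp, abs_of_nonneg hs0]
  linarith

theorem lin_split {δ : ℝ} (hδ : 0 ≤ δ) (A : Finset V) (g a : V → ℝ) :
    ∑ x ∈ Λ, √δ * (g x + √δ * sp A x) * a x =
      √δ * ∑ x ∈ Λ, a x * g x + δ * ∑ x ∈ Λ, sp A x * a x := by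
  rw [mul_sum, mul_sum, ← sum_add_distrib]
  refine sum_congr rfl fun x _ => ?_
  have := Real.mul_self_sqrt hδ
  linear_combination (sp A x * a x) * this

theorem abs_sp_sum (A : Finset V) {a : V → ℝ} {c : ℝ} (ha : ∀ x ∈ Λ, |a x| ≤ c) :
    |∑ x ∈ Λ, sp A x * a x| ≤ c * #Λ := by
  simpa [abs_sp] using abs_lin_le (Λ := Λ) (k := sp A) ha

/-- the field after one more step -/
noncomputable def nx (δ : ℝ) (y : V → ℝ) (A : Finset V) (g : V → ℝ) : V → ℝ :=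
  fun x => y x + √δ * (g x + √δ * sp A x)

theorem measurable_nx (δ : ℝ) (y : V → ℝ) (A : Finset V) : Measurable (nx δ y A) := by
  unfold nx; fun_prop

theorem cov_pt (h : Prior Λ μ) {δ : ℝ} (hδ : 0 < δ) (hδ1 : δ ≤ 1) (y : V → ℝ)
    {f ψ : Finset V → ℝ} {B : ℝ} (hf : ∀ A, |f A| ≤ 2) (hψ : ∀ A, |ψ A| ≤ B)
    (hf0 : Ex Λ μ y f = 0) (hψ0 : Ex Λ μ y ψ = 0) (A : Finset V) (g : V → ℝ) :
    |Ex Λ μ (nx δ y A g) (fun A => f A * ψ A) - Ex Λ μ (nx δ y A g) f * Ex Λ μ (nx δ y A g) ψ -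
      Ex Λ μ y (fun A => f A * ψ A) - √δ * ∑ x ∈ Λ, co Λ μ y (fun A => f A * ψ A) x * g x| ≤
      164 * B * δ * Wt Λ g ^ 2 := by
  have hB0 : 0 ≤ B := (abs_nonneg _).trans (hψ ∅)
  have hfψ : ∀ A, |f A * ψ A| ≤ 2 * B := fun A => by
    rw [abs_mul]; exact mul_le_mul (hf A) (hψ A) (abs_nonneg _) (by norm_num)
  have hr := incr_le (Λ := Λ) hδ1 A g
  obtain ⟨-, -, a3⟩ := tay h y _ hf hr
  obtain ⟨-, -, b3⟩ := tay h y _ hψ hr
  obtain ⟨-, c2, -⟩ := tay h y _ hfψ hr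
  rw [hf0, sub_zero] at a3
  rw [hψ0, sub_zero] at b3
  rw [lin_split hδ.le] at c2
  have d1 := abs_sp_sum (Λ := Λ) A fun x _ => abs_co h y hfψ x
  have hW := Wt_ge (Λ := Λ) g
  have hN : (0 : ℝ) ≤ #Λ := Nat.cast_nonneg _
  have hr2 : (√δ * Wt Λ g) ^ 2 = δ * Wt Λ g ^ 2 := by rw [mul_pow, Real.sq_sqrt hδ.le]
  have d2 : |Ex Λ μ (nx δ y A g) f * Ex Λ μ (nx δ y A g) ψ| ≤ 128 * B * (√δ * Wt Λ g) ^ 2 := by
    rw [abs_mul]
    refine (mul_le_mul a3 b3 (abs_nonneg _) ((abs_nonneg _).trans a3)).trans (le_of_eq ?_)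
    ring
  have d3 : |δ * ∑ x ∈ Λ, sp A x * co Λ μ y (fun A => f A * ψ A) x| ≤
      4 * B * (δ * Wt Λ g ^ 2) := by
    rw [abs_mul, abs_of_pos hδ]
    have : (#Λ : ℝ) ≤ Wt Λ g ^ 2 := by nlinarith
    have := mul_le_mul_of_nonneg_left this (show 0 ≤ 2 * (2 * B) by positivity)
    nlinarith
  rw [hr2] at c2 d2
  change |Ex Λ μ (nx δ y A g) _ - _ - _| ≤ _ at c2
  rw [abs_le] at c2 d2 d3 ⊢
  constructor <;> nlinarith

theorem cov_mean (h : Prior Λ μ) {δ : ℝ} (hδ : 0 < δ) (hδ1 : δ ≤ 1) (y : V → ℝ)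
    {f ψ : Finset V → ℝ} {B : ℝ} (hf : ∀ A, |f A| ≤ 2) (hψ : ∀ A, |ψ A| ≤ B)
    (hf0 : Ex Λ μ y f = 0) (hψ0 : Ex Λ μ y ψ = 0) :
    |Mx Λ.powerset (pw Λ μ y) (gam V) (fun A g => Ex Λ μ (nx δ y A g) (fun A => f A * ψ A) -
      Ex Λ μ (nx δ y A g) f * Ex Λ μ (nx δ y A g) ψ) - (Ex Λ μ y (fun A => f A * ψ A) -
      δ * ∑ x ∈ Λ, co Λ μ y f x * co Λ μ y ψ x)| ≤
      (320 * ∫ g, Wt Λ g ^ 8 ∂gam V + 8 * #Λ ^ 2) * B * (δ * √δ) := by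
  have hB0 : 0 ≤ B := (abs_nonneg _).trans (hψ ∅)
  have hs0 := Real.sqrt_nonneg δ
  have hss := Real.mul_self_sqrt hδ.le
  have hs1 : √δ ≤ 1 := Real.sqrt_le_one.mpr hδ1
  have bm : ∀ (φ : Finset V → ℝ) A, BM fun g => Ex Λ μ (nx δ y A g) φ := fun φ A =>
    bm_Ex h (measurable_nx δ y A)
  have e1 := Mx_add (S := Λ.powerset) (w := pw Λ μ y) (ν := gam V)
    (F := fun A g => Ex Λ μ (nx δ y A g) (fun A => f A * ψ A) -
      Ex Λ μ (nx δ y A g) f * Ex Λ μ (nx δ y A g) ψ)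
    (G := fun A g => Ex Λ μ (nx δ y A g) f * Ex Λ μ (nx δ y A g) ψ)
    (fun A => ((bm _ A).sub ((bm _ A).mul (bm _ A))).integrable _)
    (fun A => ((bm _ A).mul (bm _ A)).integrable _)
  simp only [sub_add_cancel] at e1
  have e2 := mart_exact h hδ.le y (fun A => f A * ψ A)
  change Mx _ _ _ (fun A g => Ex Λ μ (nx δ y A g) _) = _ at e2
  rw [e2] at e1
  rw [e1, ← Ex_Mx (gam V) y (fun A g => Ex Λ μ (nx δ y A g) f * Ex Λ μ (nx δ y A g) ψ)]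
  have e3 : ∀ a b c : ℝ, |a - (a + b - c)| = |b - c| := fun a b c => by
    rw [abs_sub_comm]; congr 1; ring
  rw [e3, ← h.Ex_const y (δ * _), ← Ex_sub]
  refine h.abs_Ex_le y fun A _ => ?_
  set α := co Λ μ y f with hα
  set β := co Λ μ y ψ with hβ
  set Sa := ∑ x ∈ Λ, sp A x * α x with hSa
  set Sb := ∑ x ∈ Λ, sp A x * β x with hSb
  have b1 : |Sa| ≤ 2 * 2 * #Λ := abs_sp_sum A fun x _ => abs_co h y hf x
  have b2 : |Sb| ≤ 2 * B * #Λ := abs_sp_sum A fun x _ => abs_co h y hψ x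
  let P : (V → ℝ) → ℝ := fun g => δ * ((∑ x ∈ Λ, α x * g x) * ∑ x ∈ Λ, β x * g x) +
    (δ * √δ * Sb * ∑ x ∈ Λ, α x * g x + (δ * √δ * Sa * ∑ x ∈ Λ, β x * g x + δ ^ 2 * (Sa * Sb)))
  have i1 := (integrable_lin_mul Λ α β).const_mul δ
  have i2 := (integrable_lin Λ α).const_mul (δ * √δ * Sb)
  have i3 := (integrable_lin Λ β).const_mul (δ * √δ * Sa)
  have i4 : Integrable (fun _ : V → ℝ => δ ^ 2 * (Sa * Sb)) (gam V) := integrable_const _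
  have i34 : Integrable (fun g : V → ℝ => δ * √δ * Sa * ∑ x ∈ Λ, β x * g x + δ ^ 2 * (Sa * Sb))
    (gam V) := i3.add i4
  have i234 : Integrable (fun g : V → ℝ => δ * √δ * Sb * ∑ x ∈ Λ, α x * g x +
    (δ * √δ * Sa * ∑ x ∈ Λ, β x * g x + δ ^ 2 * (Sa * Sb))) (gam V) := i2.add i34
  have hPi : Integrable P (gam V) := i1.add i234
  have hPI : ∫ g, P g ∂gam V = δ * ∑ x ∈ Λ, α x * β x + δ ^ 2 * (Sa * Sb) := by
    simp only [P]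
    rw [integral_add i1 i234, integral_add i2 i34, integral_add i3 i4, integral_const_mul,
      integral_const_mul, integral_const_mul, integral_lin_mul, integral_lin, integral_lin]
    simp
  have hpt : ∀ g, |Ex Λ μ (nx δ y A g) f * Ex Λ μ (nx δ y A g) ψ - P g| ≤
      320 * B * (δ * √δ) * Wt Λ g ^ 8 := by
    intro g
    have hr := incr_le (Λ := Λ) hδ1 A g
    obtain ⟨a1, a2, -⟩ := tay h y _ hf hr
    obtain ⟨-, c2, c3⟩ := tay h y _ hψ hr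
    rw [hf0, sub_zero] at a2
    rw [hψ0, sub_zero] at c2 c3
    have hP : P g = (∑ x ∈ Λ, √δ * (g x + √δ * sp A x) * α x) *
        ∑ x ∈ Λ, √δ * (g x + √δ * sp A x) * β x := by
      rw [lin_split hδ.le, lin_split hδ.le]
      simp only [P, ← hSa, ← hSb]
      linear_combination (-((∑ x ∈ Λ, α x * g x) * ∑ x ∈ Λ, β x * g x)) * hss
    rw [hP]
    set la := ∑ x ∈ Λ, √δ * (g x + √δ * sp A x) * α x
    set lb := ∑ x ∈ Λ, √δ * (g x + √δ * sp A x) * β x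
    change |Ex Λ μ (nx δ y A g) f - la| ≤ _ at a2
    change |Ex Λ μ (nx δ y A g) ψ - lb| ≤ _ at c2
    change |Ex Λ μ (nx δ y A g) ψ| ≤ _ at c3
    have hW := Wt_ge (Λ := Λ) g
    have hN : (0 : ℝ) ≤ #Λ := Nat.cast_nonneg _
    have hW1 : 1 ≤ Wt Λ g := by linarith
    have : Ex Λ μ (nx δ y A g) f * Ex Λ μ (nx δ y A g) ψ - la * lb =
        (Ex Λ μ (nx δ y A g) f - la) * Ex Λ μ (nx δ y A g) ψ +
          la * (Ex Λ μ (nx δ y A g) ψ - lb) := by ring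
    rw [this]
    refine (abs_add_le _ _).trans ?_
    rw [abs_mul, abs_mul]
    have m1 := mul_le_mul a2 c3 (abs_nonneg _) ((abs_nonneg _).trans a2)
    have m2 := mul_le_mul a1 c2 (abs_nonneg _) ((abs_nonneg _).trans a1)
    have m3 : (√δ * Wt Λ g) ^ 3 ≤ δ * √δ * Wt Λ g ^ 8 := by
      rw [mul_pow, show √δ ^ 3 = δ * √δ by rw [pow_succ, Real.sq_sqrt hδ.le]]
      exact mul_le_mul_of_nonneg_left (pow_le_pow_right₀ hW1 (by norm_num)) (by positivity)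
    have m4 := mul_le_mul_of_nonneg_left m3 (show 0 ≤ 320 * B by positivity)
    nlinarith
  have hint : |∫ g, Ex Λ μ (nx δ y A g) f * Ex Λ μ (nx δ y A g) ψ ∂gam V - ∫ g, P g ∂gam V| ≤
      320 * B * (δ * √δ) * ∫ g, Wt Λ g ^ 8 ∂gam V := by
    rw [← integral_sub (((bm _ A).mul (bm _ A)).integrable _) hPi, ← integral_const_mul]
    refine abs_integral_le_integral_abs.trans (integral_mono_of_nonneg
      (ae_of_all _ fun _ => abs_nonneg _) ((Wt_int Λ).const_mul _) (ae_of_all _ hpt))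
  rw [hPI] at hint
  have b3 : |δ ^ 2 * (Sa * Sb)| ≤ 8 * #Λ ^ 2 * B * (δ * √δ) := by
    rw [abs_mul, abs_mul, abs_of_nonneg (sq_nonneg δ)]
    have m1 := mul_le_mul b1 b2 (abs_nonneg _) (by positivity)
    have m2 : δ ^ 2 ≤ δ * √δ := by
      rw [sq]
      refine mul_le_mul_of_nonneg_left ?_ hδ.le
      nlinarith
    have m3 := mul_le_mul m2 m1 (by positivity) (by positivity)
    linarith
  rw [abs_le] at hint b3 ⊢
  constructor <;> nlinarith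

theorem cv_eq (h : Prior Λ μ) (y y' : V → ℝ) (v w : V) :
    cv Λ μ y' v w = Ex Λ μ y' (fun A => sb Λ μ y v A * sb Λ μ y w A) -
      Ex Λ μ y' (sb Λ μ y v) * Ex Λ μ y' (sb Λ μ y w) := by
  have e : ∀ x, Ex Λ μ y' (sb Λ μ y x) = mg Λ μ y' x - mg Λ μ y x := fun x => by
    unfold sb; rw [Ex_sub, h.Ex_const]; rfl
  have e2 : (fun A => (sp A v - mg Λ μ y' v) * (sp A w - mg Λ μ y' w)) = fun A =>
      sb Λ μ y v A * sb Λ μ y w A - (mg Λ μ y' v - mg Λ μ y v) * sb Λ μ y w A -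
      (mg Λ μ y' w - mg Λ μ y w) * sb Λ μ y v A +
      (mg Λ μ y' v - mg Λ μ y v) * (mg Λ μ y' w - mg Λ μ y w) := by
    funext A; unfold sb; ring
  rw [cv, e2, Ex_add, Ex_sub, Ex_sub, Ex_mul, Ex_mul, h.Ex_const, e, e]
  ring

theorem abs_k3 (h : Prior Λ μ) (y : V → ℝ) (u v w : V) : |k3 Λ μ y u v w| ≤ 8 :=
  h.abs_Ex_le y fun A _ => by
    rw [abs_mul, abs_mul]
    have := mul_le_mul (mul_le_mul (h.abs_sub_mg_le y A u) (h.abs_sub_mg_le y A v) (abs_nonneg _)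
      (by norm_num)) (h.abs_sub_mg_le y A w) (abs_nonneg _) (by norm_num)
    linarith

theorem abs_lin_le' {k a : V → ℝ} {c X : ℝ} (hc : 0 ≤ c) (ha : ∀ x ∈ Λ, |a x| ≤ c)
    (hX : ∑ x ∈ Λ, |k x| ≤ X) : |∑ x ∈ Λ, a x * k x| ≤ c * X := by
  simp only [mul_comm (a _)]
  exact (abs_lin_le ha).trans (mul_le_mul_of_nonneg_left hX hc)

theorem sum_abs_le {a : V → ℝ} {c : ℝ} (ha : ∀ x ∈ Λ, |a x| ≤ c) : ∑ x ∈ Λ, |a x| ≤ c * #Λ := by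
  simpa [mul_comm] using sum_le_card_nsmul Λ _ c ha

theorem step_alg {δ s a z X C1 C2 D M T T' : ℝ} (hδ : 0 < δ) (hδ1 : δ ≤ 1) (hs0 : 0 ≤ s)
    (hss : s * s = δ) (hC1 : 0 ≤ C1) (hD : 0 ≤ D) (hM : 0 ≤ M)
    (p5 : |a - z| ≤ C1 * (δ * s)) (hz : |z| ≤ 4 * X) (p7 : T' ≤ 3 / 2 * T + 3 * δ ^ 2 * D) :
    a ^ 2 + 20 * (δ * T') + 4 * (C2 * δ) ^ 2 * (8 * M + 1) ≤
      z ^ 2 + 30 * δ * T + (8 * X * C1 + C1 ^ 2 + 60 * D + 4 * C2 ^ 2 * (8 * M + 1)) * (δ * s) := by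
  have hs1 : s ≤ 1 := by nlinarith
  have hδs : δ ≤ s := by nlinarith
  have hd1 : δ * s ≤ 1 := by nlinarith
  have hd0 : 0 ≤ δ * s := by positivity
  have r1 : a ^ 2 ≤ z ^ 2 + (8 * X * C1 + C1 ^ 2) * (δ * s) := by
    have m1 : |a - z| * |z| ≤ C1 * (δ * s) * (4 * X) :=
      mul_le_mul p5 hz (abs_nonneg _) (by positivity)
    have m2 := pow_le_pow_left₀ (abs_nonneg _) p5 2
    rw [sq_abs] at m2
    rw [← abs_mul] at m1
    have m3 := le_abs_self ((a - z) * z)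
    have m4 : (C1 * (δ * s)) ^ 2 ≤ C1 ^ 2 * (δ * s) := by
      rw [mul_pow]
      exact mul_le_mul_of_nonneg_left (by nlinarith) (by positivity)
    linarith
  have r2 : δ ^ 2 ≤ δ * s := by nlinarith
  have r3 : δ * δ ^ 2 ≤ δ * s := by nlinarith
  have r4 := mul_le_mul_of_nonneg_left p7 (show 0 ≤ 20 * δ by positivity)
  have r5 := mul_le_mul_of_nonneg_left r3 (show 0 ≤ 60 * D by positivity)
  have r6 := mul_le_mul_of_nonneg_left r2 (show 0 ≤ 4 * C2 ^ 2 * (8 * M + 1) by positivity)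
  linarith

theorem Ex_mul_lin (y y' ξ' : V → ℝ) (φ : Finset V → ℝ) :
    Ex Λ μ y' (fun A => φ A * ∑ w ∈ Λ, sb Λ μ y w A * ξ' w) =
      ∑ w ∈ Λ, Ex Λ μ y' (fun A => φ A * sb Λ μ y w A) * ξ' w := by
  simp only [mul_sum]
  rw [Ex_sum]
  refine sum_congr rfl fun w _ => ?_
  rw [mul_comm, ← Ex_mul]
  exact Ex_congr _ fun A _ => by ring

theorem cv_lin (h : Prior Λ μ) (y y' ξ' : V → ℝ) (v : V) :
    ∑ w ∈ Λ, cv Λ μ y' v w * ξ' w =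
      Ex Λ μ y' (fun A => sb Λ μ y v A * ∑ w ∈ Λ, sb Λ μ y w A * ξ' w) -
        Ex Λ μ y' (sb Λ μ y v) * Ex Λ μ y' (fun A => ∑ w ∈ Λ, sb Λ μ y w A * ξ' w) := by
  have h1 := Ex_mul_lin (Λ := Λ) (μ := μ) y y' ξ' (fun _ => 1)
  simp only [one_mul] at h1
  rw [Ex_mul_lin, h1, mul_sum, ← sum_sub_distrib]
  refine sum_congr rfl fun w _ => ?_
  rw [cv_eq h y]
  ring

theorem co_lin (y ξ' : V → ℝ) (x : V) :
    co Λ μ y (fun A => ∑ w ∈ Λ, sb Λ μ y w A * ξ' w) x = ∑ w ∈ Λ, cv Λ μ y x w * ξ' w := by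
  rw [co, Ex_congr y (φ := fun A => sb Λ μ y x A * ∑ w ∈ Λ, sb Λ μ y w A * ξ' w)
    fun A _ => mul_comm _ _, Ex_mul_lin]
  rfl

theorem co_lin3 (y ξ' : V → ℝ) (v x : V) :
    co Λ μ y (fun A => sb Λ μ y v A * ∑ w ∈ Λ, sb Λ μ y w A * ξ' w) x =
      ∑ u ∈ Λ, k3 Λ μ y u v x * ξ' u := by
  rw [co, Ex_congr y (φ := fun A => (sb Λ μ y v A * sb Λ μ y x A) * ∑ w ∈ Λ, sb Λ μ y w A * ξ' w)
    fun A _ => by ring, Ex_mul_lin]
  refine sum_congr rfl fun u _ => ?_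
  congr 1
  exact Ex_congr _ fun A _ => by unfold sb; ring

theorem step (Λ : Finset V) {X : ℝ} (hX0 : 0 < X) : ∃ C : ℝ, 0 ≤ C ∧ ∀ μ, Prior Λ μ →
    ∀ δ : ℝ, 0 < δ → δ ≤ 1 → ∀ y ξ : V → ℝ, ∑ w ∈ Λ, |ξ w| ≤ X → ∀ v,
    Mx Λ.powerset (pw Λ μ y) (gam V) (fun A g => (∑ w ∈ Λ, cv Λ μ (nx δ y A g) v w *
      (ξ w + δ * ∑ u ∈ Λ, cv Λ μ y w u * ξ u)) ^ 4) ≤
    ((∑ w ∈ Λ, cv Λ μ y v w * ξ w) ^ 2 +
      30 * δ * ∑ x ∈ Λ, (∑ u ∈ Λ, k3 Λ μ y u v x * ξ u) ^ 2 + C * (δ * √δ)) ^ 2 := by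
  have hN0 : (0 : ℝ) ≤ #Λ := Nat.cast_nonneg _
  have hM0 : 0 ≤ ∫ g, Wt Λ g ^ 8 ∂gam V := integral_nonneg fun g => by positivity
  obtain ⟨M, hM⟩ : ∃ M, ∫ g, Wt Λ g ^ 8 ∂gam V = M := ⟨_, rfl⟩
  rw [hM] at hM0
  obtain ⟨B, hB⟩ : ∃ B : ℝ, B = 2 * (X + 4 * X * #Λ) := ⟨_, rfl⟩
  have hB0 : 0 < B := by rw [hB]; positivity
  obtain ⟨C1, hC1⟩ : ∃ C1 : ℝ, C1 = (320 * M + 8 * #Λ ^ 2) * B + 64 * X * #Λ ^ 2 := ⟨_, rfl⟩
  have hC10 : 0 ≤ C1 := by rw [hC1]; positivity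
  obtain ⟨C2, hC2⟩ : ∃ C2 : ℝ, C2 = 164 * B + 16 * X * #Λ + C1 := ⟨_, rfl⟩
  have hC20 : 0 < C2 := by rw [hC2]; positivity
  refine ⟨8 * X * C1 + C1 ^ 2 + 60 * ((32 * X * #Λ) ^ 2 * #Λ) + 4 * C2 ^ 2 * (8 * M + 1),
    by positivity, ?_⟩
  intro μ h δ hδ hδ1 y ξ hξ v
  have hs0 := Real.sqrt_nonneg δ
  have hss := Real.mul_self_sqrt hδ.le
  have hs1 : √δ ≤ 1 := Real.sqrt_le_one.mpr hδ1
  have hδs : δ ≤ √δ := by nlinarith
  obtain ⟨ζ, hζd⟩ : ∃ ζ : V → ℝ, ∀ w, ∑ u ∈ Λ, cv Λ μ y w u * ξ u = ζ w := ⟨_, fun _ => rfl⟩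
  have hζ : ∀ w, |ζ w| ≤ 4 * X := fun w =>
    hζd w ▸ abs_lin_le' (by norm_num) (fun x _ => h.abs_cv_le y w x) hξ
  have hζs : ∑ w ∈ Λ, |ζ w| ≤ 4 * X * #Λ := sum_abs_le fun x _ => hζ x
  obtain ⟨η, hηd⟩ : ∃ η : V → ℝ, ∀ w, ∑ u ∈ Λ, cv Λ μ y w u * ζ u = η w := ⟨_, fun _ => rfl⟩
  have hη : ∀ w, |η w| ≤ 4 * (4 * X * #Λ) := fun w =>
    hηd w ▸ abs_lin_le' (by norm_num) (fun x _ => h.abs_cv_le y w x) hζs
  have hηs : ∑ w ∈ Λ, |η w| ≤ 4 * (4 * X * #Λ) * #Λ := sum_abs_le fun x _ => hη x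
  simp only [hζd]
  have hξ' : ∑ w ∈ Λ, |ξ w + δ * ζ w| ≤ X + 4 * X * #Λ := by
    refine le_trans (sum_le_sum (g := fun w => |ξ w| + |ζ w|) fun w _ => ?_) ?_
    · refine (abs_add_le _ _).trans ?_
      rw [abs_mul, abs_of_pos hδ]
      have := mul_le_mul_of_nonneg_right hδ1 (abs_nonneg (ζ w))
      linarith
    · rw [sum_add_distrib]; linarith
  have hψ : ∀ A, |∑ w ∈ Λ, sb Λ μ y w A * (ξ w + δ * ζ w)| ≤ B := fun A =>
    hB ▸ abs_lin_le' (by norm_num) (fun x _ => abs_sb h y x A) hξ'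
  have hψ0 : Ex Λ μ y (fun A => ∑ w ∈ Λ, sb Λ μ y w A * (ξ w + δ * ζ w)) = 0 := by
    have h1 := Ex_mul_lin (Λ := Λ) (μ := μ) y y (fun w => ξ w + δ * ζ w) (fun _ => 1)
    simp only [one_mul] at h1
    rw [h1]
    exact sum_eq_zero fun w _ => by rw [Ex_sb h, zero_mul]
  have hlin : ∀ x, ∑ w ∈ Λ, cv Λ μ y x w * (ξ w + δ * ζ w) = ζ x + δ * η x := fun x => by
    rw [← hζd x, ← hηd x, mul_sum, ← sum_add_distrib]
    exact sum_congr rfl fun w _ => by ring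
  have p1 := cv_lin h y y (fun w => ξ w + δ * ζ w) v
  rw [hlin, Ex_sb h, zero_mul, sub_zero] at p1
  have p3 : ∑ x ∈ Λ, co Λ μ y (sb Λ μ y v) x *
      co Λ μ y (fun A => ∑ w ∈ Λ, sb Λ μ y w A * (ξ w + δ * ζ w)) x =
      η v + δ * ∑ x ∈ Λ, cv Λ μ y v x * η x := by
    rw [← hηd v, mul_sum, ← sum_add_distrib]
    refine sum_congr rfl fun x _ => ?_
    rw [co_lin, hlin, show co Λ μ y (sb Λ μ y v) x = cv Λ μ y v x from rfl]
    ring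
  have p4 := cov_mean h hδ hδ1 y (abs_sb h y v) hψ (Ex_sb h y v) hψ0
  have q0 := cov_pt h hδ hδ1 y (abs_sb h y v) hψ (Ex_sb h y v) hψ0
  rw [← p1, p3, hM] at p4
  simp only [← p1, co_lin3] at q0
  simp only [← cv_lin h] at p4 q0
  have bmZ : ∀ A, BM fun g => ∑ w ∈ Λ, cv Λ μ (nx δ y A g) v w * (ξ w + δ * ζ w) := fun A =>
    BM.sum _ fun w _ => ((h.bm_cv v w).comp (measurable_nx δ y A)).mul (BM.const _)
  obtain ⟨Z, hZ⟩ : ∃ Z : Finset V → (V → ℝ) → ℝ,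
    ∀ A g, ∑ w ∈ Λ, cv Λ μ (nx δ y A g) v w * (ξ w + δ * ζ w) = Z A g := ⟨_, fun _ _ => rfl⟩
  simp only [hZ] at p4 q0 bmZ ⊢
  obtain ⟨a, ha⟩ : ∃ a, Mx Λ.powerset (pw Λ μ y) (gam V) Z = a := ⟨_, rfl⟩
  change |Mx _ _ _ Z - _| ≤ _ at p4
  rw [ha] at p4
  have p5 : |a - ζ v| ≤ C1 * (δ * √δ) := by
    have q1 : |∑ x ∈ Λ, cv Λ μ y v x * η x| ≤ 4 * (4 * (4 * X * #Λ) * #Λ) :=
      abs_lin_le' (by norm_num) (fun x _ => h.abs_cv_le y v x) hηs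
    have q2 : |δ * δ * ∑ x ∈ Λ, cv Λ μ y v x * η x| ≤ 64 * X * #Λ ^ 2 * (δ * √δ) := by
      rw [abs_mul, abs_of_pos (mul_pos hδ hδ)]
      have := mul_le_mul (mul_le_mul_of_nonneg_left hδs hδ.le) q1 (abs_nonneg _) (by positivity)
      linarith
    rw [hC1]
    rw [abs_le] at p4 q2 ⊢
    constructor <;> linarith [p4.1, p4.2, q2.1, q2.2]
  obtain ⟨Tt, hTt⟩ : ∃ Tt : V → ℝ, ∀ x, ∑ u ∈ Λ, k3 Λ μ y u v x * (ξ u + δ * ζ u) = Tt x :=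
    ⟨_, fun _ => rfl⟩
  simp only [hTt] at q0
  have p7 : ∑ x ∈ Λ, Tt x ^ 2 ≤ 3 / 2 * ∑ x ∈ Λ, (∑ u ∈ Λ, k3 Λ μ y u v x * ξ u) ^ 2 +
      3 * δ ^ 2 * ((32 * X * #Λ) ^ 2 * #Λ) := by
    have : 3 * δ ^ 2 * ((32 * X * #Λ) ^ 2 * #Λ) = ∑ _x ∈ Λ, 3 * δ ^ 2 * (32 * X * #Λ) ^ 2 := by
      rw [sum_const, nsmul_eq_mul]; ring
    rw [this, mul_sum, ← sum_add_distrib]
    refine sum_le_sum fun x _ => ?_
    have p6 : Tt x = ∑ u ∈ Λ, k3 Λ μ y u v x * ξ u + δ * ∑ u ∈ Λ, k3 Λ μ y u v x * ζ u := by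
      rw [← hTt, mul_sum, ← sum_add_distrib]
      exact sum_congr rfl fun u _ => by ring
    rw [p6]
    have q1 : |∑ u ∈ Λ, k3 Λ μ y u v x * ζ u| ≤ 8 * (4 * X * #Λ) :=
      abs_lin_le' (by norm_num) (fun u _ => abs_k3 h y u v x) hζs
    have q2 := pow_le_pow_left₀ (abs_nonneg _) q1 2
    rw [sq_abs] at q2
    have q3 := mul_le_mul_of_nonneg_left q2 (show 0 ≤ 3 * δ ^ 2 by positivity)
    have q4 := sq_nonneg (∑ u ∈ Λ, k3 Λ μ y u v x * ξ u - 2 * δ * ∑ u ∈ Λ, k3 Λ μ y u v x * ζ u)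
    linarith
  have hT0 : 0 ≤ ∑ x ∈ Λ, Tt x ^ 2 := sum_nonneg fun x _ => sq_nonneg _
  have hL : ∀ g : V → ℝ, (√δ * ∑ x ∈ Λ, Tt x * g x) ^ 4 = δ ^ 2 * (∑ x ∈ Λ, Tt x * g x) ^ 4 := by
    intro g
    rw [mul_pow, show √δ ^ 4 = (√δ * √δ) ^ 2 by ring, hss]
  have key := Mx_four (S := Λ.powerset) (ν := gam V) (pw_nonneg h y) (pw_sum h y) bmZ
    (L := fun g => √δ * ∑ x ∈ Λ, Tt x * g x) (W := Wt Λ) (τ := δ * ∑ x ∈ Λ, Tt x ^ 2)
    (ρ := C2 * δ) (M := M) (by positivity) (by positivity)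
    (by simp only [hL]; exact (integrable_lin_pow Λ _ 4).const_mul _)
    (by simp only [hL]; rw [integral_const_mul, integral_lin_four]; ring) (Wt_int Λ) hM (by
      intro A _ g
      have q1 := q0 A g
      have hW := Wt_ge (Λ := Λ) g
      have hW1 : 1 ≤ Wt Λ g ^ 2 := one_le_pow₀ (by linarith)
      have q2 : |δ * η v| ≤ 16 * X * #Λ * δ * Wt Λ g ^ 2 := by
        rw [abs_mul, abs_of_pos hδ]
        have m1 := mul_le_mul_of_nonneg_left (hη v) hδ.le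
        have m2 := mul_le_mul_of_nonneg_left hW1 (show 0 ≤ 16 * X * #Λ * δ by positivity)
        linarith
      have q3 : C1 * (δ * √δ) ≤ C1 * δ * Wt Λ g ^ 2 := by
        rw [← mul_assoc]
        exact mul_le_mul_of_nonneg_left (by linarith) (by positivity)
      change |Z A g - Mx _ _ _ Z - _| ≤ _
      rw [ha, hC2]
      rw [abs_le] at q1 q2 p5 ⊢
      constructor <;> linarith [q1.1, q1.2, q2.1, q2.2, p5.1, p5.2])
  refine key.trans (pow_le_pow_left₀ (by positivity) ?_ 2)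
  change Mx _ _ _ Z ^ 2 + _ + _ ≤ _
  rw [ha]
  exact step_alg hδ hδ1 hs0 hss hC10 (by positivity) hM0 p5 (hζ v) p7

end Crest.Agent.R160.C
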