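import Crest.Agent.R160.Bayes
import Crest.Agent.R160.MartB

/-! Row 160, sub-task C: the response `C ξ` is an approximate martingale; path expansion. -/

set_option autoImplicit false
set_option linter.unusedSectionVars false

namespace Crest.Agent.R160

open MeasureTheory ProbabilityTheory Finset

variable {V : Type*} [DecidableEq V]

namespace C

variable {Λ : Finset V} {μ : Finset V → ℝ}

/-- conditional expectation given the past of time `k` -/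
noncomputable def Qk (Λ : Finset V) (μ : Finset V → ℝ) (δ : ℝ) (k : ℕ)
    (Ψ : (V × ℕ → ℝ) → ℝ) (p : V × ℕ → ℝ) : ℝ :=
  Ex Λ μ (Yp δ p k) (fun A => ∫ g, Ψ (upd p k (fun v => g v + √δ * sp A v)) ∂gam V)

theorem measurable_upd (δ : ℝ) (k : ℕ) (A : Finset V) :
    Measurable fun q : (V × ℕ → ℝ) × (V → ℝ) => upd q.1 k (fun v => q.2 v + √δ * sp A v) :=
  measurable_pi_lambda _ fun i => by unfold upd; split_ifs <;> fun_prop

theorem measurable_upd' (δ : ℝ) (k : ℕ) (A : Finset V) (p : V × ℕ → ℝ) :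
    Measurable fun g : V → ℝ => upd p k (fun v => g v + √δ * sp A v) :=
  (measurable_upd δ k A).comp measurable_prodMk_left

theorem bm_Qk (h : Prior Λ μ) (δ : ℝ) (k : ℕ) {Ψ : (V × ℕ → ℝ) → ℝ} (hΨ : BM Ψ) :
    BM (Qk Λ μ δ k Ψ) := by
  refine ⟨measurable_Ex (measurable_Yp δ k) fun A =>
    ((hΨ.comp (measurable_upd δ k A)).integral_right (gam V)).1, ?_⟩
  obtain ⟨C, hC⟩ := hΨ.2
  refine ⟨C, fun p => h.abs_Ex_le _ fun A _ => ?_⟩
  simpa using norm_integral_le_of_norm_le_const (μ := gam V)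
    (f := fun g => Ψ (upd p k (fun v => g v + √δ * sp A v))) (C := C) (ae_of_all _ fun g => hC _)

theorem past_mono {j k : ℕ} (hjk : j ≤ k) : past Λ j ⊆ past Λ k :=
  fun _ hi => ⟨hi.1, hi.2.trans_le hjk⟩

theorem dep_Qk (δ : ℝ) (k : ℕ) {Ψ : (V × ℕ → ℝ) → ℝ} (hd : DependsOn Ψ (past Λ (k + 1))) :
    DependsOn (Qk Λ μ δ k Ψ) (past Λ k) := by
  intro p p' hp
  unfold Qk
  rw [Ex_dep (Yp_dep δ hp le_rfl)]
  congr 1
  funext A
  congr 1
  funext g
  refine hd fun i hi => ?_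
  unfold upd
  split_ifs with hik
  · rfl
  · exact hp i ⟨hi.1, lt_of_le_of_ne (Nat.lt_succ_iff.mp hi.2) hik⟩

theorem dep_upd {β : Type*} {k : ℕ} {f : (V × ℕ → ℝ) → β} (hd : DependsOn f (past Λ k))
    (p : V × ℕ → ℝ) (g : V → ℝ) : f (upd p k g) = f p :=
  hd fun _ hi => if_neg hi.2.ne

theorem EE_Qk (h : Prior Λ μ) {δ : ℝ} (hδ : 0 ≤ δ) (k : ℕ) {f Ψ : (V × ℕ → ℝ) → ℝ} (hf : BM f)
    (hfd : DependsOn f (past Λ k)) (hΨ : BM Ψ) (hd : DependsOn Ψ (past Λ (k + 1))) :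
    EE Λ μ δ (fun _ p => Qk Λ μ δ k Ψ p * f p) = EE Λ μ δ (fun _ p => Ψ p * f p) := by
  rw [markov h hδ k (hΨ.mul hf) fun p p' hp => by
    rw [hd hp, hfd fun i hi => hp i (past_mono (Nat.le_succ k) hi)]]
  congr 1
  funext A p
  simp only [dep_upd hfd, integral_mul_const, Qk]
  rw [mul_comm, ← Ex_mul]
  exact Ex_congr _ fun A _ => mul_comm _ _

theorem Yp_upd_le (δ : ℝ) (p : V × ℕ → ℝ) {j k : ℕ} (hj : j ≤ k) (g : V → ℝ) :
    Yp δ (upd p k g) j = Yp δ p j := by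
  funext v
  unfold Yp
  congr 1
  exact sum_congr rfl fun i hi => if_neg ((mem_range.1 hi).trans_le hj).ne

theorem Yp_upd_succ (δ : ℝ) (p : V × ℕ → ℝ) (k : ℕ) (A : Finset V) (g : V → ℝ) :
    Yp δ (upd p k (fun v => g v + √δ * sp A v)) (k + 1) = nx δ (Yp δ p k) A g := by
  funext v
  have := congrFun (Yp_upd_le δ p (le_refl k) (fun v => g v + √δ * sp A v)) v
  simp only [Yp] at this
  simp only [Yp, nx, sum_range_succ, mul_add, this]
  simp [upd, mul_add]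

theorem xi_congr (δ : ℝ) {Y Y' : ℕ → V → ℝ} (u : V) (s t : ℕ)
    (hY : ∀ j, j < s + 1 + t → cv Λ μ (Y j) = cv Λ μ (Y' j)) :
    xi Λ μ δ Y u s t = xi Λ μ δ Y' u s t := by
  induction t with
  | zero => rfl
  | succ t ih =>
    funext v
    simp only [xi]
    rw [ih fun j hj => hY j (by omega), hY _ (by omega)]

theorem xi_bound (h : Prior Λ μ) {δ : ℝ} (hδ : 0 ≤ δ) (Y : ℕ → V → ℝ) (u : V) (s t : ℕ) (v : V) :
    |xi Λ μ δ Y u s t v| ≤ (1 + 4 * #Λ * δ) ^ t := by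
  induction t generalizing v with
  | zero => simp only [xi]; split_ifs <;> simp
  | succ t ih =>
    simp only [xi]
    refine (abs_add_le _ _).trans ?_
    have h1 := abs_lin_le' (Λ := Λ) (by norm_num : (0 : ℝ) ≤ 4)
      (fun x _ => h.abs_cv_le (Y (s + 1 + t)) v x) (sum_abs_le fun x _ => ih x)
    rw [abs_mul, abs_of_nonneg hδ, pow_succ]
    have := mul_le_mul_of_nonneg_left h1 hδ
    linarith [ih v]

theorem xi_nonneg (hcv : ∀ y, ∀ u ∈ Λ, ∀ v ∈ Λ, 0 ≤ cv Λ μ y u v) {δ : ℝ} (hδ : 0 ≤ δ)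
    (Y : ℕ → V → ℝ) (u : V) (s t : ℕ) : ∀ v ∈ Λ, 0 ≤ xi Λ μ δ Y u s t v := by
  induction t with
  | zero => intro v _; simp only [xi]; split_ifs <;> simp
  | succ t ih =>
    intro v hv
    simp only [xi]
    exact add_nonneg (ih v hv) (mul_nonneg hδ (sum_nonneg fun w hw =>
      mul_nonneg (hcv _ v hv w hw) (ih w hw)))

theorem bm_xi (h : Prior Λ μ) (δ : ℝ) (u : V) (s t : ℕ) (v : V) :
    BM fun p : V × ℕ → ℝ => xi Λ μ δ (Yp δ p) u s t v := by
  induction t generalizing v with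
  | zero => exact BM.const _
  | succ t ih =>
    simp only [xi]
    exact (ih v).add ((BM.const δ).mul (BM.sum _ fun w _ =>
      ((h.bm_cv v w).comp (measurable_Yp δ _)).mul (ih w)))

/-- the response -/
noncomputable def ze (Λ : Finset V) (μ : Finset V → ℝ) (δ : ℝ) (u : V) (s t : ℕ) (v : V)
    (p : V × ℕ → ℝ) : ℝ :=
  ∑ w ∈ Λ, cv Λ μ (Yp δ p (s + 1 + t)) v w * xi Λ μ δ (Yp δ p) u s t w

theorem bm_ze (h : Prior Λ μ) (δ : ℝ) (u : V) (s t : ℕ) (v : V) : BM (ze Λ μ δ u s t v) :=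
  BM.sum _ fun w _ => ((h.bm_cv v w).comp (measurable_Yp δ _)).mul (bm_xi h δ u s t w)

theorem dep_ze (δ : ℝ) (u : V) (s t : ℕ) (v : V) :
    DependsOn (ze Λ μ δ u s t v) (past Λ (s + 1 + t)) := by
  intro p p' hp
  unfold ze
  rw [cv_dep (Yp_dep δ hp le_rfl), xi_congr δ u s t fun j hj => cv_dep (Yp_dep δ hp hj.le)]

theorem ze_upd (δ : ℝ) (u : V) (s t : ℕ) (v : V) (p : V × ℕ → ℝ) (A : Finset V) (g : V → ℝ) :
    ze Λ μ δ u s (t + 1) v (upd p (s + 1 + t) (fun v => g v + √δ * sp A v)) =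
      ∑ w ∈ Λ, cv Λ μ (nx δ (Yp δ p (s + 1 + t)) A g) v w * (xi Λ μ δ (Yp δ p) u s t w +
        δ * ∑ x ∈ Λ, cv Λ μ (Yp δ p (s + 1 + t)) w x * xi Λ μ δ (Yp δ p) u s t x) := by
  unfold ze
  rw [← add_assoc, Yp_upd_succ, xi_congr δ u s (t + 1) (Y' := Yp δ p) fun j hj => by
    rw [Yp_upd_le δ p (by omega)]]
  rfl

theorem PSL_congr (c : ℝ) (s : ℕ) (n n' : List (ℕ × V × V) → ℝ) (a : V → ℝ) (t : ℕ) :
    ∀ (v : V) (l l' : List (ℕ × V × V)),
      (∀ m : List (ℕ × V × V), (∀ x ∈ m, x.1 < s + 1 + t) → n (m ++ l) = n' (m ++ l')) →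
      PSL Λ c s n a t v l = PSL Λ c s n' a t v l' := by
  induction t with
  | zero =>
    intro v l l' hn
    have := hn [] (by simp)
    simp only [List.nil_append] at this
    simp only [PSL, this]
  | succ t ih =>
    intro v l l' hn
    simp only [PSL]
    rw [ih v l l' fun m hm => hn m fun x hx => by have := hm x hx; omega]
    congr 2
    refine sum_congr rfl fun w _ => ih w _ _ fun m hm => ?_
    have := hn (m ++ [(s + 1 + t, w, v)]) (by
      intro x hx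
      rcases List.mem_append.1 hx with hx | hx
      · have := hm x hx; omega
      · rw [List.mem_singleton.1 hx]; simp)
    simpa using this

theorem EE_cs (h : Prior Λ μ) (δ : ℝ) {f g : (V × ℕ → ℝ) → ℝ} (hf : BM f) (hg : BM g) :
    EE Λ μ δ (fun _ p => f p * g p) ≤
      √(EE Λ μ δ fun _ p => f p ^ 2) * √(EE Λ μ δ fun _ p => g p ^ 2) :=
  Mx_cs (S := Λ.powerset) (ν := gam _) (fun A => (h.pos A).le)
    (F := fun A z => f (obs δ A z)) (G := fun A z => g (obs δ A z))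
    (fun A => hf.comp (measurable_obs δ A)) (fun A => hg.comp (measurable_obs δ A))

theorem main (h : Prior Λ μ) (hcv : ∀ y, ∀ u ∈ Λ, ∀ v ∈ Λ, 0 ≤ cv Λ μ y u v)
    {κ : (V → ℝ) → V → V → ℝ} {κ0 : ℝ} (hκ0 : 0 ≤ κ0) (hκm : ∀ c v, Measurable fun y => κ y c v)
    (hκb : ∀ y c v, 0 ≤ κ y c v ∧ κ y c v ≤ κ0)
    (hκd : ∀ y y', (∀ v ∈ Λ, y v = y' v) → κ y = κ y')
    (hκ : ∀ (y ξ : V → ℝ), (∀ u ∈ Λ, 0 ≤ ξ u) → ∀ v ∈ Λ,
      ∑ w ∈ Λ, (∑ u ∈ Λ, k3 Λ μ y u v w * ξ u) ^ 2 ≤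
        ∑ c ∈ Λ, κ y c v * (∑ u ∈ Λ, cv Λ μ y c u * ξ u) ^ 2)
    {δ : ℝ} (hδ : 0 < δ) {X e : ℝ} (he : 0 ≤ e)
    (hstep : ∀ y ξ : V → ℝ, ∑ w ∈ Λ, |ξ w| ≤ X → ∀ v,
      Mx Λ.powerset (pw Λ μ y) (gam V) (fun A g => (∑ w ∈ Λ, cv Λ μ (nx δ y A g) v w *
        (ξ w + δ * ∑ u ∈ Λ, cv Λ μ y w u * ξ u)) ^ 4) ≤
      ((∑ w ∈ Λ, cv Λ μ y v w * ξ w) ^ 2 +
        30 * δ * ∑ x ∈ Λ, (∑ u ∈ Λ, k3 Λ μ y u v x * ξ u) ^ 2 + e) ^ 2)
    {u : V} (hu : u ∈ Λ) (s t : ℕ) (hX : (1 + 4 * #Λ * δ) ^ t * #Λ ≤ X) :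
    ∀ v ∈ Λ, ∀ H : (V × ℕ → ℝ) → ℝ, BM H → (∀ p, 0 ≤ H p) → DependsOn H (past Λ (s + 1 + t)) →
      EE Λ μ δ (fun _ p => H p * ze Λ μ δ u s t v p ^ 2) ≤
      PSL Λ (30 * δ) s (fun l => √(EE Λ μ δ (fun _ p => H p ^ 2 *
          (l.map fun x => κ (Yp δ p x.1) x.2.1 x.2.2 ^ 2).prod)))
        (fun c => √(EE Λ μ δ (fun _ p => cv Λ μ (Yp δ p (s + 1)) c u ^ 4))) t v [] +
      e * t * (1 + 30 * δ * κ0 * #Λ) ^ t * √(EE Λ μ δ fun _ p => H p ^ 2) := by
  have bmκ : ∀ j c v, BM fun p : V × ℕ → ℝ => κ (Yp δ p j) c v := fun j c v =>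
    ⟨(hκm c v).comp (measurable_Yp δ j), κ0, fun p => by
      rw [abs_of_nonneg (hκb _ _ _).1]; exact (hκb _ _ _).2⟩
  have bmK : ∀ l : List (ℕ × V × V),
      BM fun p : V × ℕ → ℝ => (l.map fun x => κ (Yp δ p x.1) x.2.1 x.2.2 ^ 2).prod := by
    intro l
    induction l with
    | nil => exact BM.const _
    | cons x l ih =>
      simp only [List.map_cons, List.prod_cons]
      exact ((bmκ _ _ _).pow 2).mul ih
  have depK : ∀ (k : ℕ) (l : List (ℕ × V × V)), (∀ x ∈ l, x.1 < k) → DependsOn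
      (fun p : V × ℕ → ℝ => (l.map fun x => κ (Yp δ p x.1) x.2.1 x.2.2 ^ 2).prod) (past Λ k) := by
    intro k l hl p p' hp
    simp only
    congr 1
    exact List.map_congr_left fun x hx => by rw [hκd _ _ (Yp_dep δ hp (hl x hx).le)]
  induction t with
  | zero =>
    intro v _ H hH _ _
    have h1 : ∀ p, ze Λ μ δ u s 0 v p = cv Λ μ (Yp δ p (s + 1)) v u := fun p => by
      simp [ze, xi, hu]
    have h2 := EE_cs h δ hH (((h.bm_cv v u).comp (measurable_Yp δ (s + 1))).pow 2)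
    simp only [← pow_mul] at h2
    simp only [h1, PSL, List.map_nil, List.prod_nil, mul_one, Nat.cast_zero, mul_zero, zero_mul,
      add_zero]
    rw [mul_comm]
    exact h2
  | succ t ih =>
    intro v hv H hH hH0 hHd
    have hN : (0 : ℝ) ≤ #Λ := Nat.cast_nonneg _
    have hb1 : 1 ≤ 1 + 4 * #Λ * δ := le_add_of_nonneg_right (by positivity)
    have hX' : (1 + 4 * #Λ * δ) ^ t * #Λ ≤ X :=
      (mul_le_mul_of_nonneg_right (pow_le_pow_right₀ hb1 (Nat.le_succ t)) hN).trans hX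
    replace ih := ih hX'
    have hH2 : BM fun p => H p ^ 2 := hH.pow 2
    have hH2d : DependsOn (fun p => H p ^ 2) (past Λ (s + 1 + t + 1)) := fun p p' hp => by
      simp only [hHd hp]
    let G : (V × ℕ → ℝ) → ℝ := fun p => √(Qk Λ μ δ (s + 1 + t) (fun p => H p ^ 2) p)
    have hG : BM G := (bm_Qk h δ _ hH2).sqrt
    have hG0 : ∀ p, 0 ≤ G p := fun p => Real.sqrt_nonneg _
    have hGd : DependsOn G (past Λ (s + 1 + t)) := fun p p' hp => by
      simp only [G, dep_Qk δ _ hH2d hp]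
    have hG2 : ∀ p, G p ^ 2 = Qk Λ μ δ (s + 1 + t) (fun p => H p ^ 2) p := fun p => by
      refine Real.sq_sqrt ?_
      unfold Qk
      rw [← h.Ex_const (Yp δ p (s + 1 + t)) 0]
      exact h.Ex_mono _ fun A _ => integral_nonneg fun g => sq_nonneg _
    have hGH : ∀ f : (V × ℕ → ℝ) → ℝ, BM f → DependsOn f (past Λ (s + 1 + t)) →
        EE Λ μ δ (fun _ p => G p ^ 2 * f p) = EE Λ μ δ (fun _ p => H p ^ 2 * f p) := by
      intro f hf hfd
      simp only [hG2]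
      exact EE_Qk h hδ.le _ hf hfd hH2 hH2d
    have hGH1 : EE Λ μ δ (fun _ p => G p ^ 2) = EE Λ μ δ (fun _ p => H p ^ 2) := by
      simpa using hGH (fun _ => 1) (BM.const 1) fun _ _ _ => rfl
    have hZ := bm_ze h δ u s (t + 1) v
    have hΨ : BM fun p => H p * ze Λ μ δ u s (t + 1) v p ^ 2 := hH.mul (hZ.pow 2)
    -- pointwise bound on the conditional expectation
    have hpt : ∀ p, Qk Λ μ δ (s + 1 + t) (fun p => H p * ze Λ μ δ u s (t + 1) v p ^ 2) p ≤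
        G p * ze Λ μ δ u s t v p ^ 2 + (30 * δ * ∑ c ∈ Λ,
          G p * κ (Yp δ p (s + 1 + t)) c v * ze Λ μ δ u s t c p ^ 2 + e * (G p * 1)) := by
      intro p
      have h1 := Mx_cs (S := Λ.powerset) (ν := gam V) (pw_nonneg h (Yp δ p (s + 1 + t)))
        (F := fun A g => H (upd p (s + 1 + t) (fun v => g v + √δ * sp A v)))
        (G := fun A g => ze Λ μ δ u s (t + 1) v
          (upd p (s + 1 + t) (fun v => g v + √δ * sp A v)) ^ 2)
        (fun A => hH.comp (measurable_upd' δ _ A p))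
        (fun A => (hZ.comp (measurable_upd' δ _ A p)).pow 2)
      have h2 := hstep (Yp δ p (s + 1 + t)) (xi Λ μ δ (Yp δ p) u s t)
        ((sum_abs_le fun x _ => xi_bound h hδ.le _ u s t x).trans hX') v
      have h3 := hκ (Yp δ p (s + 1 + t)) _ (xi_nonneg hcv hδ.le (Yp δ p) u s t) v hv
      simp only [← pow_mul, ze_upd] at h1
      have h4 := Real.sqrt_le_sqrt h2
      rw [Real.sqrt_sq (by positivity)] at h4
      rw [← Ex_Mx, ← Ex_Mx] at h1
      simp only [← ze_upd] at h1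
      refine h1.trans ?_
      simp only [ze_upd]
      have h5 := mul_le_mul_of_nonneg_left h3 (show 0 ≤ 30 * δ by positivity)
      have h6 := mul_le_mul_of_nonneg_left (h4.trans (add_le_add_left
        (add_le_add_right h5 _) _)) (hG0 p)
      refine h6.trans (le_of_eq ?_)
      simp only [ze, mul_add, mul_sum, mul_one, mul_assoc, mul_left_comm (G p), mul_comm e,
        add_assoc]
    have hGκ : ∀ c, BM fun p => G p * κ (Yp δ p (s + 1 + t)) c v := fun c => hG.mul (bmκ _ _ _)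
    have h1 : EE Λ μ δ (fun _ p => H p * ze Λ μ δ u s (t + 1) v p ^ 2) ≤
        EE Λ μ δ (fun _ p => G p * ze Λ μ δ u s t v p ^ 2) + (30 * δ * ∑ c ∈ Λ,
          EE Λ μ δ (fun _ p => G p * κ (Yp δ p (s + 1 + t)) c v * ze Λ μ δ u s t c p ^ 2) +
          e * EE Λ μ δ (fun _ p => G p * 1)) := by
      have b1 := hG.mul ((bm_ze h δ u s t v).pow 2)
      have b2 : ∀ c, BM fun p => G p * κ (Yp δ p (s + 1 + t)) c v * ze Λ μ δ u s t c p ^ 2 :=
        fun c => (hGκ c).mul ((bm_ze h δ u s t c).pow 2)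
      have b3 := (BM.const (30 * δ)).mul (BM.sum Λ fun c _ => b2 c)
      have b4 := (BM.const e).mul (hG.mul (BM.const 1))
      rw [markov h hδ.le (s + 1 + t) hΨ fun p p' hp => by
        rw [hHd hp, dep_ze δ u s (t + 1) v hp]]
      refine (h.EE_mono δ (fun _ => bm_Qk h δ _ hΨ) (fun _ => b1.add (b3.add b4))
        fun _ p => hpt p).trans (le_of_eq ?_)
      rw [EE_add δ (fun _ => b1) (fun _ => b3.add b4), EE_add δ (fun _ => b3) (fun _ => b4),
        EE_mul, EE_mul, EE_sum Λ δ fun c _ _ => b2 c]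
    have h2 := ih v hv G hG hG0 hGd
    rw [hGH1, PSL_congr (n' := fun l => √(EE Λ μ δ (fun _ p => H p ^ 2 *
      (l.map fun x => κ (Yp δ p x.1) x.2.1 x.2.2 ^ 2).prod))) (l' := []) _ _ _ _ _ _ _
      fun m hm => by simp only [List.append_nil]; rw [hGH _ (bmK m) (depK _ m hm)]] at h2
    have h3 : ∀ c ∈ Λ, EE Λ μ δ (fun _ p => G p * κ (Yp δ p (s + 1 + t)) c v *
        ze Λ μ δ u s t c p ^ 2) ≤ PSL Λ (30 * δ) s (fun l => √(EE Λ μ δ (fun _ p => H p ^ 2 *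
          (l.map fun x => κ (Yp δ p x.1) x.2.1 x.2.2 ^ 2).prod)))
        (fun c => √(EE Λ μ δ (fun _ p => cv Λ μ (Yp δ p (s + 1)) c u ^ 4))) t c
          [(s + 1 + t, c, v)] + e * t * (1 + 30 * δ * κ0 * #Λ) ^ t *
          (κ0 * √(EE Λ μ δ fun _ p => H p ^ 2)) := by
      intro c hc
      have h4 := ih c hc _ (hGκ c) (fun p => mul_nonneg (hG0 p) (hκb _ _ _).1) fun p p' hp => by
        simp only [hGd hp, hκd _ _ (Yp_dep δ hp le_rfl)]
      rw [PSL_congr (n' := fun l => √(EE Λ μ δ (fun _ p => H p ^ 2 *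
        (l.map fun x => κ (Yp δ p x.1) x.2.1 x.2.2 ^ 2).prod))) (l' := [(s + 1 + t, c, v)])
        _ _ _ _ _ _ _ fun m hm => by
          have := hGH _ ((bmK m).mul ((bmκ (s + 1 + t) c v).pow 2)) fun p p' hp => by
            have e1 := depK _ m hm hp
            simp only at e1
            rw [e1, hκd _ _ (Yp_dep δ hp le_rfl)]
          simp only [List.append_nil, List.map_append, List.prod_append, List.map_cons,
            List.map_nil, List.prod_cons, List.prod_nil, mul_one]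
          rw [← this]
          congr 2
          funext _ p
          ring] at h4
      refine h4.trans (add_le_add_right (mul_le_mul_of_nonneg_left ?_ (by positivity)) _)
      rw [← hGH1, ← Real.sqrt_sq hκ0, ← Real.sqrt_mul (sq_nonneg _), ← EE_mul]
      refine Real.sqrt_le_sqrt (h.EE_mono δ (fun _ => (hGκ c).pow 2)
        (fun _ => (BM.const _).mul (hG.pow 2)) fun _ p => ?_)
      rw [mul_pow, mul_comm]
      exact mul_le_mul_of_nonneg_right (pow_le_pow_left₀ (hκb _ _ _).1 (hκb _ _ _).2 2)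
        (sq_nonneg _)
    have h4 := sum_le_sum h3
    rw [sum_add_distrib, sum_const, nsmul_eq_mul] at h4
    have h5 := EE_cs h δ hG (BM.const 1)
    rw [hGH1, h.EE_const, one_pow, Real.sqrt_one, mul_one] at h5
    have h6 := mul_le_mul_of_nonneg_left h4 (show 0 ≤ 30 * δ by positivity)
    have h7 := mul_le_mul_of_nonneg_left h5 he
    have h8 : 1 ≤ (1 + 30 * δ * κ0 * #Λ) ^ (t + 1) :=
      one_le_pow₀ (le_add_of_nonneg_right (by positivity))
    have h9 := mul_le_mul_of_nonneg_left h8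
      (mul_nonneg he (Real.sqrt_nonneg (EE Λ μ δ fun _ p => H p ^ 2)))
    simp only [PSL]
    push_cast
    rw [pow_succ] at h9 ⊢
    linarith

end C

theorem mart (Λ : Finset V) (κ0 T : ℝ) {ε : ℝ} (hε : 0 < ε) : ∃ δ0 : ℝ, 0 < δ0 ∧
    ∀ μ, Prior Λ μ → (∀ y, ∀ u ∈ Λ, ∀ v ∈ Λ, 0 ≤ cv Λ μ y u v) →
    ∀ κ : (V → ℝ) → V → V → ℝ, (∀ c v, Measurable fun y => κ y c v) →
    (∀ y c v, 0 ≤ κ y c v ∧ κ y c v ≤ κ0) → (∀ y y', (∀ v ∈ Λ, y v = y' v) → κ y = κ y') →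
    (∀ (y ξ : V → ℝ), (∀ u ∈ Λ, 0 ≤ ξ u) → ∀ v ∈ Λ,
      ∑ w ∈ Λ, (∑ u ∈ Λ, k3 Λ μ y u v w * ξ u) ^ 2 ≤
        ∑ c ∈ Λ, κ y c v * (∑ u ∈ Λ, cv Λ μ y c u * ξ u) ^ 2) →
    ∀ δ : ℝ, 0 < δ → δ ≤ δ0 → ∀ u ∈ Λ, ∀ s t : ℕ, ((s + 1 + t : ℕ) : ℝ) * δ ≤ T → ∀ v ∈ Λ,
      EE Λ μ δ (fun _ p =>
        (∑ w ∈ Λ, cv Λ μ (Yp δ p (s + 1 + t)) v w * xi Λ μ δ (Yp δ p) u s t w) ^ 2) ≤
      PSL Λ (30 * δ) s
        (fun l => √(EE Λ μ δ (fun _ p => (l.map fun x => κ (Yp δ p x.1) x.2.1 x.2.2 ^ 2).prod)))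
        (fun c => √(EE Λ μ δ (fun _ p => cv Λ μ (Yp δ p (s + 1)) c u ^ 4))) t v [] + ε := by
  have hN : (0 : ℝ) ≤ #Λ := Nat.cast_nonneg _
  obtain ⟨K, hK0, hK⟩ := C.step Λ (X := Real.exp (4 * #Λ * T) * #Λ + 1) (by positivity)
  obtain ⟨D, hD⟩ : ∃ D : ℝ, D = K * |T| * Real.exp (30 * κ0 * #Λ * T) + 1 := ⟨_, rfl⟩
  have hD0 : 0 < D := by rw [hD]; positivity
  refine ⟨min 1 ((ε / D) ^ 2), by positivity, ?_⟩
  intro μ h hcv κ hκm hκb hκd hκ δ hδ hδ0 u hu s t hT v hv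
  have hκ0 : 0 ≤ κ0 := (hκb (fun _ => 0) u u).1.trans (hκb _ u u).2
  have htT : t * δ ≤ T := by
    refine le_trans (mul_le_mul_of_nonneg_right ?_ hδ.le) hT
    exact_mod_cast Nat.le_add_left _ _
  have hpow : ∀ a : ℝ, 0 ≤ a → (1 + a * δ) ^ t ≤ Real.exp (a * T) := fun a ha => by
    calc (1 + a * δ) ^ t ≤ Real.exp (a * δ) ^ t :=
          pow_le_pow_left₀ (by positivity) (by linarith [Real.add_one_le_exp (a * δ)]) t
      _ = Real.exp (a * (t * δ)) := by rw [← Real.exp_nat_mul]; congr 1; ring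
      _ ≤ Real.exp (a * T) := Real.exp_le_exp.2 (mul_le_mul_of_nonneg_left htT ha)
  have key := C.main h hcv hκ0 hκm hκb hκd hκ hδ (e := K * (δ * √δ)) (by positivity)
    (hK μ h δ hδ (hδ0.trans (min_le_left _ _))) hu s t
    ((mul_le_mul_of_nonneg_right (hpow _ (by positivity)) hN).trans (le_add_of_nonneg_right
      zero_le_one)) v hv (fun _ => 1) (BM.const 1) (fun _ => zero_le_one) fun _ _ _ => rfl
  simp only [one_pow, one_mul, h.EE_const, Real.sqrt_one, mul_one] at key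
  refine key.trans (add_le_add_right ?_ _)
  have h1 : √δ ≤ ε / D := by
    rw [Real.sqrt_le_left (by positivity)]
    exact hδ0.trans (min_le_right _ _)
  have h2 := hpow (30 * κ0 * #Λ) (by positivity)
  rw [show 30 * κ0 * #Λ * δ = 30 * δ * κ0 * #Λ by ring] at h2
  have h3 : K * (t * δ) * (1 + 30 * δ * κ0 * #Λ) ^ t ≤ D := by
    rw [hD]
    exact (mul_le_mul (mul_le_mul_of_nonneg_left (htT.trans (le_abs_self T)) hK0) h2
      (by positivity) (by positivity)).trans (le_add_of_nonneg_right zero_le_one)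
  have h4 := mul_le_mul h3 h1 (Real.sqrt_nonneg _) hD0.le
  rw [mul_div_cancel₀ _ hD0.ne'] at h4
  linarith

end Crest.Agent.R160
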