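import Crest.Agent.R160.KDefs

/-! Row 160, sub-task P: choice of the parameters (real analysis only). -/

set_option autoImplicit false

namespace Crest.Agent.R160

open Finset

theorem riem {δ γ : ℝ} (hδ : 0 < δ) (h0 : 0 < γ) (h1 : γ ≤ 1) (N : ℕ) :
    ∑ k ∈ range N, δ * (((k + 1 : ℕ) : ℝ) * δ) ^ (γ - 1) ≤ (N * δ) ^ γ / γ := by
  induction N with
  | zero => simp [Real.zero_rpow h0.ne']
  | succ N ih =>
    rw [sum_range_succ]
    set a : ℝ := ((N + 1 : ℕ) : ℝ) * δ with ha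
    have hN : (0 : ℝ) ≤ N := Nat.cast_nonneg _
    have ha' : a = N * δ + δ := by rw [ha]; push_cast; ring
    have ha0 : 0 < a := by rw [ha']; positivity
    have h2 : (1 + -(δ / a)) ^ γ ≤ 1 + γ * -(δ / a) := by
      refine rpow_one_add_le_one_add_mul_self ?_ h0.le h1
      rw [neg_le_neg_iff, div_le_one ha0, ha']
      nlinarith
    have h3 : (N : ℝ) * δ = a * (1 + -(δ / a)) := by field_simp; linarith
    have h4 : 0 ≤ 1 + -(δ / a) := by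
      rw [← sub_eq_add_neg, sub_nonneg, div_le_one ha0, ha']
      nlinarith
    have h5 : ((N : ℝ) * δ) ^ γ ≤ a ^ γ - γ * (δ * a ^ (γ - 1)) := by
      rw [h3, Real.mul_rpow ha0.le h4, Real.rpow_sub_one ha0.ne']
      calc a ^ γ * (1 + -(δ / a)) ^ γ ≤ a ^ γ * (1 + γ * -(δ / a)) :=
            mul_le_mul_of_nonneg_left h2 (Real.rpow_nonneg ha0.le _)
        _ = _ := by field_simp; ring
    have h6 : (N * δ) ^ γ / γ + δ * a ^ (γ - 1) ≤ a ^ γ / γ := by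
      rw [div_add' _ _ _ h0.ne']
      exact div_le_div_of_nonneg_right (by linarith) h0.le
    linarith

namespace ParamAux

theorem one_le_log {m : ℕ} (hm : 1 ≤ m) : 1 ≤ Real.log (((12 * m : ℕ) : ℝ) + 1) := by
  rw [Real.le_log_iff_exp_le (by positivity)]
  have : (1 : ℝ) ≤ m := by exact_mod_cast hm
  push_cast
  linarith [Real.exp_one_lt_three]

theorem log_le (Q : ℕ) : Real.log ((Q : ℝ) + 1) ≤ Q := by
  have := Real.log_le_sub_one_of_pos (show (0 : ℝ) < Q + 1 by positivity)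
  linarith

theorem pM_facts {C : ℝ} (hC : 1 ≤ C) {m : ℕ} (hm : 1 ≤ m) {δ : ℝ} {D k : ℕ}
    (hx : 1 ≤ px δ D k) :
    0 < pM C (12 * m) δ D k ∧ pM C (12 * m) δ D k ≤ C * (px δ D k + (12 * m : ℕ)) := by
  have hL := one_le_log hm
  have hQ : (0 : ℝ) < (12 * m : ℕ) := by exact_mod_cast (by omega : 0 < 12 * m)
  unfold pM
  split_ifs
  · refine ⟨by positivity, (div_le_self (by positivity) hL).trans ?_⟩
    exact mul_le_mul_of_nonneg_left (by linarith) (by linarith)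
  · exact ⟨by positivity, le_rfl⟩

theorem pM_rpow {C : ℝ} (hC : 1 ≤ C) {m : ℕ} (hm : 1 ≤ m) {δ : ℝ} {D k : ℕ}
    (hx : 1 ≤ px δ D k) {ε : ℝ} (hε : 0 < ε) (hε1 : ε ≤ 1 / (100 * (m + 1))) :
    pM C (12 * m) δ D k ^ (1 + ε) ≤ pM C (12 * m) δ D k * (2 * C * px δ D k ^ ε) := by
  obtain ⟨h0, h1⟩ := pM_facts hC hm hx
  rw [Real.rpow_add h0, Real.rpow_one]
  refine mul_le_mul_of_nonneg_left ?_ h0.le
  set x := px δ D k
  set Q : ℝ := ((12 * m : ℕ) : ℝ) with hQ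
  have hm' : (1 : ℝ) ≤ m := by exact_mod_cast hm
  have hQ' : Q = 12 * m := by rw [hQ]; push_cast; ring
  have hQ0 : 0 ≤ Q := by rw [hQ']; positivity
  have hε2 : ε * (100 * (m + 1)) ≤ 1 := (le_div_iff₀ (by positivity)).1 hε1
  have h2 : pM C (12 * m) δ D k ≤ C * x * (Q + 1) := h1.trans (by
    rw [mul_assoc]
    exact mul_le_mul_of_nonneg_left (by nlinarith) (by linarith))
  have h3 : C ^ ε ≤ C := by
    conv_rhs => rw [← Real.rpow_one C]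
    exact Real.rpow_le_rpow_of_exponent_le hC (by nlinarith)
  have h4 : (Q + 1) ^ ε ≤ 2 := by
    rw [Real.rpow_def_of_pos (by positivity)]
    have a1 : Real.log (Q + 1) ≤ Q := log_le _
    have a2 : Real.log (Q + 1) * ε ≤ 1 / 2 := by
      have := mul_le_mul_of_nonneg_right a1 hε.le
      rw [hQ'] at this ⊢
      nlinarith
    have a3 : Real.exp (1 / 2) ≤ 2 := by
      rw [← Real.le_log_iff_exp_le two_pos]
      linarith [Real.log_two_gt_d9]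
    exact (Real.exp_le_exp.2 a2).trans a3
  calc pM C (12 * m) δ D k ^ ε ≤ (C * x * (Q + 1)) ^ ε := Real.rpow_le_rpow h0.le h2 hε.le
    _ = C ^ ε * x ^ ε * (Q + 1) ^ ε := by
        rw [Real.mul_rpow (by positivity) (by positivity),
          Real.mul_rpow (by positivity) (by positivity)]
    _ ≤ C * x ^ ε * 2 := by gcongr
    _ = _ := by ring

/-- the summand -/
noncomputable def tm (C : ℝ) (Cm : ℕ → ℝ) (i m : ℕ) (δ : ℝ) (D : ℕ) (ε : ℝ) (k : ℕ) : ℝ :=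
  C * pmm Cm i (12 * m) δ D k * pl C (12 * m) δ D k * pM C (12 * m) δ D k ^ (1 + ε)

theorem term0 {C : ℝ} (hC : 1 ≤ C) {Cm : ℕ → ℝ} (hCm : ∀ i, 1 ≤ Cm i) {i m : ℕ} (hi : 1 ≤ i)
    (hm : 1 ≤ m) {δ : ℝ} (hδ : 0 < δ) {D k : ℕ} (hD : 2 * (D * δ) ≤ 1) (hk1 : 1 ≤ k)
    (hk : k < 2 * D) {ε : ℝ} (hε : 0 < ε) (hε1 : ε ≤ 1 / (100 * (m + 1))) :
    0 ≤ tm C Cm i m δ D ε k ∧ tm C Cm i m δ D ε k ≤
      2 * C ^ 4 * Cm i ^ (1 / ((12 * m : ℕ) : ℝ)) *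
        (((k : ℝ) * δ) ^ ((2 : ℝ) ^ i / (8 * (12 * m : ℕ)) - 1) +
          18 * (12 * m : ℕ) * ((k : ℝ) * δ) ^ ((1 : ℝ) / 2 - 1)) := by
  have hk1' : (1 : ℝ) ≤ k := by exact_mod_cast hk1
  have hk' : (k : ℝ) ≤ 2 * D := by exact_mod_cast hk.le
  have hτ0 : 0 < (k : ℝ) * δ := by positivity
  have hτ1 : (k : ℝ) * δ ≤ 1 := by nlinarith
  have hpx : px δ D k = 1 / √(k * δ) := if_pos hk
  have hpt : pt δ D k = k * δ := if_pos hk
  set τ : ℝ := k * δ with hτ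
  have hs0 : 0 < √τ := Real.sqrt_pos.2 hτ0
  have hs1 : √τ ≤ 1 := Real.sqrt_le_one.2 hτ1
  have hx : 1 ≤ px δ D k := by rw [hpx, le_div_iff₀ hs0]; linarith
  have hx2 : px δ D k ^ 2 = τ⁻¹ := by rw [hpx, div_pow, Real.sq_sqrt hτ0.le, one_pow, one_div]
  have hxr : px δ D k = τ ^ (-(1 / 2) : ℝ) := by
    rw [hpx, Real.rpow_neg hτ0.le, Real.sqrt_eq_rpow, one_div]
  obtain ⟨hM0, hM1⟩ := pM_facts hC hm hx
  have hL := one_le_log hm
  have hm' : (1 : ℝ) ≤ m := by exact_mod_cast hm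
  set Q : ℝ := ((12 * m : ℕ) : ℝ) with hQ
  have hQ' : Q = 12 * m := by rw [hQ]; push_cast; ring
  have hQ0 : 0 < Q := by rw [hQ']; positivity
  have hCi := hCm i
  have hpmm : pmm Cm i (12 * m) δ D k = Cm i ^ (1 / Q) * τ ^ ((2 : ℝ) ^ i / (4 * Q)) := by
    unfold pmm
    rw [if_pos hk, Real.mul_rpow (by linarith) (by positivity), ← Real.rpow_mul hτ0.le]
    congr 2
    rw [← hQ]
    field_simp
  set x := px δ D k
  have hpl : pl C (12 * m) δ D k = C * (x + Real.log (Q + 1)) := rfl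
  have hxM : (x + Real.log (Q + 1)) * pM C (12 * m) δ D k ≤ C * (x ^ 2 + 18 * Q * x) := by
    unfold pM
    split_ifs with h
    · have a1 : (x + Real.log (Q + 1)) * (C * Q / Real.log (Q + 1)) =
          C * (Q * (x / Real.log (Q + 1)) + Q) := by field_simp
      rw [a1]
      refine mul_le_mul_of_nonneg_left ?_ (by linarith)
      have a2 : x / Real.log (Q + 1) ≤ x := div_le_self (by linarith) hL
      have a3 := mul_le_mul_of_nonneg_left a2 hQ0.le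
      have a4 := mul_le_mul_of_nonneg_left hx hQ0.le
      have a5 : 0 ≤ x ^ 2 := sq_nonneg _
      linarith
    · rw [hpt] at h
      push Not at h
      have a1 : Q ≤ x ^ 8 := by
        rw [show x ^ 8 = (x ^ 2) ^ 4 by ring, hx2, inv_pow, ← one_div, le_div_iff₀ (by positivity)]
        exact h.le
      have a2 : 1 ≤ x ^ 8 := one_le_pow₀ hx
      have a3 : Real.log (Q + 1) ≤ 16 * x := by
        have b1 : Q + 1 ≤ (2 * x) ^ 8 := by rw [mul_pow]; linarith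
        have b2 := Real.log_le_log (by positivity) b1
        rw [Real.log_pow] at b2
        have b3 := Real.log_le_sub_one_of_pos (show 0 < 2 * x by linarith)
        push_cast at b2
        linarith
      have a4 : Real.log (Q + 1) ≤ Q := log_le _
      rw [mul_left_comm]
      refine mul_le_mul_of_nonneg_left ?_ (by linarith)
      have a5 := mul_le_mul_of_nonneg_right a3 hQ0.le
      have a6 := mul_le_mul_of_nonneg_right a4 (show 0 ≤ x by linarith)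
      linarith
  have h2i : (2 : ℝ) ≤ 2 ^ i := le_self_pow₀ (by norm_num) (by omega)
  have hε2 : ε * (100 * (m + 1)) ≤ 1 := (le_div_iff₀ (by positivity)).1 hε1
  have hg : τ ^ ((2 : ℝ) ^ i / (4 * Q)) * x ^ ε ≤ τ ^ ((2 : ℝ) ^ i / (8 * Q)) := by
    rw [hxr, ← Real.rpow_mul hτ0.le, ← Real.rpow_add hτ0]
    refine Real.rpow_le_rpow_of_exponent_ge hτ0 hτ1 ?_
    have a1 : (2 : ℝ) ^ i / (4 * Q) = 2 * (2 ^ i / (8 * Q)) := by field_simp; ring
    have a2 : ε / 2 ≤ (2 : ℝ) ^ i / (8 * Q) := by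
      rw [le_div_iff₀ (by positivity), hQ']
      nlinarith
    linarith
  have hg2 : τ ^ ((2 : ℝ) ^ i / (8 * Q)) * (x ^ 2 + 18 * Q * x) ≤
      τ ^ ((2 : ℝ) ^ i / (8 * Q) - 1) + 18 * Q * τ ^ ((1 : ℝ) / 2 - 1) := by
    rw [mul_add, hx2, Real.rpow_sub_one hτ0.ne', div_eq_mul_inv (τ ^ _),
      show (1 : ℝ) / 2 - 1 = -(1 / 2) by norm_num, ← hxr]
    have : τ ^ ((2 : ℝ) ^ i / (8 * Q)) ≤ 1 := Real.rpow_le_one hτ0.le hτ1 (by positivity)
    have h3 : 0 ≤ 18 * Q * x := by positivity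
    exact add_le_add le_rfl (mul_le_of_le_one_left h3 this)
  unfold tm
  rw [hpmm, hpl]
  refine ⟨by positivity, ?_⟩
  calc _ ≤ C * (Cm i ^ (1 / Q) * τ ^ ((2 : ℝ) ^ i / (4 * Q))) * (C * (x + Real.log (Q + 1))) *
        (pM C (12 * m) δ D k * (2 * C * x ^ ε)) :=
        mul_le_mul_of_nonneg_left (pM_rpow hC hm hx hε hε1) (by positivity)
    _ = 2 * C ^ 3 * Cm i ^ (1 / Q) * ((τ ^ ((2 : ℝ) ^ i / (4 * Q)) * x ^ ε) *
        ((x + Real.log (Q + 1)) * pM C (12 * m) δ D k)) := by ring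
    _ ≤ 2 * C ^ 3 * Cm i ^ (1 / Q) * (τ ^ ((2 : ℝ) ^ i / (8 * Q)) * (C * (x ^ 2 + 18 * Q * x))) := by
        gcongr
    _ = 2 * C ^ 4 * Cm i ^ (1 / Q) * (τ ^ ((2 : ℝ) ^ i / (8 * Q)) * (x ^ 2 + 18 * Q * x)) := by ring
    _ ≤ _ := by gcongr

theorem sum0 {C : ℝ} (hC : 1 ≤ C) {Cm : ℕ → ℝ} (hCm : ∀ i, 1 ≤ Cm i) {i m : ℕ} (hi : 1 ≤ i)
    (hm : 1 ≤ m) (him : 2 ^ i ≤ 2 * (12 * m)) {δ : ℝ} (hδ : 0 < δ) {D : ℕ}
    (hD : 2 * (D * δ) ≤ 1) {ε : ℝ} (hε : 0 < ε) (hε1 : ε ≤ 1 / (100 * (m + 1))) (I : Finset ℕ)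
    (hI : ∀ k ∈ I, 1 ≤ k ∧ k < 2 * D) :
    0 ≤ 30 * δ * ∑ k ∈ I, tm C Cm i m δ D ε k ∧ 30 * δ * ∑ k ∈ I, tm C Cm i m δ D ε k ≤
      60 * C ^ 4 * Cm i ^ (1 / ((12 * m : ℕ) : ℝ)) * (12 * m : ℕ) *
        (8 / 2 ^ i + 36 * √(2 * (D * δ))) := by
  have h := fun k hk => term0 hC hCm hi hm hδ hD (hI k hk).1 (hI k hk).2 hε hε1
  refine ⟨mul_nonneg (by positivity) (sum_nonneg fun k hk => (h k hk).1), ?_⟩
  have hm' : (1 : ℝ) ≤ m := by exact_mod_cast hm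
  set Q : ℝ := ((12 * m : ℕ) : ℝ) with hQ
  have hQ0 : 0 < Q := by rw [hQ]; exact_mod_cast (by omega : 0 < 12 * m)
  have him' : (2 : ℝ) ^ i ≤ 2 * Q := by rw [hQ]; exact_mod_cast him
  have hCi := hCm i
  have hsum : ∀ γ : ℝ, 0 < γ → γ ≤ 1 →
      δ * ∑ k ∈ I, ((k : ℝ) * δ) ^ (γ - 1) ≤ (2 * (D * δ)) ^ γ / γ := by
    intro γ h0 h1
    have a1 := riem hδ h0 h1 (2 * D)
    rw [← mul_sum] at a1
    have a2 : ∑ k ∈ I, ((k : ℝ) * δ) ^ (γ - 1) ≤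
        ∑ k ∈ range (2 * D), (((k + 1 : ℕ) : ℝ) * δ) ^ (γ - 1) := by
      rw [← sum_image (s := range (2 * D)) (g := fun k => k + 1)
        (f := fun k : ℕ => ((k : ℝ) * δ) ^ (γ - 1)) (fun a _ b _ h => by simpa using h)]
      refine sum_le_sum_of_subset_of_nonneg (fun k hk => mem_image.2 ⟨k - 1, ?_, ?_⟩)
        fun k _ _ => by positivity
      · have := hI k hk; rw [mem_range]; omega
      · have := hI k hk; omega
    refine (mul_le_mul_of_nonneg_left a2 hδ.le).trans (a1.trans (le_of_eq ?_))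
    push_cast; ring_nf
  have s1 := hsum ((2 : ℝ) ^ i / (8 * Q)) (by positivity) (by
    rw [div_le_one (by positivity)]; linarith)
  have s2 := hsum (1 / 2) (by norm_num) (by norm_num)
  have s3 : (2 * (D * δ)) ^ ((2 : ℝ) ^ i / (8 * Q)) ≤ 1 :=
    Real.rpow_le_one (by positivity) hD (by positivity)
  have s4 : (2 * (D * δ)) ^ ((2 : ℝ) ^ i / (8 * Q)) / ((2 : ℝ) ^ i / (8 * Q)) ≤ Q * (8 / 2 ^ i) := by
    refine (div_le_div_of_nonneg_right s3 (by positivity)).trans (le_of_eq ?_)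
    field_simp
  rw [← Real.sqrt_eq_rpow] at s2
  calc 30 * δ * ∑ k ∈ I, tm C Cm i m δ D ε k
      ≤ 30 * δ * ∑ k ∈ I, 2 * C ^ 4 * Cm i ^ (1 / Q) *
        (((k : ℝ) * δ) ^ ((2 : ℝ) ^ i / (8 * Q) - 1) + 18 * Q * ((k : ℝ) * δ) ^ ((1 : ℝ) / 2 - 1)) :=
        mul_le_mul_of_nonneg_left (sum_le_sum fun k hk => (h k hk).2) (by positivity)
    _ = 60 * C ^ 4 * Cm i ^ (1 / Q) * (δ * ∑ k ∈ I, ((k : ℝ) * δ) ^ ((2 : ℝ) ^ i / (8 * Q) - 1) +
        18 * Q * (δ * ∑ k ∈ I, ((k : ℝ) * δ) ^ ((1 : ℝ) / 2 - 1))) := by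
        rw [← mul_sum, sum_add_distrib, ← mul_sum]; ring
    _ ≤ 60 * C ^ 4 * Cm i ^ (1 / Q) * (Q * (8 / 2 ^ i) + 18 * Q * (√(2 * (D * δ)) / (1 / 2))) := by
        refine mul_le_mul_of_nonneg_left (add_le_add (s1.trans s4) ?_) (by positivity)
        exact mul_le_mul_of_nonneg_left s2 (by positivity)
    _ = _ := by ring

theorem sum1 {C : ℝ} (hC : 1 ≤ C) {Cm : ℕ → ℝ} {i m : ℕ} (hm : 1 ≤ m) {δ : ℝ} (hδ : 0 < δ) {D : ℕ}
    (hD0 : 0 < D * δ) (hD : D * δ ≤ 1) {ε : ℝ} (hε : 0 < ε) (hε1 : ε ≤ 1 / (100 * (m + 1)))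
    (I : Finset ℕ) (hI : ∀ k ∈ I, ¬ k < 2 * D) (hcard : #I ≤ D) :
    0 ≤ 30 * δ * ∑ k ∈ I, tm C Cm i m δ D ε k ∧ 30 * δ * ∑ k ∈ I, tm C Cm i m δ D ε k ≤
      60 * C ^ 3 * (1 / (D * δ)) ^ ε * ((D * δ) * ((1 / (D * δ) + Real.log ((12 * m : ℕ) + 1)) *
        if 1 ≤ (12 * m : ℕ) * (D * δ) ^ 4 then C * (12 * m : ℕ) / Real.log ((12 * m : ℕ) + 1)
        else C * (1 / (D * δ) + (12 * m : ℕ)))) := by
  have hL := one_le_log hm
  set Mv : ℝ := if 1 ≤ (12 * m : ℕ) * (D * δ) ^ 4 then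
    C * (12 * m : ℕ) / Real.log ((12 * m : ℕ) + 1) else C * (1 / (D * δ) + (12 * m : ℕ)) with hMv
  have hMv0 : 0 ≤ Mv := by rw [hMv]; split_ifs <;> positivity
  have h : ∀ k ∈ I, 0 ≤ tm C Cm i m δ D ε k ∧ tm C Cm i m δ D ε k ≤
      2 * C ^ 3 * (1 / (D * δ)) ^ ε * ((1 / (D * δ) + Real.log ((12 * m : ℕ) + 1)) * Mv) := by
    intro k hk
    have hpx : px δ D k = 1 / (D * δ) := if_neg (hI k hk)
    have hpt : pt δ D k = D * δ := if_neg (hI k hk)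
    have hx : 1 ≤ px δ D k := by rw [hpx, le_div_iff₀ hD0]; linarith
    have h1 := pM_rpow hC hm hx hε hε1
    have h2 := (pM_facts hC hm hx).1
    have hM : pM C (12 * m) δ D k = Mv := by unfold pM; rw [hpx, hpt]
    have hpmm : pmm Cm i (12 * m) δ D k = 1 := if_neg (hI k hk)
    unfold tm pl
    rw [hpmm]
    refine ⟨by positivity, (mul_le_mul_of_nonneg_left h1 (by positivity)).trans (le_of_eq ?_)⟩
    rw [hM, hpx]; ring
  refine ⟨mul_nonneg (by positivity) (sum_nonneg fun k hk => (h k hk).1), ?_⟩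
  have h3 := sum_le_card_nsmul I _ _ fun k hk => (h k hk).2
  rw [nsmul_eq_mul] at h3
  have h4 : (#I : ℝ) ≤ D := by exact_mod_cast hcard
  calc _ ≤ 30 * δ * (D * (2 * C ^ 3 * (1 / (D * δ)) ^ ε *
        ((1 / (D * δ) + Real.log ((12 * m : ℕ) + 1)) * Mv))) :=
        mul_le_mul_of_nonneg_left (h3.trans (mul_le_mul_of_nonneg_right h4 (by positivity)))
          (by positivity)
    _ = _ := by ring

theorem cases_I {D : ℕ} (hD : 0 < D) {j : ℕ} {I : Finset ℕ} (hI : ∀ k ∈ I, 1 ≤ k ∧ sl D k = j) :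
    (∀ k ∈ I, 1 ≤ k ∧ k < 2 * D) ∨ ((∀ k ∈ I, ¬ k < 2 * D) ∧ #I ≤ D) := by
  rcases Nat.eq_zero_or_pos j with rfl | hj
  · refine Or.inl fun k hk => ⟨(hI k hk).1, ?_⟩
    have h := (hI k hk).2
    unfold sl at h
    exact (Nat.div_lt_iff_lt_mul hD).1 (by omega)
  · have h1 : ∀ k ∈ I, k / D = j + 1 := fun k hk => by
      have h := (hI k hk).2
      unfold sl at h
      omega
    refine Or.inr ⟨fun k hk h => ?_, ?_⟩
    · have := (Nat.div_lt_iff_lt_mul hD).2 h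
      have := h1 k hk
      omega
    · refine le_trans (card_le_card (t := Ico ((j + 1) * D) ((j + 1) * D + D)) fun k hk => ?_)
        (by simp)
      have a1 := (Nat.le_div_iff_mul_le hD).1 (h1 k hk).ge
      have a2 := (Nat.div_lt_iff_lt_mul hD).1 (show k / D < j + 1 + 1 by have := h1 k hk; omega)
      rw [mem_Ico]
      exact ⟨a1, by rwa [add_mul (j + 1), one_mul] at a2⟩

theorem big {β : ℝ} {m : ℕ} (h0 : 0 ≤ β) (h1 : β ≤ m / 6) : β ^ m / m.factorial ≤ 1 / 2 ^ m := by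
  have a1 := Real.pow_div_factorial_le_exp (m : ℝ) (Nat.cast_nonneg _) m
  have a2 : Real.exp m ≤ 3 ^ m := by
    rw [← Real.exp_one_pow]
    exact pow_le_pow_left₀ (Real.exp_pos _).le Real.exp_one_lt_three.le m
  calc β ^ m / m.factorial ≤ (m / 6) ^ m / m.factorial := by gcongr
    _ = (m : ℝ) ^ m / m.factorial / 6 ^ m := by rw [div_pow]; ring
    _ ≤ 3 ^ m / 6 ^ m := by gcongr; exact a1.trans a2
    _ = 1 / 2 ^ m := by rw [← div_pow, ← one_div_pow]; norm_num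

end ParamAux

open ParamAux in
theorem param {C : ℝ} (hC : 1 ≤ C) {Cm : ℕ → ℝ} (hCm : ∀ i, 1 ≤ Cm i) :
    ∃ (n0 : ℕ) (ii : ℕ → ℕ) (C0 : ℝ), 1 ≤ n0 ∧ 1 ≤ C0 ∧
    (∀ m, 1 ≤ m → 1 ≤ ii m ∧ 2 ^ ii m ≤ 2 * (12 * m)) ∧
    ∀ (δ : ℝ) (D : ℕ), 0 < δ → D * δ = 1 / 2 ^ n0 → ∀ m : ℕ, 1 ≤ m → ∀ ε : ℝ, 0 < ε →
    ε ≤ 1 / (100 * (m + 1)) → ∀ (j : ℕ) (I : Finset ℕ), (∀ k ∈ I, 1 ≤ k ∧ sl D k = j) →
      (30 * δ * ∑ k ∈ I, C * pmm Cm (ii m) (12 * m) δ D k * pl C (12 * m) δ D k *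
        pM C (12 * m) δ D k ^ (1 + ε)) ^ m / m.factorial ≤ C0 / 2 ^ m := by
  set A : ℝ := 8640 * C ^ 4 with hA
  have hC4 : 1 ≤ C ^ 4 := one_le_pow₀ hC
  have hA1 : 1 ≤ A := by rw [hA]; linarith
  obtain ⟨i1, hi1⟩ := pow_unbounded_of_one_lt (16 * A) (one_lt_two (α := ℝ))
  obtain ⟨n1, hn1⟩ := pow_unbounded_of_one_lt ((72 * A) ^ 2) (one_lt_two (α := ℝ))
  set i0 := i1 + 1 with hi0
  set n0 := n1 + 1 with hn0
  have hi2 : 16 * A ≤ 2 ^ i0 := hi1.le.trans (pow_le_pow_right₀ one_le_two (by omega))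
  set Δ : ℝ := 1 / 2 ^ n0 with hΔ
  have hΔ0 : 0 < Δ := by positivity
  have hΔ1 : 2 * Δ ≤ (1 / (72 * A)) ^ 2 := by
    rw [hΔ, hn0, pow_succ, div_pow, one_pow, show (2 : ℝ) * (1 / (2 ^ n1 * 2)) = 1 / 2 ^ n1 by
      field_simp]
    exact one_div_le_one_div_of_le (by positivity) hn1.le
  have hA2 : 1 / (72 * A) ≤ 1 := by rw [div_le_one (by positivity)]; linarith
  have hΔ2 : 2 * Δ ≤ 1 / (72 * A) := hΔ1.trans (by
    rw [sq]; exact mul_le_of_le_one_left (by positivity) hA2)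
  have hΔ3 : 2 * Δ ≤ 1 := hΔ2.trans hA2
  have hΔ4 : √(2 * Δ) ≤ 1 / (72 * A) := Real.sqrt_le_iff.2 ⟨by positivity, hΔ1⟩
  obtain ⟨m1, hm1⟩ : ∃ m1 : ℕ, ∀ m ≥ m1, (2 : ℝ) ^ i0 ≤ m ∧ Cm i0 ≤ m ∧ Real.exp (2 * A) ≤ m ∧
      1 / Δ ^ 4 ≤ m ∧ n0 ≤ m := by
    have h := fun a : ℝ => (tendsto_natCast_atTop_atTop (R := ℝ)).eventually_ge_atTop a
    exact Filter.eventually_atTop.1 ((h _).and ((h _).and ((h _).and ((h _).and
      (Filter.eventually_ge_atTop n0)))))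
  let Bf : ℕ → ℝ := fun m => 60 * C ^ 4 * Cm 1 * (12 * m : ℕ) * (8 / 2 ^ 1 + 36) +
    60 * C ^ 4 * (1 / Δ) * (1 / Δ + (12 * m : ℕ)) ^ 2
  have hC1 := hCm 1
  have hBf : ∀ m, 0 ≤ Bf m := fun m => by positivity
  have hC0 : 0 ≤ ∑ m ∈ range m1, (2 * Bf m) ^ m :=
    sum_nonneg fun m _ => pow_nonneg (by linarith [hBf m]) _
  have hii : ∀ m, 1 ≤ m → 1 ≤ (if m1 ≤ m then i0 else 1) ∧
      2 ^ (if m1 ≤ m then i0 else 1) ≤ 2 * (12 * m) := by
    intro m hm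
    split_ifs with h
    · have : 2 ^ i0 ≤ m := by exact_mod_cast (hm1 m h).1
      omega
    · omega
  refine ⟨n0, fun m => if m1 ≤ m then i0 else 1, 1 + ∑ m ∈ range m1, (2 * Bf m) ^ m, by omega,
    by linarith, hii, ?_⟩
  intro δ D hδ hD m hm ε hε hε1 j I hI
  have hD0 : 0 < D := by
    rcases Nat.eq_zero_or_pos D with rfl | h
    · simp only [Nat.cast_zero, zero_mul] at hD; linarith
    · exact h
  have hm' : (1 : ℝ) ≤ m := by exact_mod_cast hm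
  have hε2 : ε * (100 * (m + 1)) ≤ 1 := (le_div_iff₀ (by positivity)).1 hε1
  have hL := one_le_log hm
  have hQ' : ((12 * m : ℕ) : ℝ) = 12 * m := by push_cast; ring
  change (30 * δ * ∑ k ∈ I, tm C Cm (if m1 ≤ m then i0 else 1) m δ D ε k) ^ m / _ ≤ _
  obtain ⟨hi3, hi4⟩ := hii m hm
  by_cases hmm : m1 ≤ m
  · rw [if_pos hmm] at hi3 hi4 ⊢
    obtain ⟨-, b2, b3, b4, b5⟩ := hm1 m hmm
    suffices h : 0 ≤ 30 * δ * ∑ k ∈ I, tm C Cm i0 m δ D ε k ∧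
        30 * δ * ∑ k ∈ I, tm C Cm i0 m δ D ε k ≤ m / 6 by
      refine (big h.1 h.2).trans ?_
      gcongr
      linarith
    rcases cases_I hD0 hI with h | ⟨h, hcard⟩
    · obtain ⟨a1, a2⟩ := sum0 hC hCm hi3 hm hi4 hδ (hD ▸ hΔ3) hε hε1 I h
      refine ⟨a1, a2.trans ?_⟩
      rw [hD]
      have hCi := hCm i0
      have c1 : Cm i0 ^ (1 / ((12 * m : ℕ) : ℝ)) ≤ 2 := by
        rw [one_div]
        refine (Real.rpow_inv_le_iff_of_pos (by linarith) zero_le_two (by positivity)).2 ?_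
        rw [Real.rpow_natCast]
        have : m ≤ 2 ^ (12 * m) := le_trans (by omega) Nat.lt_two_pow_self.le
        exact b2.trans (by exact_mod_cast this)
      have c2 : (8 : ℝ) / 2 ^ i0 ≤ 8 / (16 * A) := by gcongr
      calc _ ≤ 60 * C ^ 4 * 2 * (12 * m : ℕ) * (8 / (16 * A) + 36 * (1 / (72 * A))) := by gcongr
        _ = m / 6 := by rw [hQ', hA]; field_simp; norm_num
    · obtain ⟨a1, a2⟩ := sum1 (Cm := Cm) (i := i0) hC hm hδ (hD ▸ hΔ0) (by rw [hD]; linarith) hε hε1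
        I h hcard
      refine ⟨a1, a2.trans ?_⟩
      rw [hD]
      have c1 : 1 ≤ ((12 * m : ℕ) : ℝ) * Δ ^ 4 := by
        have := (div_le_iff₀ (by positivity)).1 b4
        rw [hQ']
        nlinarith [pow_pos hΔ0 4]
      rw [if_pos c1]
      have c2 : (1 / Δ) ^ ε ≤ 2 := by
        rw [hΔ, one_div_one_div, ← Real.rpow_natCast, ← Real.rpow_mul zero_le_two]
        conv_rhs => rw [← Real.rpow_one 2]
        refine Real.rpow_le_rpow_of_exponent_le one_le_two ?_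
        have : (n0 : ℝ) ≤ m := by exact_mod_cast b5
        nlinarith
      have c3 : 2 * A ≤ Real.log (((12 * m : ℕ) : ℝ) + 1) := by
        rw [Real.le_log_iff_exp_le (by positivity), hQ']
        linarith
      have c4 : Δ * ((1 / Δ + Real.log (((12 * m : ℕ) : ℝ) + 1)) *
          (C * (12 * m : ℕ) / Real.log (((12 * m : ℕ) : ℝ) + 1))) =
          C * (12 * m : ℕ) * (1 / Real.log (((12 * m : ℕ) : ℝ) + 1) + Δ) := by
        field_simp
      have c5 : Δ ≤ 1 / (2 * A) := by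
        have : 1 / (72 * A) ≤ 1 / (2 * A) := by gcongr; norm_num
        linarith
      rw [c4]
      calc _ ≤ 60 * C ^ 3 * 2 * (C * (12 * m : ℕ) * (1 / (2 * A) + 1 / (2 * A))) := by gcongr
        _ = m / 6 := by rw [hQ', hA]; field_simp; norm_num
  · rw [if_neg hmm] at hi3 hi4 ⊢
    suffices h : 0 ≤ 30 * δ * ∑ k ∈ I, tm C Cm 1 m δ D ε k ∧
        30 * δ * ∑ k ∈ I, tm C Cm 1 m δ D ε k ≤ Bf m by
      have f1 : (1 : ℝ) ≤ m.factorial := by exact_mod_cast m.factorial_pos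
      have f2 : (2 * Bf m) ^ m ≤ ∑ m ∈ range m1, (2 * Bf m) ^ m :=
        single_le_sum (f := fun m => (2 * Bf m) ^ m)
          (fun m _ => pow_nonneg (by linarith [hBf m]) _) (mem_range.2 (not_le.1 hmm))
      refine (div_le_self (pow_nonneg h.1 _) f1).trans ((pow_le_pow_left₀ h.1 h.2 m).trans ?_)
      rw [le_div_iff₀ (by positivity), mul_comm, ← mul_pow]
      linarith
    rcases cases_I hD0 hI with h | ⟨h, hcard⟩
    · obtain ⟨a1, a2⟩ := sum0 hC hCm hi3 hm hi4 hδ (hD ▸ hΔ3) hε hε1 I h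
      refine ⟨a1, a2.trans (le_trans ?_ (le_add_of_nonneg_right (by positivity)))⟩
      rw [hD]
      have c1 : Cm 1 ^ (1 / ((12 * m : ℕ) : ℝ)) ≤ Cm 1 := by
        conv_rhs => rw [← Real.rpow_one (Cm 1)]
        refine Real.rpow_le_rpow_of_exponent_le hC1 ?_
        rw [div_le_one (by positivity), hQ']; linarith
      have c2 : 36 * √(2 * Δ) ≤ 36 := by linarith
      gcongr
    · obtain ⟨a1, a2⟩ := sum1 (Cm := Cm) (i := 1) hC hm hδ (hD ▸ hΔ0) (by rw [hD]; linarith) hε hε1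
        I h hcard
      refine ⟨a1, a2.trans (le_trans ?_ (le_add_of_nonneg_left (by positivity)))⟩
      rw [hD]
      have c0 : 1 ≤ 1 / Δ := by rw [le_div_iff₀ hΔ0]; linarith
      have c1 : (1 / Δ) ^ ε ≤ 1 / Δ := by
        conv_rhs => rw [← Real.rpow_one (1 / Δ)]
        exact Real.rpow_le_rpow_of_exponent_le c0 (by nlinarith)
      have c2 : (if 1 ≤ ((12 * m : ℕ) : ℝ) * Δ ^ 4 then
          C * (12 * m : ℕ) / Real.log (((12 * m : ℕ) : ℝ) + 1) else C * (1 / Δ + (12 * m : ℕ))) ≤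
          C * (1 / Δ + (12 * m : ℕ)) := by
        split_ifs
        · refine (div_le_self (by positivity) hL).trans ?_
          exact mul_le_mul_of_nonneg_left (by linarith) (by linarith)
        · exact le_rfl
      have c3 : 0 ≤ (if 1 ≤ ((12 * m : ℕ) : ℝ) * Δ ^ 4 then
          C * (12 * m : ℕ) / Real.log (((12 * m : ℕ) : ℝ) + 1) else C * (1 / Δ + (12 * m : ℕ))) := by
        split_ifs <;> positivity
      have c4 := log_le (12 * m)
      have c5 : Δ ≤ 1 := by linarith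
      calc _ ≤ 60 * C ^ 3 * (1 / Δ) * (1 * ((1 / Δ + (12 * m : ℕ)) *
            (C * (1 / Δ + (12 * m : ℕ))))) := by gcongr
        _ = _ := by ring

end Crest.Agent.R160
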