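import Crest.Agent.R160.Bayes

/-! Row 160, sub-task D: Hoelder over time slices and the bound on the path sum. -/

set_option autoImplicit false
set_option linter.unusedSectionVars false

namespace Crest.Agent.R160

open MeasureTheory ProbabilityTheory Finset

variable {V : Type*} [DecidableEq V]

namespace PathAux

theorem amgm {ι : Type*} (s : Finset ι) (z : ι → ℝ) (hz : ∀ i, 0 ≤ z i) (hs : s.Nonempty) :
    (∏ i ∈ s, z i) ^ 4 ≤ ∑ i ∈ s, (1 / (#s : ℝ)) * z i ^ (4 * #s) := by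
  have hm : 0 < #s := hs.card_pos
  have hm' : (0 : ℝ) < #s := by exact_mod_cast hm
  have := Real.geom_mean_le_arith_mean_weighted s (fun _ => 1 / (#s : ℝ))
    (fun i => z i ^ (4 * #s)) (fun _ _ => by positivity)
    (by rw [sum_const, nsmul_eq_mul]; field_simp) (fun i _ => pow_nonneg (hz i) _)
  refine le_trans (le_of_eq ?_) this
  rw [← prod_pow]
  refine prod_congr rfl fun i _ => ?_
  rw [pow_mul, one_div, Real.pow_rpow_inv_natCast (pow_nonneg (hz i) _) hm.ne']

theorem prod_range_two (f : ℕ → ℝ) (n : ℕ) :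
    ∏ j ∈ range (2 * n), f j = (∏ i ∈ range n, f (2 * i + 0)) * ∏ i ∈ range n, f (2 * i + 1) := by
  induction n with
  | zero => simp
  | succ n ih =>
    rw [show 2 * (n + 1) = 2 * n + 1 + 1 by ring, prod_range_succ, prod_range_succ, ih,
      prod_range_succ, prod_range_succ]
    simp only [add_zero]
    ring

theorem sl_lt {D t j : ℕ} (hD : 1 ≤ D) (h : sl D t = j) : t < (j + 2) * D := by
  unfold sl at h
  have h1 : t / D < j + 2 := by omega
  exact (Nat.div_lt_iff_lt_mul hD).1 h1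

theorem sl_ge {D t j : ℕ} (hD : 1 ≤ D) (hj : 1 ≤ j) (h : sl D t = j) : (j + 1) * D ≤ t := by
  unfold sl at h
  have h1 : j + 1 ≤ t / D := by omega
  exact (Nat.le_div_iff_mul_le hD).1 h1

theorem holder {Λ : Finset V} {μ : Finset V → ℝ} (h : Prior Λ μ) {δ : ℝ} (hδ : 0 ≤ δ) {D : ℕ}
    (hD : 1 ≤ D) {ι : Type*} (s : Finset ι) (tm : ι → ℕ) (Z : ι → (V → ℝ) → ℝ)
    (hZ : ∀ i, BM (Z i)) (hZ0 : ∀ i y, 0 ≤ Z i y)
    (h1 : ∀ i ∈ s, tm i < 2 * D →
      Sharp Λ μ (tm i * δ) (fun y => Z i y ^ (4 * #{i' ∈ s | sl D (tm i') = sl D (tm i)})) ≤ 1)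
    (h2 : ∀ i ∈ s, 2 * D ≤ tm i → ∀ (a : V → ℝ) (τ : ℝ), D * δ ≤ τ → τ ≤ 2 * D * δ →
      ∫ g, Z i (fun v => a v + √τ * g v) ^ (4 * #{i' ∈ s | sl D (tm i') = sl D (tm i)}) ∂gam V
        ≤ 1) :
    EE Λ μ δ (fun _ p => ∏ i ∈ s, Z i (Yp δ p (tm i)) ^ 2) ≤ 1 := by
  let F : ℕ → Finset ι := fun j => {i ∈ s | sl D (tm i) = j}
  let R : ℕ → (V × ℕ → ℝ) → ℝ := fun j p => if (F j).Nonempty then
    ∑ i ∈ F j, (1 / (#(F j) : ℝ)) * Z i (Yp δ p (tm i)) ^ (4 * #(F j)) else 1
  have bZ : ∀ i (n : ℕ), BM fun p : V × ℕ → ℝ => Z i (Yp δ p (tm i)) ^ n := fun i n =>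
    ((hZ i).comp (measurable_Yp δ _)).pow n
  have bR : ∀ j, BM (R j) := fun j => by
    simp only [R]
    split_ifs
    · exact BM.sum _ fun i _ => (BM.const _).mul (bZ i _)
    · exact BM.const 1
  have R0 : ∀ j p, 0 ≤ R j p := fun j p => by
    simp only [R]
    split_ifs
    · exact sum_nonneg fun i _ => mul_nonneg (by positivity) (pow_nonneg (hZ0 _ _) _)
    · exact zero_le_one
  have dR : ∀ j b, (j + 2) * D ≤ b → DependsOn (R j) {i | i.2 < b} := by
    intro j b hb p p' hp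
    simp only [R]
    split_ifs
    · refine sum_congr rfl fun i hi => ?_
      have h3 := sl_lt hD (mem_filter.1 hi).2
      have : Yp δ p (tm i) = Yp δ p' (tm i) := by
        funext v
        unfold Yp
        congr 1
        exact sum_congr rfl fun k hk => hp (v, k) (by
          have := mem_range.1 hk
          change k < b
          omega)
      rw [this]
    · rfl
  have PR : ∀ j p, (∏ i ∈ F j, Z i (Yp δ p (tm i))) ^ 4 ≤ R j p := fun j p => by
    simp only [R]
    split_ifs with hF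
    · exact amgm _ _ (fun i => hZ0 _ _) hF
    · rw [not_nonempty_iff_eq_empty.1 hF]; simp
  have peel : ∀ j (f : (V × ℕ → ℝ) → ℝ), BM f →
      (∀ i ∈ F j, EE Λ μ δ (fun _ p => f p * Z i (Yp δ p (tm i)) ^ (4 * #(F j))) ≤
        EE Λ μ δ (fun _ p => f p)) →
      EE Λ μ δ (fun _ p => f p * R j p) ≤ EE Λ μ δ (fun _ p => f p) := by
    intro j f hf hi
    simp only [R]
    split_ifs with hF
    · have hm : (0 : ℝ) < #(F j) := by exact_mod_cast hF.card_pos
      simp only [mul_sum, mul_left_comm (f _)]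
      rw [EE_sum _ δ fun i _ _ => (BM.const _).mul (hf.mul (bZ i _))]
      simp only [EE_mul]
      refine (sum_le_sum fun i hi' => mul_le_mul_of_nonneg_left (hi i hi') (by positivity)).trans
        (le_of_eq ?_)
      rw [sum_const, nsmul_eq_mul]
      field_simp
    · simp only [mul_one, le_refl]
  have key : ∀ e, e ≤ 1 → ∀ n, EE Λ μ δ (fun _ p => ∏ i ∈ range n, R (2 * i + e) p) ≤ 1 := by
    intro e he n
    induction n with
    | zero => simp [h.EE_const]
    | succ n ih =>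
      simp only [prod_range_succ]
      have bf : BM fun p => ∏ i ∈ range n, R (2 * i + e) p := BM.prod _ fun i _ => bR _
      refine (peel _ _ bf fun i hi => ?_).trans ih
      obtain ⟨his, hij⟩ := mem_filter.1 hi
      have hF : F (2 * n + e) = {i' ∈ s | sl D (tm i') = sl D (tm i)} := by rw [hij]
      rcases Nat.eq_zero_or_pos (2 * n + e) with h0 | h0
      · have hn : n = 0 := by omega
        have h3 := sl_lt hD hij
        rw [h0, zero_add] at h3
        have h4 := h1 i his h3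
        rw [← hF] at h4
        subst hn
        simp only [range_zero, prod_empty, one_mul, h.EE_const]
        rw [EE_law hδ (tm i) (f := fun _ y => Z i y ^ (4 * #(F (2 * 0 + e))))
          fun _ => ((hZ i).pow _).1]
        exact h4
      · have h3 := sl_lt hD hij
        have h4 := sl_ge hD h0 hij
        have h5 : ((2 * n + e + 1 : ℕ) : ℝ) * D ≤ tm i := by exact_mod_cast h4
        have h6 : (tm i : ℝ) ≤ ((2 * n + e + 2 : ℕ) : ℝ) * D := by exact_mod_cast h3.le
        push_cast at h5 h6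
        refine sum_le_sum fun A _ => mul_le_mul_of_nonneg_left ?_ (h.pos A).le
        have h7 := cond_law hδ A (b := (2 * n + e) * D) (k := tm i) (by nlinarith) bf
          (fun p => prod_nonneg fun i _ => R0 _ p) (fun p p' hp => prod_congr rfl fun k hk =>
            dR _ _ (Nat.mul_le_mul_right D (by have := mem_range.1 hk; omega)) hp)
          ((hZ i).pow (4 * #(F (2 * n + e)))) (x := 1) fun a => by
            rw [hF]
            refine h2 i his (by nlinarith) a _ (mul_le_mul_of_nonneg_right ?_ hδ)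
              (mul_le_mul_of_nonneg_right ?_ hδ) <;> push_cast <;> linarith
        rwa [one_mul] at h7
  obtain ⟨n, hn⟩ : ∃ n, ∀ i ∈ s, sl D (tm i) ∈ range (2 * n) :=
    ⟨s.sup (fun i => sl D (tm i)) + 1, fun i hi => mem_range.2 (by
      have := le_sup (f := fun i => sl D (tm i)) hi
      omega)⟩
  have b0 : BM fun p => ∏ i ∈ range n, R (2 * i + 0) p := BM.prod _ fun i _ => bR _
  have b1 : BM fun p => ∏ i ∈ range n, R (2 * i + 1) p := BM.prod _ fun i _ => bR _
  have h3 := h.EE_mono δ (Φ := fun _ p => ∏ i ∈ s, Z i (Yp δ p (tm i)) ^ 2)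
    (Ψ := fun _ p => 1 / 2 * ∏ i ∈ range n, R (2 * i + 0) p +
      1 / 2 * ∏ i ∈ range n, R (2 * i + 1) p) (fun _ => BM.prod _ fun i _ => bZ i 2)
    (fun _ => ((BM.const _).mul b0).add ((BM.const _).mul b1)) fun _ p => by
      rw [prod_pow, ← prod_fiberwise_of_maps_to hn, prod_range_two]
      have e : ∀ e, (∏ i ∈ range n, ∏ i ∈ F (2 * i + e), Z i (Yp δ p (tm i))) ^ 4 ≤
          ∏ i ∈ range n, R (2 * i + e) p := fun e => by
        rw [← prod_pow]
        exact prod_le_prod (fun i _ => pow_nonneg (prod_nonneg fun i _ => hZ0 _ _) _)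
          fun i _ => PR _ p
      have e0 := e 0
      have e1 := e 1
      simp only [F] at e0 e1
      have e2 : ∀ x y : ℝ, (x * y) ^ 2 ≤ 1 / 2 * x ^ 4 + 1 / 2 * y ^ 4 := fun x y => by
        nlinarith [sq_nonneg (x ^ 2 - y ^ 2)]
      exact (e2 _ _).trans (by linarith)
  rw [EE_add δ (fun _ => (BM.const _).mul b0) (fun _ => (BM.const _).mul b1), EE_mul, EE_mul] at h3
  linarith [key 0 zero_le_one n, key 1 le_rfl n]

theorem cnt_eq (D : ℕ) (l : List (ℕ × V × V)) (j : ℕ) :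
    cnt D l j = #{i : Fin l.length | sl D (l[i.1]).1 = j} := by
  rw [card_filter, Fin.sum_univ_fun_getElem l (fun x => if sl D x.1 = j then 1 else 0)]
  unfold cnt
  induction l with
  | nil => rfl
  | cons x l ih =>
    rw [List.countP_cons, ih, List.map_cons, List.sum_cons, add_comm]
    simp

/-- truncated exponential term -/
noncomputable def Et (b : ℝ) (J n : ℕ) : ℝ := if n ≤ J then b ^ (J - n) / (J - n).factorial else 0

theorem Et_nonneg {b : ℝ} (hb : 0 ≤ b) (J n : ℕ) : 0 ≤ Et b J n := by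
  unfold Et; split_ifs <;> positivity

theorem Et_step {b x : ℝ} (hb : 0 ≤ b) (hx : 0 ≤ x) (J n : ℕ) :
    Et b J n + x * Et b J (n + 1) ≤ Et (b + x) J n := by
  unfold Et
  by_cases h1 : n + 1 ≤ J
  · obtain ⟨m, rfl⟩ : ∃ m, J = n + 1 + m := Nat.exists_eq_add_of_le h1
    rw [if_pos (by omega), if_pos h1, if_pos (by omega), show n + 1 + m - n = m + 1 by omega,
      show n + 1 + m - (n + 1) = m by omega, Nat.factorial_succ]
    have := pow_add_mul_le_add_pow hb (b := x) (by positivity) (m + 1)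
    rw [Nat.add_sub_cancel] at this
    have hf : (0 : ℝ) < m.factorial := by exact_mod_cast m.factorial_pos
    push_cast at this ⊢
    rw [le_div_iff₀ (by positivity)]
    refine le_trans (le_of_eq ?_) this
    field_simp
  · rw [if_neg h1, mul_zero, add_zero]
    split_ifs with h2
    · rw [show J - n = 0 by omega]; simp
    · exact le_rfl

end PathAux

theorem nrm_le {Λ : Finset V} {μ : Finset V → ℝ} (h : Prior Λ μ) {δ : ℝ} (hδ : 0 ≤ δ) {D : ℕ}
    (hD : 1 ≤ D) (X : ℕ × V × V → (V → ℝ) → ℝ) (hX : ∀ x, BM (X x)) (hX0 : ∀ x y, 0 ≤ X x y)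
    (Kb : ℕ → ℕ × V × V → ℝ) (hK : ∀ m x, 0 < Kb m x) (l : List (ℕ × V × V))
    (h1 : ∀ x ∈ l, x.1 < 2 * D → ∀ m, 1 ≤ m →
      Sharp Λ μ (x.1 * δ) (fun y => X x y ^ (4 * m)) ≤ Kb m x ^ (4 * m))
    (h2 : ∀ x ∈ l, 2 * D ≤ x.1 → ∀ m, 1 ≤ m → ∀ (a : V → ℝ) (τ : ℝ), D * δ ≤ τ → τ ≤ 2 * D * δ →
      ∫ g, X x (fun v => a v + √τ * g v) ^ (4 * m) ∂gam V ≤ Kb m x ^ (4 * m)) :
    √(EE Λ μ δ (fun _ p => (l.map fun x => X x (Yp δ p x.1) ^ 2).prod)) ≤
      (l.map fun x => Kb (cnt D l (sl D x.1)) x).prod := by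
  have hc : ∀ i : Fin l.length, 1 ≤ cnt D l (sl D (l[i.1]).1) := fun i => by
    rw [PathAux.cnt_eq]
    exact card_pos.2 ⟨i, by simp⟩
  have key := PathAux.holder h hδ hD (univ : Finset (Fin l.length)) (fun i => (l[i.1]).1)
    (fun i y => (Kb (cnt D l (sl D (l[i.1]).1)) l[i.1])⁻¹ * X l[i.1] y)
    (fun i => (BM.const _).mul (hX _))
    (fun i y => mul_nonneg (inv_nonneg.2 (hK _ _).le) (hX0 _ _)) (by
      intro i _ hi
      have h3 := h1 _ (List.getElem_mem i.2) hi _ (hc i)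
      rw [← PathAux.cnt_eq]
      simp only [Sharp, mul_pow, integral_const_mul, mul_left_comm (μ _), ← mul_sum] at h3 ⊢
      rw [inv_pow]
      exact (inv_mul_le_one₀ (pow_pos (hK _ _) _)).2 h3) (by
      intro i _ hi a τ hτ1 hτ2
      have h3 := h2 _ (List.getElem_mem i.2) hi _ (hc i) a τ hτ1 hτ2
      rw [← PathAux.cnt_eq]
      simp only [mul_pow, integral_const_mul]
      rw [inv_pow]
      exact (inv_mul_le_one₀ (pow_pos (hK _ _) _)).2 h3)
  simp only [mul_pow, prod_mul_distrib, EE_mul, inv_pow, prod_inv_distrib, prod_pow] at key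
  simp only [← prod_pow] at key
  rw [prod_pow, Fin.prod_univ_fun_getElem l (fun x => Kb (cnt D l (sl D x.1)) x)] at key
  simp only [fun p => Fin.prod_univ_fun_getElem l (fun x => X x (Yp δ p x.1) ^ 2)] at key
  have hP : 0 < (l.map fun x => Kb (cnt D l (sl D x.1)) x).prod :=
    List.prod_pos fun y hy => by
      obtain ⟨x, _, rfl⟩ := List.mem_map.1 hy
      exact hK _ _
  rw [Real.sqrt_le_left hP.le]
  exact (inv_mul_le_one₀ (pow_pos hP 2)).1 key

theorem psb (Λ U : Finset V) {c : ℝ} (hc : 0 ≤ c) (s t D S : ℕ)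
    (nrm : V → List (ℕ × V × V) → ℝ) (a ω : V → V → ℝ) (Kb : ℕ → ℕ × V × V → ℝ)
    (Ψ : ℝ → V → ℝ) (al : ℝ → ℕ → ℕ → ℝ) {A ρ C0 : ℝ} (hA : 0 ≤ A) (hρ0 : 0 < ρ) (hρ1 : ρ ≤ 1)
    (hC0 : 1 ≤ C0) (ha0 : ∀ u v, 0 ≤ a u v) (hω : ∀ u v, 0 < ω u v) (hK0 : ∀ m x, 0 ≤ Kb m x)
    (hΨ : ∀ ε v, 0 ≤ Ψ ε v) (hal : ∀ ε m k, 0 ≤ al ε m k)
    (hn : ∀ u ∈ U, ∀ l : List (ℕ × V × V),
      (∀ x ∈ l, s < x.1 ∧ x.1 ≤ s + t ∧ x.2.1 ∈ Λ ∧ x.2.2 ∈ Λ) →
      nrm u l * (l.map fun x => ω u x.2.2 / ω u x.2.1).prod ≤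
        (l.map fun x => Kb (cnt D l (sl D x.1)) x).prod)
    (hK : ∀ ε : ℝ, 0 < ε → ε ≤ 1 / 100 → ∀ m, 1 ≤ m → ∀ k, s < k → k ≤ s + t → ∀ v ∈ Λ,
      ∑ w ∈ Λ, Kb m (k, w, v) * Ψ ε w ≤ al ε m k * Ψ ε v)
    (ha : ∀ ε : ℝ, 0 < ε → ε ≤ 1 / 100 → ∀ v ∈ Λ, ∑ u ∈ U, ω u v * a u v ≤ A * ρ ^ ε * Ψ ε v)
    (hβ : ∀ m : ℕ, 1 ≤ m → ∀ ε : ℝ, 0 < ε → ε ≤ 1 / (100 * (m + 1)) → ∀ j,
      (c * ∑ k ∈ (Ioc s (s + t)).filter (fun k => sl D k = j), al ε m k) ^ m / m.factorial ≤
        C0 / 2 ^ m)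
    (hS : ∀ k, k ≤ s + t → sl D k < S) {o : V} (ho : o ∈ Λ) (hωo : ∀ u, ω u o = 1)
    (hΨo : ∀ ε, Ψ ε o = 1) (M : ℕ) :
    ∑ u ∈ U, PSL Λ c s (nrm u) (a u) t o [] ≤
      A * ((2 * C0) ^ S * ρ ^ (1 / (100 * ((M : ℝ) + 1))) + (4 * C0) ^ S * (2 / 3) ^ M) := by
  classical
  let ext : (Fin S → ℕ) → ℕ → ℕ := fun J j => if h : j < S then J ⟨j, h⟩ else 0
  let ep : (Fin S → ℕ) → ℝ := fun J => 1 / (100 * ((∑ j, J j : ℕ) + 1))
  have ep0 : ∀ J, 0 < ep J := fun J => by simp only [ep]; positivity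
  have ep1 : ∀ J, ep J ≤ 1 / 100 := fun J => by
    refine one_div_le_one_div_of_le (by norm_num) ?_
    have : (0 : ℝ) ≤ (∑ j, J j : ℕ) := Nat.cast_nonneg _
    linarith
  let be : ℝ → ℕ → ℕ → ℕ → ℝ := fun ε m j t' =>
    c * ∑ k ∈ (Ioc s (s + t')).filter (fun k => sl D k = j), al ε m k
  have be0 : ∀ ε m j t', 0 ≤ be ε m j t' := fun ε m j t' =>
    mul_nonneg hc (sum_nonneg fun k _ => hal _ _ _)
  have beS : ∀ ε m j t', be ε m j (t' + 1) = be ε m j t' +
      if sl D (s + 1 + t') = j then c * al ε m (s + 1 + t') else 0 := by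
    intro ε m j t'
    simp only [be, sum_filter]
    rw [← add_assoc, sum_Ioc_succ_top (Nat.le_add_right _ _), mul_add,
      show s + t' + 1 = s + 1 + t' by ring]
    split_ifs <;> simp
  let KJ : (Fin S → ℕ) → List (ℕ × V × V) → ℝ := fun J l =>
    (l.map fun x => Kb (ext J (sl D x.1)) x).prod
  have KJ0 : ∀ J l, 0 ≤ KJ J l := fun J l => List.prod_nonneg fun y hy => by
    obtain ⟨x, _, rfl⟩ := List.mem_map.1 hy
    exact hK0 _ _
  let PP : (Fin S → ℕ) → ℕ → List (ℕ × V × V) → ℝ := fun J t' l =>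
    ∏ j : Fin S, PathAux.Et (be (ep J) (J j) j t') (J j) (cnt D l j)
  have PP0 : ∀ J t' l, 0 ≤ PP J t' l := fun J t' l =>
    prod_nonneg fun j _ => PathAux.Et_nonneg (be0 _ _ _ _) _ _
  let 𝒥 := Fintype.piFinset fun _ : Fin S => range (t + 1)
  have main : ∀ t', t' ≤ t → ∀ v ∈ Λ, ∀ l : List (ℕ × V × V),
      (∀ x ∈ l, s < x.1 ∧ x.1 ≤ s + t ∧ x.2.1 ∈ Λ ∧ x.2.2 ∈ Λ) → l.length + t' ≤ t →
      (∀ u, (l.map fun x => ω u x.2.2 / ω u x.2.1).prod = 1 / ω u v) →
      ∑ u ∈ U, PSL Λ c s (nrm u) (a u) t' v l ≤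
        ∑ J ∈ 𝒥, A * ρ ^ ep J * (Ψ (ep J) v * KJ J l * PP J t' l) := by
    intro t'
    induction t' with
    | zero =>
      intro _ v hv l hl hlen hg
      let J0 : Fin S → ℕ := fun j => cnt D l j
      have hJ0 : J0 ∈ 𝒥 := Fintype.mem_piFinset.2 fun j => mem_range.2 (by
        have : cnt D l j ≤ l.length := List.countP_le_length
        simp only [J0]
        omega)
      have hKJ : KJ J0 l = (l.map fun x => Kb (cnt D l (sl D x.1)) x).prod := by
        simp only [KJ]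
        congr 1
        exact List.map_congr_left fun x hx => by
          simp only [ext, dif_pos (hS _ (hl x hx).2.1), J0]
      have hPP : PP J0 0 l = 1 := prod_eq_one fun j _ => by simp [PathAux.Et, J0]
      refine le_trans ?_ (single_le_sum (f := fun J => A * ρ ^ ep J *
        (Ψ (ep J) v * KJ J l * PP J 0 l)) (fun J _ => mul_nonneg (by positivity)
        (mul_nonneg (mul_nonneg (hΨ _ _) (KJ0 _ _)) (PP0 _ _ _))) hJ0)
      rw [hPP, mul_one, ← mul_assoc]
      refine le_trans ?_ (mul_le_mul_of_nonneg_right (ha _ (ep0 J0) (ep1 J0) v hv) (KJ0 _ _))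
      rw [sum_mul]
      refine sum_le_sum fun u hu => ?_
      have h1 := hn u hu l hl
      rw [hg, ← hKJ, mul_one_div, div_le_iff₀ (hω u v)] at h1
      simp only [PSL]
      have := mul_le_mul_of_nonneg_left h1 (ha0 u v)
      linarith
    | succ t' ih =>
      intro ht v hv l hl hlen hg
      simp only [PSL]
      rw [sum_add_distrib, ← mul_sum, sum_comm]
      have h1 := ih (by omega) v hv l hl (by omega) hg
      have h2 : ∀ w ∈ Λ, ∑ u ∈ U, PSL Λ c s (nrm u) (a u) t' w ((s + 1 + t', w, v) :: l) ≤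
          ∑ J ∈ 𝒥, A * ρ ^ ep J * (Ψ (ep J) w * KJ J ((s + 1 + t', w, v) :: l) *
            PP J t' ((s + 1 + t', w, v) :: l)) := fun w hw => by
        refine ih (by omega) w hw _ ?_ (by rw [List.length_cons]; omega) fun u => ?_
        · intro x hx
          rcases List.mem_cons.1 hx with rfl | hx
          · exact ⟨by simp only; omega, by simp only; omega, hw, hv⟩
          · exact hl x hx
        · rw [List.map_cons, List.prod_cons, hg]
          have := (hω u v).ne'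
          have := (hω u w).ne'
          simp only
          field_simp
      refine (add_le_add h1 (mul_le_mul_of_nonneg_left (sum_le_sum h2) hc)).trans ?_
      rw [sum_comm, mul_sum, ← sum_add_distrib]
      refine sum_le_sum fun J _ => ?_
      rw [← mul_sum, mul_left_comm c, ← mul_add]
      refine mul_le_mul_of_nonneg_left ?_ (by positivity)
      have hk : sl D (s + 1 + t') < S := hS _ (by omega)
      let j0 : Fin S := ⟨sl D (s + 1 + t'), hk⟩
      let Q : ℝ := ∏ j ∈ univ.erase j0, PathAux.Et (be (ep J) (J j) j t') (J j) (cnt D l j)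
      have Q0 : 0 ≤ Q := prod_nonneg fun j _ => PathAux.Et_nonneg (be0 _ _ _ _) _ _
      have hne : ∀ j ∈ univ.erase j0, ¬ sl D (s + 1 + t') = (j : ℕ) := fun j hj h =>
        (ne_of_mem_erase hj) (Fin.ext h.symm)
      have e1 : PP J t' l = PathAux.Et (be (ep J) (J j0) j0 t') (J j0) (cnt D l j0) * Q :=
        (mul_prod_erase univ _ (mem_univ j0)).symm
      have e2 : PP J (t' + 1) l = PathAux.Et (be (ep J) (J j0) j0 t' +
          c * al (ep J) (J j0) (s + 1 + t')) (J j0) (cnt D l j0) * Q := by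
        simp only [PP]
        rw [← mul_prod_erase univ _ (mem_univ j0), beS, if_pos rfl]
        congr 1
        exact prod_congr rfl fun j hj => by rw [beS, if_neg (hne j hj), add_zero]
      have e3 : ∀ w, PP J t' ((s + 1 + t', w, v) :: l) =
          PathAux.Et (be (ep J) (J j0) j0 t') (J j0) (cnt D l j0 + 1) * Q := by
        intro w
        simp only [PP]
        rw [← mul_prod_erase univ _ (mem_univ j0)]
        congr 1
        · congr 1
          simp [cnt, j0]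
        · refine prod_congr rfl fun j hj => ?_
          congr 1
          simp [cnt, hne j hj]
      have e4 : ∀ w, KJ J ((s + 1 + t', w, v) :: l) = Kb (J j0) (s + 1 + t', w, v) * KJ J l := by
        intro w
        simp only [KJ, List.map_cons, List.prod_cons, ext, dif_pos hk, j0]
      simp only [e1, e2, e3, e4]
      have e5 : ∑ w ∈ Λ, Ψ (ep J) w * (Kb (J j0) (s + 1 + t', w, v) * KJ J l) *
          (PathAux.Et (be (ep J) (J j0) j0 t') (J j0) (cnt D l j0 + 1) * Q) ≤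
          al (ep J) (J j0) (s + 1 + t') * Ψ (ep J) v * (KJ J l *
          (PathAux.Et (be (ep J) (J j0) j0 t') (J j0) (cnt D l j0 + 1) * Q)) := by
        rcases Nat.eq_zero_or_pos (J j0) with h0 | h0
        · simp [PathAux.Et, h0]
        · refine le_trans (le_of_eq ?_) (mul_le_mul_of_nonneg_right
            (hK _ (ep0 J) (ep1 J) _ h0 (s + 1 + t') (by omega) (by omega) v hv)
            (mul_nonneg (KJ0 _ _) (mul_nonneg (PathAux.Et_nonneg (be0 _ _ _ _) _ _) Q0)))
          rw [sum_mul]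
          exact sum_congr rfl fun w _ => by ring
      have e6 := mul_le_mul_of_nonneg_left e5 hc
      have e7 := mul_le_mul_of_nonneg_left (PathAux.Et_step (be0 (ep J) (J j0) j0 t')
        (mul_nonneg hc (hal (ep J) (J j0) (s + 1 + t'))) (J j0) (cnt D l j0))
        (mul_nonneg (mul_nonneg (hΨ (ep J) v) (KJ0 J l)) Q0)
      linarith
  refine (main t le_rfl o ho [] (by simp) (by simp) fun u => by simp [hωo]).trans ?_
  have hgeo : ∀ r : ℝ, 0 < r → r < 1 → ∑ J ∈ 𝒥, ∏ j, C0 * r ^ J j ≤ (C0 / (1 - r)) ^ S := by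
    intro r hr0 hr1
    rw [← prod_univ_sum (fun _ : Fin S => range (t + 1)) (fun _ m => C0 * r ^ m), prod_const,
      card_univ, Fintype.card_fin, ← mul_sum]
    refine pow_le_pow_left₀ (mul_nonneg (by linarith) (sum_nonneg fun _ _ => by positivity)) ?_ _
    have hg : ∑ i ∈ range (t + 1), r ^ i ≤ (1 - r)⁻¹ := by
      rw [← tsum_geometric_of_lt_one hr0.le hr1]
      exact (summable_geometric_of_lt_one hr0.le hr1).sum_le_tsum _ fun _ _ => by positivity
    rw [div_eq_mul_inv]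
    exact mul_le_mul_of_nonneg_left hg (by linarith)
  have g1 := hgeo (1 / 2) (by norm_num) (by norm_num)
  have g2 := hgeo (3 / 4) (by norm_num) (by norm_num)
  rw [show C0 / (1 - 1 / 2) = 2 * C0 by ring] at g1
  rw [show C0 / (1 - 3 / 4) = 4 * C0 by ring] at g2
  have hterm : ∀ J ∈ 𝒥, A * ρ ^ ep J * (Ψ (ep J) o * KJ J [] * PP J t []) ≤
      A * (ρ ^ (1 / (100 * ((M : ℝ) + 1))) * ∏ j, C0 * (1 / 2 : ℝ) ^ J j +
        (2 / 3) ^ M * ∏ j, C0 * (3 / 4 : ℝ) ^ J j) := by
    intro J _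
    rw [mul_assoc]
    refine mul_le_mul_of_nonneg_left ?_ hA
    have p1 : PP J t [] ≤ ∏ j, C0 * (1 / 2 : ℝ) ^ J j := by
      refine prod_le_prod (fun j _ => PathAux.Et_nonneg (be0 _ _ _ _) _ _) fun j _ => ?_
      simp only [PathAux.Et, cnt, List.countP_nil, zero_le, if_true, Nat.sub_zero]
      rcases Nat.eq_zero_or_pos (J j) with h0 | h0
      · simpa [h0] using hC0
      · refine (hβ _ h0 _ (ep0 J) (one_div_le_one_div_of_le (by positivity) ?_) j).trans
          (le_of_eq (by rw [one_div, inv_pow, div_eq_mul_inv]))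
        have : ((J j : ℕ) : ℝ) ≤ (∑ j, J j : ℕ) := by
          exact_mod_cast single_le_sum (f := J) (fun _ _ => Nat.zero_le _) (mem_univ j)
        linarith
    have p0 : 0 ≤ ∏ j, C0 * (1 / 2 : ℝ) ^ J j := (PP0 _ _ _).trans p1
    have p2 : ∏ j, C0 * (3 / 4 : ℝ) ^ J j =
        (3 / 2) ^ (∑ j, J j) * ∏ j, C0 * (1 / 2 : ℝ) ^ J j := by
      rw [← prod_pow_eq_pow_sum, ← prod_mul_distrib]
      refine prod_congr rfl fun j _ => ?_
      rw [mul_left_comm, ← mul_pow]
      norm_num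
    have p3 : ρ ^ ep J ≤ ρ ^ (1 / (100 * ((M : ℝ) + 1))) + (2 / 3) ^ M * (3 / 2) ^ (∑ j, J j) := by
      rcases le_total (∑ j, J j) M with h | h
      · refine le_add_of_le_of_nonneg (Real.rpow_le_rpow_of_exponent_ge hρ0 hρ1
          (one_div_le_one_div_of_le (by positivity) ?_)) (by positivity)
        have : ((∑ j, J j : ℕ) : ℝ) ≤ M := by exact_mod_cast h
        linarith
      · refine le_add_of_nonneg_of_le (by positivity)
          ((Real.rpow_le_one hρ0.le hρ1 (ep0 J).le).trans ?_)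
        calc (1 : ℝ) = (2 / 3) ^ M * (3 / 2) ^ M := by rw [← mul_pow]; norm_num
          _ ≤ _ := mul_le_mul_of_nonneg_left (pow_le_pow_right₀ (by norm_num) h) (by positivity)
    simp only [KJ, List.map_nil, List.prod_nil, hΨo, one_mul]
    rw [p2, ← mul_assoc, ← add_mul]
    exact mul_le_mul p3 p1 (PP0 _ _ _) ((Real.rpow_nonneg hρ0.le _).trans p3)
  refine (sum_le_sum hterm).trans ?_
  rw [← mul_sum, sum_add_distrib, ← mul_sum, ← mul_sum]
  refine mul_le_mul_of_nonneg_left (add_le_add ?_ ?_) hA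
  · rw [mul_comm]
    exact mul_le_mul_of_nonneg_right g1 (by positivity)
  · rw [mul_comm]
    exact mul_le_mul_of_nonneg_right g2 (by positivity)

end Crest.Agent.R160
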