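import Crest.Agent.R160.Gauge
import Crest.Agent.R160.Ker
import Crest.Agent.R160.Param
import Crest.Agent.R160.Mart
import Crest.Agent.R160.Path

/-! Row 160: the response of the Euler scheme is bounded and localised. -/

set_option autoImplicit false
set_option linter.unusedSectionVars false

namespace Crest.Agent.R160

open MeasureTheory Finset Filter Topology

variable {V : Type*} [DecidableEq V]

namespace CoreAux

theorem bm_xi {Λ : Finset V} {μ : Finset V → ℝ} (h : Prior Λ μ) (δ : ℝ) (u : V) (s t : ℕ) (v : V) :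
    BM fun p => xi Λ μ δ (Yp δ p) u s t v := by
  induction t generalizing v with
  | zero => exact BM.const _
  | succ t ih =>
    exact (ih v).add ((BM.const δ).mul (BM.sum _ fun w _ =>
      ((h.bm_cv v w).comp (measurable_Yp δ _)).mul (ih w)))

theorem xi_sq_le (Λ : Finset V) (μ : Finset V → ℝ) (δ : ℝ) (Y : ℕ → V → ℝ) (u : V) (s t : ℕ)
    (v : V) : xi Λ μ δ Y u s t v ^ 2 ≤ 2 * (if v = u then 1 else 0) + 2 * (δ ^ 2 * t) *
      ∑ j ∈ range t, (∑ w ∈ Λ, cv Λ μ (Y (s + 1 + j)) v w * xi Λ μ δ Y u s j w) ^ 2 := by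
  have e : xi Λ μ δ Y u s t v = (if v = u then 1 else 0) +
      δ * ∑ j ∈ range t, ∑ w ∈ Λ, cv Λ μ (Y (s + 1 + j)) v w * xi Λ μ δ Y u s j w := by
    induction t with
    | zero => simp [xi]
    | succ t ih => rw [xi, sum_range_succ, mul_add, ← add_assoc, ← ih]
  have h := sq_sum_le_card_mul_sum_sq (s := range t)
    (f := fun j => ∑ w ∈ Λ, cv Λ μ (Y (s + 1 + j)) v w * xi Λ μ δ Y u s j w)
  rw [card_range] at h
  have h2 := mul_le_mul_of_nonneg_left h (sq_nonneg δ)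
  rw [e]
  generalize ∑ j ∈ range t, ∑ w ∈ Λ, cv Λ μ (Y (s + 1 + j)) v w * xi Λ μ δ Y u s j w = S at *
  split_ifs <;> nlinarith [sq_nonneg (1 - δ * S), sq_nonneg (δ * S)]

noncomputable def AA (C τ : ℝ) : ℝ := C * (C * (1 / √τ + 2)) ^ (3 / 2 : ℝ)

theorem sum_AA {C : ℝ} (hC : 1 ≤ C) (T : ℕ) : ∃ CA : ℝ, 0 ≤ CA ∧ ∀ (δ : ℝ) (K : ℕ), 0 < δ →
    K * δ = T → ∑ s ∈ range K, δ * AA C ((s + 1 : ℕ) * δ) ≤ CA := by
  refine ⟨C * (C * (1 + 2 * √T)) ^ (3 / 2 : ℝ) * ((T : ℝ) ^ (1 / 4 : ℝ) / (1 / 4)), by positivity,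
    fun δ K hδ hK => ?_⟩
  have h := riem hδ (show (0 : ℝ) < 1 / 4 by norm_num) (by norm_num) K
  rw [hK] at h
  refine le_trans ?_ (mul_le_mul_of_nonneg_left h (by positivity))
  rw [mul_sum]
  refine sum_le_sum fun s hs => ?_
  set τ : ℝ := (s + 1 : ℕ) * δ with hτ
  have h0 : 0 < τ := by positivity
  have h1 : τ ≤ T := by
    rw [← hK]; exact mul_le_mul_of_nonneg_right (by exact_mod_cast mem_range.1 hs) hδ.le
  have h2 : C * (1 / √τ + 2) ≤ C * (1 + 2 * √T) * τ ^ (-1 / 2 : ℝ) := by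
    rw [mul_assoc, neg_div, Real.rpow_neg h0.le, ← Real.sqrt_eq_rpow, ← div_eq_mul_inv]
    have := Real.sqrt_le_sqrt h1
    have := Real.sqrt_pos.2 h0
    gcongr
    rw [le_div_iff₀ this, add_mul, one_div_mul_cancel this.ne']
    linarith
  have h3 := Real.rpow_le_rpow (by positivity) h2 (show (0 : ℝ) ≤ 3 / 2 by norm_num)
  rw [Real.mul_rpow (x := C * (1 + 2 * √T)) (by positivity) (by positivity),
    ← Real.rpow_mul h0.le] at h3
  unfold AA
  rw [show (1 / 4 - 1 : ℝ) = -1 / 2 * (3 / 2) by norm_num]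
  nlinarith [mul_le_mul_of_nonneg_left h3 (show 0 ≤ δ * C by positivity)]

section
variable {C δ : ℝ} {D k Q : ℕ}

theorem px_nonneg (hδ : 0 ≤ δ) : 0 ≤ px δ D k := by unfold px; split_ifs <;> positivity

theorem log_pos' (hQ : 1 ≤ Q) : 0 < Real.log (Q + 1) :=
  Real.log_pos (by have : (1 : ℝ) ≤ Q := by exact_mod_cast hQ
                   linarith)

theorem pl_nonneg (hC : 1 ≤ C) (hδ : 0 ≤ δ) : 0 ≤ pl C Q δ D k :=
  mul_nonneg (by linarith) (add_nonneg (px_nonneg hδ) (Real.log_nonneg (by simp)))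

theorem pM_nonneg (hC : 1 ≤ C) (hδ : 0 ≤ δ) : 0 ≤ pM C Q δ D k := by
  have := px_nonneg (D := D) (k := k) hδ
  have : 0 ≤ Real.log (Q + 1) := Real.log_nonneg (by simp)
  unfold pM; split_ifs <;> positivity

theorem pmm_nonneg {Cm : ℕ → ℝ} (h : ∀ i, 1 ≤ Cm i) (hδ : 0 ≤ δ) (i : ℕ) :
    0 ≤ pmm Cm i Q δ D k := by
  have : 0 ≤ Cm i := by linarith [h i]
  unfold pmm; split_ifs <;> positivity

theorem one_le_pM (hC : 1 ≤ C) (hδ : 0 ≤ δ) (hQ : 1 ≤ Q) : 1 ≤ pM C Q δ D k := by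
  have h1 := px_nonneg (D := D) (k := k) hδ
  have h2 := log_pos' hQ
  have h3 : (1 : ℝ) ≤ Q := by exact_mod_cast hQ
  unfold pM; split_ifs
  · rw [le_div_iff₀ h2]
    have := Real.log_le_sub_one_of_pos (show (0 : ℝ) < Q + 1 by positivity)
    nlinarith
  · nlinarith

end

theorem prod_sq_mul {α : Type*} (l : List α) (f g : α → ℝ) :
    (l.map fun x => (f x * g x) ^ 2).prod = (l.map g).prod ^ 2 * (l.map fun x => f x ^ 2).prod := by
  induction l with
  | nil => simp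
  | cons x l ih => simp only [List.map_cons, List.prod_cons, ih]; ring

noncomputable def QQ (C0 : ℝ) (S r M : ℕ) : ℝ :=
  (2 * C0) ^ S * (1 / (1 + (r : ℝ))) ^ (1 / (100 * ((M : ℝ) + 1))) + (4 * C0) ^ S * (2 / 3) ^ M

theorem QQ_small {C0 : ℝ} (S : ℕ) {η : ℝ} (hη : 0 < η) : ∃ r M, QQ C0 S r M ≤ η := by
  have h1 := (tendsto_pow_atTop_nhds_zero_of_lt_one (r := (2 / 3 : ℝ)) (by norm_num)
    (by norm_num)).const_mul ((4 * C0) ^ S)
  rw [mul_zero] at h1
  obtain ⟨M, hM⟩ := (h1.eventually (ge_mem_nhds (half_pos hη))).exists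
  have hγ : (0 : ℝ) < 1 / (100 * ((M : ℝ) + 1)) := by positivity
  have h2 := ((tendsto_one_div_add_atTop_nhds_zero_nat (𝕜 := ℝ)).rpow_const
    (Or.inr hγ.le)).const_mul ((2 * C0) ^ S)
  rw [Real.zero_rpow hγ.ne', mul_zero] at h2
  obtain ⟨r, hr⟩ := (h2.eventually (ge_mem_nhds (half_pos hη))).exists
  refine ⟨r, M, ?_⟩
  unfold QQ
  rw [add_comm 1 (r : ℝ)]
  linarith

variable {G : SimpleGraph V} (hT : G.IsTree) [G.LocallyFinite]
include hT

theorem core1 {d : ℕ} (hd : 3 ≤ d) (hreg : G.IsRegularOfDegree d) {θ : ℝ} (h0 : 0 ≤ θ)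
    (hθ : ((d : ℝ) - 1) * θ ^ 2 ≤ 1) (T : ℕ) : ∃ (C C0 : ℝ) (S : ℕ), 1 ≤ C ∧ 1 ≤ C0 ∧
    ∀ (o : V) (R : ℕ) (Λ : Finset V), Λ = ball G o R → ∀ ε : ℝ, 0 < ε → ∃ n0 : ℕ, ∀ n, n0 ≤ n →
    ∀ δ : ℝ, δ = 1 / 2 ^ n → ∀ U ⊆ Λ, ∀ r M : ℕ, (∀ u ∈ U, r ≤ G.dist u o) → ∀ s t : ℕ,
      s + 1 + t ≤ T * 2 ^ n → ∑ u ∈ U, EE Λ (mu G θ Λ) δ (fun _ p => (∑ w ∈ Λ,
        cv Λ (mu G θ Λ) (Yp δ p (s + 1 + t)) o w * xi Λ (mu G θ Λ) δ (Yp δ p) u s t w) ^ 2) ≤
        AA C ((s + 1 : ℕ) * δ) * QQ C0 S r M + #Λ * ε := by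
  have hd' : (3 : ℝ) ≤ d := by exact_mod_cast hd
  have h1 : θ < 1 := by nlinarith
  set B : ℝ := ((d : ℝ) - 1) ^ ((3 : ℕ) : ℝ)⁻¹ with hBdef
  have hB0 : 0 < B := Real.rpow_pos_of_pos (by linarith) _
  have hB : B ^ 3 = d - 1 := Real.rpow_inv_natCast_pow (by linarith) (by norm_num)
  obtain ⟨Ce, Cm, hCe, hCm, henv⟩ := env hT hd hreg h0 hθ hB
  obtain ⟨CW, Ck, hCW, hCk, hker⟩ := ker hT hd hreg hB0 hB
  set C := max Ce Ck with hCdef
  have hC1 : Ce ≤ C := le_max_left _ _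
  have hC2 : Ck ≤ C := le_max_right _ _
  have hC : 1 ≤ C := hCe.trans hC1
  obtain ⟨n0, ii, C0, hn0, hC0, hii, hpar⟩ := param hC hCm
  refine ⟨C, C0, T * 2 ^ n0 + 1, hC, hC0, fun o R Λ hΛ ε hε => ?_⟩
  have hcv : Cvx G Λ := hΛ ▸ cvx_ball hT o R
  have ho : o ∈ Λ := by rw [hΛ, mem_ball hT]; simp
  have hP := prior_mu hT hcv ⟨o, ho⟩ h0 h1
  obtain ⟨κ0, hκ0⟩ : ∃ κ0, ∀ u ∈ Λ, ∀ y c v, kap hT θ B Λ u y c v ≤ κ0 := by
    choose bd hbd using fun u c v => (bm_kap hT hcv ⟨o, ho⟩ h0 h1 B u c v).2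
    have hb0 : ∀ u c v, 0 ≤ bd u c v := fun u c v => (abs_nonneg _).trans (hbd u c v 0)
    refine ⟨∑ u ∈ Λ, ∑ c ∈ Λ, ∑ v ∈ Λ, bd u c v, fun u hu y c v => ?_⟩
    by_cases h : c ∈ Λ ∧ v ∈ Λ
    · exact ((le_abs_self _).trans (hbd u c v y)).trans (((single_le_sum (fun v _ => hb0 u c v)
        h.2).trans (single_le_sum (fun c _ => sum_nonneg fun v _ => hb0 u c v) h.1)).trans
        (single_le_sum (fun u _ => sum_nonneg fun c _ => sum_nonneg fun v _ => hb0 u c v) hu))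
    · rw [kap, if_neg h]
      exact sum_nonneg fun u _ => sum_nonneg fun c _ => sum_nonneg fun v _ => hb0 u c v
  obtain ⟨δ0, hδ0, hm⟩ := mart Λ κ0 T hε
  obtain ⟨N, hN⟩ := exists_pow_lt_of_lt_one hδ0 (show (1 / 2 : ℝ) < 1 by norm_num)
  refine ⟨max N n0, fun n hn δ hδ U hU r M hr s t hst => ?_⟩
  have hδp : 0 < δ := by rw [hδ]; positivity
  have hδle : δ ≤ δ0 := by
    rw [hδ, ← one_div_pow]
    exact (pow_le_pow_of_le_one (by norm_num) (by norm_num) ((le_max_left _ _).trans hn)).trans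
      hN.le
  obtain ⟨e, rfl⟩ := Nat.exists_eq_add_of_le ((le_max_right _ _).trans hn)
  set D : ℕ := 2 ^ e with hD
  have hDδ : D * δ = 1 / 2 ^ n0 := by rw [hD, hδ, pow_add]; push_cast; field_simp
  have hD2 : 2 * (D * δ) ≤ 1 := by
    rw [hDδ, ← one_div_pow]
    have := pow_le_pow_of_le_one (show (0 : ℝ) ≤ 1 / 2 by norm_num) (by norm_num) hn0
    linarith
  have hD1 : 1 ≤ D := Nat.one_le_two_pow
  have hstT : ((s + 1 + t : ℕ) : ℝ) * δ ≤ T := by
    rw [hδ, mul_one_div, div_le_iff₀ (by positivity)]; exact_mod_cast hst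
  set μ := mu G θ Λ with hμ
  set Kb' : ℕ → ℕ × V × V → ℝ := fun m x => if 1 ≤ m ∧ 1 ≤ x.1 then
    Kb G B CW Λ o (pmm Cm (ii m) (12 * m) δ D x.1) (pl C (12 * m) δ D x.1)
      (pM C (12 * m) δ D x.1) x.2.1 x.2.2 else 1 with hKb'
  have hmm : ∀ m k : ℕ, 1 ≤ k → 0 < pmm Cm (ii m) (12 * m) δ D k := fun m k hk => by
    have : 0 < Cm (ii m) := by linarith [hCm (ii m)]
    unfold pmm; split_ifs <;> positivity
  have hl : ∀ m k : ℕ, 1 ≤ m → 0 < pl C (12 * m) δ D k := fun m k hk =>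
    mul_pos (by linarith) (add_pos_of_nonneg_of_pos (px_nonneg hδp.le) (log_pos' (by omega)))
  have hKpos : ∀ m x, 0 < Kb' m x := fun m x => by
    simp only [hKb']
    split_ifs with h
    · have := hmm m _ h.2
      have := hl m x.1 h.1
      have : 0 < CW := by linarith
      unfold Kb k3b k2 rb
      positivity
    · exact one_pos
  have hom : ∀ u v, 0 < om G B o u v := fun u v => zpow_pos hB0 _
  have hmono : ∀ {x : ℝ}, 0 ≤ x → Ce * x ≤ C * x := fun hx => mul_le_mul_of_nonneg_right hC1 hx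
  have hlog : ∀ q : ℕ, 0 ≤ Real.log (q + 1) := fun q => Real.log_nonneg (by simp)
  have key := psb Λ U (c := 30 * δ) (by positivity) s t D (T * 2 ^ n0 + 1)
    (fun u l => √(EE Λ μ δ fun _ p =>
      (l.map fun x => kap hT θ B Λ u (Yp δ p x.1) x.2.1 x.2.2 ^ 2).prod))
    (fun u c => √(EE Λ μ δ fun _ p => cv Λ μ (Yp δ p (s + 1)) c u ^ 4)) (om G B o) Kb' (Psi G B o)
    (fun ε m k => C * pmm Cm (ii m) (12 * m) δ D k * pl C (12 * m) δ D k *
      pM C (12 * m) δ D k ^ (1 + ε)) (A := AA C ((s + 1 : ℕ) * δ)) (ρ := 1 / (1 + r)) (C0 := C0)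
    (by unfold AA; positivity) (by positivity)
    (by rw [div_le_one (by positivity)]; simp) hC0 (fun _ _ => Real.sqrt_nonneg _) hom
    (fun m x => (hKpos m x).le) (fun ε v => by unfold Psi; positivity)
    (fun ε m k => by
      have := pmm_nonneg (Q := 12 * m) (D := D) (k := k) hCm hδp.le (ii m)
      have := pl_nonneg (Q := 12 * m) (D := D) (k := k) hC hδp.le
      have := pM_nonneg (Q := 12 * m) (D := D) (k := k) hC hδp.le
      positivity) ?hn ?hK ?ha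
    (fun m hm ε h1 h2 j => hpar δ D hδp hDδ m hm ε h1 h2 j _ fun k hk => by
      obtain ⟨a, b⟩ := mem_filter.1 hk
      exact ⟨by have := (mem_Ioc.1 a).1; omega, b⟩) ?hS ho
    (fun u => by simp [om, G.dist_comm (u := o)]) (fun ε => by simp [Psi]) M
  case hS =>
    intro k hk
    have : k / D ≤ T * 2 ^ n0 := Nat.div_le_of_le_mul (by
      rw [hD, mul_comm, mul_assoc, ← pow_add]; omega)
    unfold sl; omega
  case hK =>
    intro ε e1 e2 m hm k hk _ v _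
    simp only [hKb', if_pos (show 1 ≤ m ∧ 1 ≤ k from ⟨hm, by omega⟩)]
    have a1 := hmm m k (by omega)
    have a2 := hl m k hm
    have a3 := one_le_pM (Q := 12 * m) (D := D) (k := k) hC hδp.le (by omega)
    refine ((hker Λ o).2.1 _ _ _ ε a1.le a2.le a3 e1 (by linarith) v).trans ?_
    have : 0 ≤ Psi G B o ε v := by unfold Psi; positivity
    gcongr
  case ha =>
    intro ε e1 e2 v hv
    set τ : ℝ := (s + 1 : ℕ) * δ with hτ
    have hτ0 : 0 < τ := by positivity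
    have a0 : 0 ≤ 1 / √τ := by positivity
    have a1 : 1 ≤ C * (1 / √τ + 2) := by nlinarith
    refine le_trans (sum_le_sum fun u hu => mul_le_mul_of_nonneg_left ?_ (hom u v).le)
      (((hker U o).2.2 r _ ε hr a1 e1 (by linarith) v).trans ?_)
    · rw [Real.sqrt_le_left (by unfold rb; positivity), EE_law (f := fun _ y => cv Λ μ y v u ^ 4)
        hδp.le _ fun _ => (measurable_cv v u).pow_const 4]
      refine le_trans ?_ ((henv o R Λ hΛ v hv 2 (by norm_num) τ hτ0).2.2.1 u (hU hu) _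
        (Or.inl (hmono (by positivity))))
      refine (hP.pf_Sharp τ).mono _ _ ((hP.bm_cv v u).pow 4) ((bm_rv hT h0 h1 v u).pow _) fun y => ?_
      obtain ⟨b1, b2⟩ := cv_nonneg hT hcv h0 h1 y hv (hU hu)
      exact pow_le_pow_left₀ b1 b2 4
    · have : 0 ≤ Psi G B o ε v := by unfold Psi; positivity
      unfold AA
      gcongr
      linarith
  case hn =>
    intro u hu l hl'
    set X : ℕ × V × V → (V → ℝ) → ℝ := fun x y =>
      kap hT θ B Λ u y x.2.1 x.2.2 * (om G B o u x.2.2 / om G B o u x.2.1) with hX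
    have hw : ∀ x : ℕ × V × V, 0 ≤ om G B o u x.2.2 / om G B o u x.2.1 := fun x =>
      (div_pos (hom _ _) (hom _ _)).le
    refine le_of_eq_of_le ?_ (nrm_le hP hδp.le hD1 X
      (fun x => (bm_kap hT hcv ⟨o, ho⟩ h0 h1 B u _ _).mul (BM.const _))
      (fun x y => mul_nonneg (kap_nonneg hT hB0 _ _ _ _) (hw x)) Kb' hKpos l ?_ ?_)
    · simp only [hX, prod_sq_mul]
      rw [EE_mul, Real.sqrt_mul (sq_nonneg _), Real.sqrt_sq, mul_comm]
      exact List.prod_nonneg fun a ha => by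
        obtain ⟨x, -, rfl⟩ := List.mem_map.1 ha; exact hw x
    · intro x hx hk m hm
      obtain ⟨b1, -, b3, b4⟩ := hl' x hx
      have b5 : 1 ≤ x.1 := by omega
      have hτ0 : 0 < (x.1 : ℝ) * δ := by positivity
      have hτ1 : (x.1 : ℝ) * δ ≤ 1 := by
        have : (x.1 : ℝ) ≤ 2 * D := by exact_mod_cast hk.le
        nlinarith
      simp only [hKb', if_pos (show 1 ≤ m ∧ 1 ≤ x.1 from ⟨hm, b5⟩)]
      have he := fun c hc => henv o R Λ hΛ c hc (12 * m) (by omega) _ hτ0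
      refine (hker Λ o).1 θ h0 h1 hcv _ (hP.pf_Sharp _) _ _ _ (hmm m _ b5) (hl m _ hm) m hm
        (fun c hc => ?_) (fun c hc => ?_) (fun c hc v hv => ?_) u _ b3 _ b4
      · refine ((he c hc).1 _ (hii m hm).1 (hii m hm).2 hτ1).trans_eq ?_
        have : 0 < Cm (ii m) := by linarith [hCm (ii m)]
        rw [pmm, if_pos hk, one_div, Real.rpow_inv_natCast_pow (by positivity) (by omega)]
      · refine ((he c hc).2.1 hτ1).trans ?_
        have := hlog (12 * m)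
        rw [pl, px, if_pos hk]
        gcongr
      · refine (he c hc).2.2.1 v hv _ ?_
        have := hlog (12 * m)
        rw [pM, pt, px, if_pos hk, if_pos hk]
        split_ifs with h
        · exact Or.inr ⟨h, by gcongr⟩
        · exact Or.inl (hmono (by positivity))
    · intro x hx hk m hm a τ t1 t2
      obtain ⟨b1, -, b3, b4⟩ := hl' x hx
      have b5 : 1 ≤ x.1 := by omega
      have hk' : ¬ x.1 < 2 * D := by omega
      have hDp : 0 < D * δ := by positivity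
      have hτ0 : 0 < τ := hDp.trans_le t1
      simp only [hKb', if_pos (show 1 ≤ m ∧ 1 ≤ x.1 from ⟨hm, b5⟩)]
      have he := fun c hc => (henv o R Λ hΛ c hc (12 * m) (by omega) _ hτ0).2.2.2 a
      have hpf := pf_integral (gam V) (e := fun (g : V → ℝ) v => a v + √τ * g v) (by fun_prop)
      refine (hker Λ o).1 θ h0 h1 hcv _ hpf _ _ _ (hmm m _ b5) (hl m _ hm) m hm
        (fun c hc => ?_) (fun c hc => ?_) (fun c hc v hv => ?_) u _ b3 _ b4
      · rw [pmm, if_neg hk', one_pow, ← hpf.const 1]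
        refine hpf.mono _ _ ((hP.bm_mg c).pow _) (BM.const 1) fun y => ?_
        rw [pow_mul]
        exact pow_le_one₀ (sq_nonneg _) ((sq_le_one_iff_abs_le_one _).2 (hP.abs_mg_le y c))
      · refine ((he c hc).1 (by linarith)).trans ?_
        have := hlog (12 * m)
        rw [pl, px, if_neg hk']
        gcongr
      · refine (he c hc).2 v hv _ ?_
        have := hlog (12 * m)
        rw [pM, pt, px, if_neg hk', if_neg hk']
        split_ifs with h
        · exact Or.inr ⟨h.trans (by gcongr), by gcongr⟩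
        · exact Or.inl (by gcongr)
  refine (sum_le_sum fun u hu => hm μ hP (fun y u hu v hv => (cv_nonneg hT hcv h0 h1 y hu hv).1)
    (kap hT θ B Λ u) (fun c v => (bm_kap hT hcv ⟨o, ho⟩ h0 h1 B u c v).1)
    (fun y c v => ⟨kap_nonneg hT hB0 u y c v, hκ0 u (hU hu) y c v⟩)
    (fun y y' h => kap_dep hT hcv B u h)
    (fun y ξ hξ v hv => kernel hT hcv h0 h1 hB0 (by rw [hB]; exact hθ) u y ξ hξ hv)
    δ hδp hδle u (hU hu) s t hstT o ho).trans ?_
  rw [sum_add_distrib, sum_const, nsmul_eq_mul]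
  refine add_le_add key ?_
  have : (#U : ℝ) ≤ #Λ := by exact_mod_cast card_le_card hU
  gcongr

end CoreAux

open CoreAux

variable {G : SimpleGraph V} (hT : G.IsTree) [G.LocallyFinite]
include hT

theorem core {d : ℕ} (hd : 3 ≤ d) (hreg : G.IsRegularOfDegree d) {θ : ℝ} (h0 : 0 ≤ θ)
    (hθ : ((d : ℝ) - 1) * θ ^ 2 ≤ 1) (T : ℕ) : ∃ C : ℝ, ∀ η : ℝ, 0 < η → ∃ r : ℕ,
    ∀ (o : V) (R : ℕ) (Λ : Finset V), Λ = ball G o R → ∃ n0 : ℕ, ∀ n, n0 ≤ n →
    ∀ (δ : ℝ) (K : ℕ), δ = 1 / 2 ^ n → K = T * 2 ^ n →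
      EE Λ (mu G θ Λ) δ (fun _ p => ∑ s ∈ range K, ∑ u ∈ Λ,
        δ * xi Λ (mu G θ Λ) δ (Yp δ p) u s (K - 1 - s) o ^ 2) ≤ C ∧
      EE Λ (mu G θ Λ) δ (fun _ p => ∑ s ∈ range K, ∑ u ∈ Λ \ ball G o r,
        δ * xi Λ (mu G θ Λ) δ (Yp δ p) u s (K - 1 - s) o ^ 2) ≤ η := by
  have hd' : (3 : ℝ) ≤ d := by exact_mod_cast hd
  have h1 : θ < 1 := by nlinarith
  obtain ⟨C, C0, S, hC, hC0, h⟩ := core1 hT hd hreg h0 hθ T
  obtain ⟨CA, hCA0, hCA⟩ := sum_AA hC T
  have hQ0 : ∀ r M, 0 ≤ QQ C0 S r M := fun r M => by unfold QQ; positivity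
  refine ⟨2 * T + 2 * T ^ 2 * (CA * QQ C0 S 0 0 + T), fun η hη => ?_⟩
  obtain ⟨r, M, hrM⟩ := QQ_small (C0 := C0) S
    (show 0 < η / 2 / (2 * T ^ 2 * CA + 1) by positivity)
  refine ⟨r, fun o R Λ hΛ => ?_⟩
  have hcv : Cvx G Λ := hΛ ▸ cvx_ball hT o R
  have ho : o ∈ Λ := by rw [hΛ, mem_ball hT]; simp
  have hP := prior_mu hT hcv ⟨o, ho⟩ h0 h1
  set ε0 : ℝ := min 1 (η / 2 / (2 * T ^ 3 + 1)) with hε0
  have hε0p : 0 < ε0 := by positivity
  obtain ⟨n0, hn0⟩ := h o R Λ hΛ (ε0 / (#Λ + 1)) (by positivity)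
  refine ⟨n0, fun n hn δ K hδ hK => ?_⟩
  have hδp : 0 < δ := by rw [hδ]; positivity
  have hKδ : K * δ = T := by rw [hK, hδ]; push_cast; field_simp
  have hε1 : #Λ * (ε0 / (#Λ + 1)) ≤ ε0 := by
    rw [← mul_div_assoc, div_le_iff₀ (by positivity)]; nlinarith
  set μ := mu G θ Λ with hμ
  have key : ∀ U ⊆ Λ, ∀ r M : ℕ, (∀ u ∈ U, r ≤ G.dist u o) →
      EE Λ μ δ (fun _ p => ∑ s ∈ range K, ∑ u ∈ U, δ * xi Λ μ δ (Yp δ p) u s (K - 1 - s) o ^ 2) ≤
      2 * T * (∑ u ∈ U, if o = u then 1 else 0) + 2 * T ^ 2 * (CA * QQ C0 S r M + T * ε0) := by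
    intro U hU r M hr
    have b1 : ∀ u s t, BM fun p => (∑ w ∈ Λ, cv Λ μ (Yp δ p (s + 1 + t)) o w *
        xi Λ μ δ (Yp δ p) u s t w) ^ 2 := fun u s t => (BM.sum _ fun w _ =>
      ((hP.bm_cv o w).comp (measurable_Yp δ _)).mul (bm_xi hP δ u s t w)).pow 2
    have b2 : ∀ u s t, BM fun p => δ * xi Λ μ δ (Yp δ p) u s t o ^ 2 := fun u s t =>
      (BM.const δ).mul ((bm_xi hP δ u s t o).pow 2)
    rw [EE_sum _ _ fun s _ _ => BM.sum _ fun u _ => b2 u s _]
    have step : ∀ s ∈ range K, EE Λ μ δ (fun _ p => ∑ u ∈ U,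
        δ * xi Λ μ δ (Yp δ p) u s (K - 1 - s) o ^ 2) ≤ δ * (2 * (∑ u ∈ U, if o = u then 1 else 0)) +
        2 * T ^ 2 * (δ * AA C ((s + 1 : ℕ) * δ) * QQ C0 S r M + δ * ε0) := by
      intro s hs
      have hs' := mem_range.1 hs
      set t := K - 1 - s with ht
      have htT : δ * t ≤ T := by
        rw [← hKδ, mul_comm]
        exact mul_le_mul_of_nonneg_right (by exact_mod_cast (by omega : t ≤ K)) hδp.le
      have c1 : ∀ u ∈ U, EE Λ μ δ (fun _ p => δ * xi Λ μ δ (Yp δ p) u s t o ^ 2) ≤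
          δ * (2 * (if o = u then 1 else 0) + 2 * (δ ^ 2 * t) * ∑ j ∈ range t, EE Λ μ δ
          (fun _ p => (∑ w ∈ Λ, cv Λ μ (Yp δ p (s + 1 + j)) o w *
            xi Λ μ δ (Yp δ p) u s j w) ^ 2)) := by
        intro u _
        rw [EE_mul]
        refine mul_le_mul_of_nonneg_left ((hP.EE_mono δ (fun _ => (bm_xi hP δ u s t o).pow 2)
          (fun _ => (BM.const _).add ((BM.const _).mul (BM.sum _ fun j _ => b1 u s j)))
          fun _ p => xi_sq_le Λ μ δ _ u s t o).trans_eq ?_) hδp.le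
        rw [EE_add _ (fun _ => BM.const _)
          fun _ => (BM.const _).mul (BM.sum _ fun j _ => b1 u s j), hP.EE_const, EE_mul,
          EE_sum _ _ fun j _ _ => b1 u s j]
      rw [EE_sum _ _ fun u _ _ => b2 u s _]
      refine (sum_le_sum c1).trans ?_
      rw [← mul_sum, sum_add_distrib, ← mul_sum, ← mul_sum, sum_comm, mul_add]
      refine add_le_add_right ?_ _
      have c2 := sum_le_sum fun j (hj : j ∈ range t) => (hn0 n hn δ hδ U hU r M hr s j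
        (by have := mem_range.1 hj; omega)).trans (add_le_add_right hε1 _)
      rw [sum_const, card_range, nsmul_eq_mul] at c2
      have c3 : 0 ≤ AA C ((s + 1 : ℕ) * δ) * QQ C0 S r M + ε0 := by
        have := hQ0 r M
        unfold AA; positivity
      refine (mul_le_mul_of_nonneg_left (mul_le_mul_of_nonneg_left c2 (by positivity))
        hδp.le).trans ?_
      have c4 : (δ * t) ^ 2 ≤ (T : ℝ) ^ 2 := by gcongr
      nlinarith [mul_le_mul_of_nonneg_right c4 (mul_nonneg hδp.le c3)]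
    refine (sum_le_sum step).trans ?_
    rw [sum_add_distrib, sum_const, ← mul_sum, sum_add_distrib, sum_const, ← sum_mul, card_range,
      nsmul_eq_mul, nsmul_eq_mul, ← mul_assoc, ← mul_assoc, ← mul_assoc, hKδ, mul_comm (T : ℝ) 2]
    have := hCA δ K hδp hKδ
    have := hQ0 r M
    gcongr
  constructor
  · refine (key Λ Subset.rfl 0 0 fun _ _ => Nat.zero_le _).trans ?_
    rw [sum_ite_eq, if_pos ho, mul_one]
    have : T * ε0 ≤ T := mul_le_of_le_one_right (by positivity) (min_le_left _ _)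
    gcongr
  · refine (key _ sdiff_subset r M fun u hu => ?_).trans ?_
    · have := (mem_sdiff.1 hu).2
      rw [mem_ball hT] at this; omega
    · rw [sum_ite_eq, if_neg (by simp [mem_ball hT]), mul_zero, zero_add]
      have a1 : ε0 ≤ η / 2 / (2 * T ^ 3 + 1) := min_le_right _ _
      rw [le_div_iff₀ (by positivity)] at a1 hrM
      nlinarith [hQ0 r M]

end Crest.Agent.R160
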