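import Mathlib
import Crest.Prelude.Def_Labels
import Crest.Prelude.Def_TreeIsing

/-! Row 160 (free Ising state on the regular tree is a factor of iid up to the Kesten-Stigum
threshold): shared definitions and basic facts. -/

set_option autoImplicit false
set_option linter.unusedSectionVars false

namespace Crest.Agent.R160

open MeasureTheory ProbabilityTheory Finset

/-! ### Gaussian noise -/

/-- independent standard Gaussians -/
noncomputable def gam (ι : Type*) : Measure (ι → ℝ) :=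
  Measure.infinitePi fun _ : ι => gaussianReal 0 1

instance (ι : Type*) : IsProbabilityMeasure (gam ι) := by unfold gam; infer_instance

theorem gam_inj {D J : Type*} {ι : D → J} (hι : Function.Injective ι) :
    MeasurePreserving (fun (b : J → ℝ) e => b (ι e)) (gam J) (gam D) := by
  classical
  refine ⟨by fun_prop, Measure.eq_infinitePi _ fun s t ht => ?_⟩
  rw [Measure.map_apply (by fun_prop) (MeasurableSet.pi s.countable_toSet fun j _ => ht j)]
  have : (fun (b : J → ℝ) e => b (ι e)) ⁻¹' (Set.pi s t) =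
      Set.pi (s.map ⟨ι, hι⟩) (Function.extend ι t fun _ => Set.univ) := by
    ext b
    simp only [Set.mem_preimage, Set.mem_pi, Finset.mem_coe, Finset.forall_mem_map,
      Function.Embedding.coeFn_mk, hι.extend_apply]
  rw [this, gam, Measure.infinitePi_pi, Finset.prod_map]
  · simp only [Function.Embedding.coeFn_mk, hι.extend_apply]
  · simp only [Finset.forall_mem_map, Function.Embedding.coeFn_mk, hι.extend_apply]
    exact fun e _ => ht e

theorem gam_merge {J : Type*} (D : J → Prop) [DecidablePred D] :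
    MeasurePreserving (fun (p : (J → ℝ) × (J → ℝ)) j => if D j then p.1 j else p.2 j)
      ((gam J).prod (gam J)) (gam J) := by
  have hm : Measurable fun (p : (J → ℝ) × (J → ℝ)) j => if D j then p.1 j else p.2 j :=
    measurable_pi_lambda _ fun j => by split_ifs <;> fun_prop
  refine ⟨hm, Measure.eq_infinitePi _ fun s t ht => ?_⟩
  rw [Measure.map_apply hm (MeasurableSet.pi s.countable_toSet fun j _ => ht j)]
  have : (fun (p : (J → ℝ) × (J → ℝ)) j => if D j then p.1 j else p.2 j) ⁻¹' (Set.pi s t) =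
      (Set.pi (s.filter D) t) ×ˢ (Set.pi (s.filter fun j => ¬ D j) t) := by
    ext p
    simp only [Set.mem_preimage, Set.mem_pi, Finset.mem_coe, Set.mem_prod, Finset.mem_filter]
    constructor
    · intro h
      exact ⟨fun j hj => by simpa [hj.2] using h j hj.1, fun j hj => by simpa [hj.2] using h j hj.1⟩
    · rintro ⟨h1, h2⟩ j hj
      split_ifs with h
      exacts [h1 j ⟨hj, h⟩, h2 j ⟨hj, h⟩]
  rw [this, Measure.prod_prod, gam, Measure.infinitePi_pi _ (fun j _ => ht j),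
    Measure.infinitePi_pi _ (fun j _ => ht j), Finset.prod_filter_mul_prod_filter_not]

theorem gam_eval {J : Type*} (j : J) :
    MeasurePreserving (fun b : J → ℝ => b j) (gam J) (gaussianReal 0 1) :=
  ⟨by fun_prop, Measure.infinitePi_map_eval _ j⟩

/-- bounded measurable -/
def BM {α : Type*} [MeasurableSpace α] (f : α → ℝ) : Prop :=
  Measurable f ∧ ∃ C, ∀ x, |f x| ≤ C

namespace BM
variable {α β : Type*} [MeasurableSpace α] [MeasurableSpace β] {f g : α → ℝ}

theorem integrable (h : BM f) (μ : Measure α) [IsFiniteMeasure μ] : Integrable f μ := by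
  obtain ⟨h1, C, h2⟩ := h
  exact Integrable.of_bound h1.aestronglyMeasurable C (ae_of_all _ h2)

theorem const (c : ℝ) : BM (fun _ : α => c) := ⟨measurable_const, |c|, fun _ => le_rfl⟩

theorem add (hf : BM f) (hg : BM g) : BM (fun x => f x + g x) := by
  obtain ⟨h1, C, h2⟩ := hf
  obtain ⟨h3, D, h4⟩ := hg
  exact ⟨h1.add h3, C + D, fun x => (abs_add_le _ _).trans (add_le_add (h2 x) (h4 x))⟩

theorem mul (hf : BM f) (hg : BM g) : BM (fun x => f x * g x) := by
  obtain ⟨h1, C, h2⟩ := hf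
  obtain ⟨h3, D, h4⟩ := hg
  exact ⟨h1.mul h3, C * D, fun x => by
    rw [abs_mul]; exact mul_le_mul (h2 x) (h4 x) (abs_nonneg _) ((abs_nonneg _).trans (h2 x))⟩

theorem neg (hf : BM f) : BM (fun x => - f x) := by
  simpa using (const (-1)).mul hf

theorem sub (hf : BM f) (hg : BM g) : BM (fun x => f x - g x) := by
  simpa [sub_eq_add_neg] using hf.add hg.neg

theorem pow (hf : BM f) (n : ℕ) : BM (fun x => f x ^ n) := by
  induction n with
  | zero => simpa using const 1
  | succ n ih => simpa [pow_succ] using ih.mul hf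

theorem sum {ι : Type*} (s : Finset ι) {F : ι → α → ℝ} (h : ∀ i ∈ s, BM (F i)) :
    BM (fun x => ∑ i ∈ s, F i x) := by
  classical
  induction s using Finset.induction_on with
  | empty => simpa using const 0
  | insert a s ha ih =>
    simp only [sum_insert ha]
    exact (h a (mem_insert_self _ _)).add (ih fun i hi => h i (mem_insert_of_mem hi))

theorem prod {ι : Type*} (s : Finset ι) {F : ι → α → ℝ} (h : ∀ i ∈ s, BM (F i)) :
    BM (fun x => ∏ i ∈ s, F i x) := by
  classical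
  induction s using Finset.induction_on with
  | empty => simpa using const 1
  | insert a s ha ih =>
    simp only [prod_insert ha]
    exact (h a (mem_insert_self _ _)).mul (ih fun i hi => h i (mem_insert_of_mem hi))

theorem comp (hf : BM f) {e : β → α} (he : Measurable e) : BM (fun x => f (e x)) := by
  obtain ⟨h1, C, h2⟩ := hf
  exact ⟨h1.comp he, C, fun x => h2 _⟩

theorem sqrt (hf : BM f) : BM (fun x => √(f x)) := by
  obtain ⟨h1, C, h2⟩ := hf
  exact ⟨h1.sqrt, √C, fun x => by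
    rw [abs_of_nonneg (Real.sqrt_nonneg _)]
    exact Real.sqrt_le_sqrt ((le_abs_self _).trans (h2 x))⟩

theorem integral_right {F : α × β → ℝ} (hF : BM F) (ν : Measure β) [IsProbabilityMeasure ν] :
    BM (fun x => ∫ y, F (x, y) ∂ν) := by
  obtain ⟨h1, C, h2⟩ := hF
  refine ⟨(h1.stronglyMeasurable.integral_prod_right' (ν := ν)).measurable, C, fun x => ?_⟩
  simpa using norm_integral_le_of_norm_le_const (μ := ν) (f := fun y => F (x, y)) (C := C)
    (ae_of_all _ fun y => h2 _)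

end BM

/-- Fubini along a splitting of the coordinates -/
theorem integral_merge {J : Type*} (D : J → Prop) [DecidablePred D] {f : (J → ℝ) → ℝ}
    (hf : BM f) : ∫ z, f z ∂gam J =
      ∫ z, ∫ z', f (fun j => if D j then z j else z' j) ∂gam J ∂gam J := by
  conv_lhs => rw [← (gam_merge D).map_eq]
  rw [integral_map (gam_merge D).measurable.aemeasurable hf.1.aestronglyMeasurable,
    integral_prod _ ((hf.comp (gam_merge D).measurable).integrable _)]

/-! ### Posterior laws of spins in a finite set -/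

section Post
variable {V : Type*} [DecidableEq V]

/-- the spin at `v` of the configuration whose plus set is `A` -/
def sp (A : Finset V) (v : V) : ℝ := if v ∈ A then 1 else -1

structure Prior (Λ : Finset V) (μ : Finset V → ℝ) : Prop where
  pos : ∀ A, 0 < μ A
  sum : ∑ A ∈ Λ.powerset, μ A = 1

noncomputable def wt (Λ : Finset V) (μ : Finset V → ℝ) (y : V → ℝ) (A : Finset V) : ℝ :=
  μ A * Real.exp (∑ v ∈ Λ, y v * sp A v)

/-- expectation under the prior tilted by the external field `y` -/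
noncomputable def Ex (Λ : Finset V) (μ : Finset V → ℝ) (y : V → ℝ) (ψ : Finset V → ℝ) : ℝ :=
  (∑ A ∈ Λ.powerset, wt Λ μ y A * ψ A) / ∑ A ∈ Λ.powerset, wt Λ μ y A

noncomputable def mg (Λ : Finset V) (μ : Finset V → ℝ) (y : V → ℝ) (v : V) : ℝ :=
  Ex Λ μ y (fun A => sp A v)

noncomputable def cv (Λ : Finset V) (μ : Finset V → ℝ) (y : V → ℝ) (u v : V) : ℝ :=
  Ex Λ μ y (fun A => (sp A u - mg Λ μ y u) * (sp A v - mg Λ μ y v))

noncomputable def k3 (Λ : Finset V) (μ : Finset V → ℝ) (y : V → ℝ) (u v w : V) : ℝ :=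
  Ex Λ μ y (fun A => (sp A u - mg Λ μ y u) * (sp A v - mg Λ μ y v) * (sp A w - mg Λ μ y w))

/-- the field after `k` steps of size `δ` with normalised increments `p` -/
noncomputable def Yp (δ : ℝ) (p : V × ℕ → ℝ) (k : ℕ) : V → ℝ :=
  fun v => √δ * ∑ j ∈ range k, p (v, j)

/-- normalised observed increments -/
noncomputable def obs (δ : ℝ) (A : Finset V) (z : V × ℕ → ℝ) : V × ℕ → ℝ :=
  fun i => z i + √δ * sp A i.1

/-- expectation under the true law of (spins, observed increments) -/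
noncomputable def EE (Λ : Finset V) (μ : Finset V → ℝ) (δ : ℝ)
    (Φ : Finset V → (V × ℕ → ℝ) → ℝ) : ℝ :=
  ∑ A ∈ Λ.powerset, μ A * ∫ z, Φ A (obs δ A z) ∂gam (V × ℕ)

/-- expectation under the true law of the field at time `τ` -/
noncomputable def Sharp (Λ : Finset V) (μ : Finset V → ℝ) (τ : ℝ) (f : (V → ℝ) → ℝ) : ℝ :=
  ∑ A ∈ Λ.powerset, μ A * ∫ g, f (fun v => τ * sp A v + √τ * g v) ∂gam V

/-- innovations -/
noncomputable def inn (Λ : Finset V) (μ : Finset V → ℝ) (δ : ℝ) (p : V × ℕ → ℝ) : V × ℕ → ℝ :=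
  fun i => p i - √δ * mg Λ μ (Yp δ p i.2) i.1

/-- the Euler scheme -/
noncomputable def eul (Λ : Finset V) (μ : Finset V → ℝ) (δ : ℝ) (z : V × ℕ → ℝ) : ℕ → V → ℝ
  | 0 => fun _ => 0
  | k + 1 => fun v => eul Λ μ δ z k v + δ * mg Λ μ (eul Λ μ δ z k) v + √δ * z (v, k)

/-- linear response to a perturbation of the increment `(u, s)`, along the path `Y` -/
noncomputable def xi (Λ : Finset V) (μ : Finset V → ℝ) (δ : ℝ) (Y : ℕ → V → ℝ) (u : V) (s : ℕ) :
    ℕ → V → ℝ
  | 0 => fun v => if v = u then 1 else 0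
  | t + 1 => fun v => xi Λ μ δ Y u s t v +
      δ * ∑ w ∈ Λ, cv Λ μ (Y (s + 1 + t)) v w * xi Λ μ δ Y u s t w

/-- replace the increments at time `k` -/
def upd (p : V × ℕ → ℝ) (k : ℕ) (h : V → ℝ) : V × ℕ → ℝ := fun i => if i.2 = k then h i.1 else p i

/-- coordinates in `Λ` before time `k` -/
def past (Λ : Finset V) (k : ℕ) : Set (V × ℕ) := {i | i.1 ∈ Λ ∧ i.2 < k}

/-- path sum over jump histories (a jump is `(time, new vertex, old vertex)`) -/
noncomputable def PSL (Λ : Finset V) (c : ℝ) (s : ℕ) (nrm : List (ℕ × V × V) → ℝ) (a : V → ℝ) :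
    ℕ → V → List (ℕ × V × V) → ℝ
  | 0, v, l => a v * nrm l
  | t + 1, v, l => PSL Λ c s nrm a t v l + c * ∑ w ∈ Λ, PSL Λ c s nrm a t w ((s + 1 + t, w, v) :: l)

/-- time slice of the step `t` when a slice has `D` steps (slice `0` has `2 D` steps) -/
def sl (D t : ℕ) : ℕ := t / D - 1

/-- number of jumps of `l` in the slice `j` -/
def cnt (D : ℕ) (l : List (ℕ × V × V)) (j : ℕ) : ℕ := l.countP (fun x => sl D x.1 = j)

variable {Λ : Finset V} {μ : Finset V → ℝ}

theorem abs_sp (A : Finset V) (v : V) : |sp A v| = 1 := by unfold sp; split_ifs <;> simp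

theorem sp_sq (A : Finset V) (v : V) : sp A v ^ 2 = 1 := by unfold sp; split_ifs <;> simp

theorem Prior.wt_pos (h : Prior Λ μ) (y : V → ℝ) (A : Finset V) : 0 < wt Λ μ y A :=
  mul_pos (h.pos A) (Real.exp_pos _)

theorem Prior.Z_pos (h : Prior Λ μ) (y : V → ℝ) : 0 < ∑ A ∈ Λ.powerset, wt Λ μ y A :=
  sum_pos (fun A _ => h.wt_pos y A) ⟨∅, empty_mem_powerset _⟩

theorem Ex_add (y : V → ℝ) (ψ φ : Finset V → ℝ) :
    Ex Λ μ y (fun A => ψ A + φ A) = Ex Λ μ y ψ + Ex Λ μ y φ := by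
  simp only [Ex, mul_add, sum_add_distrib, add_div]

theorem Ex_sub (y : V → ℝ) (ψ φ : Finset V → ℝ) :
    Ex Λ μ y (fun A => ψ A - φ A) = Ex Λ μ y ψ - Ex Λ μ y φ := by
  simp only [Ex, mul_sub, sum_sub_distrib, sub_div]

theorem Ex_mul (y : V → ℝ) (c : ℝ) (ψ : Finset V → ℝ) :
    Ex Λ μ y (fun A => c * ψ A) = c * Ex Λ μ y ψ := by
  simp only [Ex, mul_left_comm _ c, ← mul_sum, mul_div_assoc]

theorem Ex_sum {ι : Type*} (s : Finset ι) (y : V → ℝ) (ψ : ι → Finset V → ℝ) :
    Ex Λ μ y (fun A => ∑ i ∈ s, ψ i A) = ∑ i ∈ s, Ex Λ μ y (ψ i) := by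
  simp only [Ex, mul_sum, ← sum_div]
  rw [sum_comm]

theorem Ex_congr (y : V → ℝ) {ψ φ : Finset V → ℝ} (h : ∀ A ⊆ Λ, ψ A = φ A) :
    Ex Λ μ y ψ = Ex Λ μ y φ := by
  unfold Ex
  rw [sum_congr rfl fun A hA => by rw [h A (mem_powerset.1 hA)]]

theorem Prior.Ex_const (h : Prior Λ μ) (y : V → ℝ) (c : ℝ) : Ex Λ μ y (fun _ => c) = c := by
  unfold Ex
  rw [← sum_mul, mul_div_cancel_left₀ _ (h.Z_pos y).ne']

theorem Prior.Ex_mono (h : Prior Λ μ) (y : V → ℝ) {ψ φ : Finset V → ℝ} (hle : ∀ A ⊆ Λ, ψ A ≤ φ A) :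
    Ex Λ μ y ψ ≤ Ex Λ μ y φ :=
  div_le_div_of_nonneg_right (sum_le_sum fun A hA =>
    mul_le_mul_of_nonneg_left (hle A (mem_powerset.1 hA)) (h.wt_pos y A).le) (h.Z_pos y).le

theorem Prior.abs_Ex_le (h : Prior Λ μ) (y : V → ℝ) {ψ : Finset V → ℝ} {c : ℝ}
    (hle : ∀ A ⊆ Λ, |ψ A| ≤ c) : |Ex Λ μ y ψ| ≤ c := by
  rw [abs_le]
  constructor
  · rw [← h.Ex_const y (-c)]; exact h.Ex_mono y fun A hA => (abs_le.1 (hle A hA)).1
  · conv_rhs => rw [← h.Ex_const y c]
    exact h.Ex_mono y fun A hA => (abs_le.1 (hle A hA)).2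

theorem Prior.abs_mg_le (h : Prior Λ μ) (y : V → ℝ) (v : V) : |mg Λ μ y v| ≤ 1 :=
  h.abs_Ex_le y fun A _ => (abs_sp A v).le

theorem Prior.abs_sub_mg_le (h : Prior Λ μ) (y : V → ℝ) (A : Finset V) (v : V) :
    |sp A v - mg Λ μ y v| ≤ 2 :=
  (abs_sub _ _).trans (by linarith [abs_sp A v, h.abs_mg_le y v])

theorem Prior.abs_cv_le (h : Prior Λ μ) (y : V → ℝ) (u v : V) : |cv Λ μ y u v| ≤ 4 :=
  h.abs_Ex_le y fun A _ => by
    rw [abs_mul]
    nlinarith [h.abs_sub_mg_le y A u, h.abs_sub_mg_le y A v, abs_nonneg (sp A u - mg Λ μ y u),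
      abs_nonneg (sp A v - mg Λ μ y v)]

theorem cv_comm (y : V → ℝ) (u v : V) : cv Λ μ y u v = cv Λ μ y v u := by
  simp only [cv, mul_comm]

theorem measurable_Ex {α : Type*} [MeasurableSpace α] {y : α → V → ℝ} (hy : Measurable y)
    {ψ : α → Finset V → ℝ} (hψ : ∀ A, Measurable fun a => ψ a A) :
    Measurable fun a => Ex Λ μ (y a) (ψ a) := by
  have : ∀ A, Measurable fun a => wt Λ μ (y a) A := fun A => by unfold wt; fun_prop
  unfold Ex
  fun_prop

theorem measurable_mg (v : V) : Measurable fun y => mg Λ μ y v :=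
  measurable_Ex measurable_id fun _ => measurable_const

theorem measurable_cv (u v : V) : Measurable fun y => cv Λ μ y u v :=
  measurable_Ex measurable_id fun _ =>
    (measurable_const.sub (measurable_mg u)).mul (measurable_const.sub (measurable_mg v))

theorem Prior.bm_mg (h : Prior Λ μ) (v : V) : BM fun y => mg Λ μ y v :=
  ⟨measurable_mg v, 1, fun y => h.abs_mg_le y v⟩

theorem Prior.bm_cv (h : Prior Λ μ) (u v : V) : BM fun y => cv Λ μ y u v :=
  ⟨measurable_cv u v, 4, fun y => h.abs_cv_le y u v⟩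

theorem Ex_dep {y y' : V → ℝ} (h : ∀ v ∈ Λ, y v = y' v) (ψ : Finset V → ℝ) :
    Ex Λ μ y ψ = Ex Λ μ y' ψ := by
  have : wt Λ μ y = wt Λ μ y' := by
    funext A; unfold wt; rw [sum_congr rfl fun v hv => by rw [h v hv]]
  unfold Ex; rw [this]

theorem mg_dep {y y' : V → ℝ} (h : ∀ v ∈ Λ, y v = y' v) : mg Λ μ y = mg Λ μ y' := by
  funext v; exact Ex_dep h _

theorem cv_dep {y y' : V → ℝ} (h : ∀ v ∈ Λ, y v = y' v) : cv Λ μ y = cv Λ μ y' := by
  funext u v; unfold cv; rw [mg_dep h]; exact Ex_dep h _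

theorem measurable_Yp (δ : ℝ) (k : ℕ) : Measurable fun p : V × ℕ → ℝ => Yp δ p k := by
  unfold Yp; fun_prop

theorem measurable_obs (δ : ℝ) (A : Finset V) : Measurable (obs δ A) := by
  unfold obs; fun_prop

theorem measurable_inn (δ : ℝ) : Measurable (inn Λ μ δ) :=
  measurable_pi_lambda _ fun i => (measurable_pi_apply i).sub
    (((measurable_mg i.1).comp (measurable_Yp δ i.2)).const_mul _)

theorem measurable_eul (δ : ℝ) (k : ℕ) : Measurable fun z => eul Λ μ δ z k := by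
  induction k with
  | zero => exact measurable_const
  | succ k ih =>
    refine measurable_pi_lambda _ fun v => ?_
    exact (((measurable_pi_apply v).comp ih).add
      (((measurable_mg v).comp ih).const_mul _)).add ((measurable_pi_apply _).const_mul _)

theorem Yp_dep (δ : ℝ) {p p' : V × ℕ → ℝ} {k : ℕ} (h : ∀ i ∈ past Λ k, p i = p' i) {j : ℕ}
    (hj : j ≤ k) : ∀ v ∈ Λ, Yp δ p j v = Yp δ p' j v := fun v hv => by
  unfold Yp
  rw [sum_congr rfl fun i hi => h (v, i) ⟨hv, (mem_range.1 hi).trans_le hj⟩]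

theorem eul_inn {δ : ℝ} (hδ : 0 ≤ δ) (p : V × ℕ → ℝ) (k : ℕ) :
    eul Λ μ δ (inn Λ μ δ p) k = Yp δ p k := by
  induction k with
  | zero => funext v; simp [eul, Yp]
  | succ k ih =>
    funext v
    simp only [eul, ih, inn]
    rw [mul_sub, ← mul_assoc, Real.mul_self_sqrt hδ]
    simp only [Yp, sum_range_succ]
    ring

theorem Prior.EE_mono (h : Prior Λ μ) (δ : ℝ) {Φ Ψ : Finset V → (V × ℕ → ℝ) → ℝ}
    (hΦ : ∀ A, BM (Φ A)) (hΨ : ∀ A, BM (Ψ A)) (hle : ∀ A p, Φ A p ≤ Ψ A p) :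
    EE Λ μ δ Φ ≤ EE Λ μ δ Ψ :=
  sum_le_sum fun A _ => mul_le_mul_of_nonneg_left (integral_mono
    (((hΦ A).comp (measurable_obs δ A)).integrable _)
    (((hΨ A).comp (measurable_obs δ A)).integrable _) fun _ => hle _ _) (h.pos A).le

theorem EE_add (δ : ℝ) {Φ Ψ : Finset V → (V × ℕ → ℝ) → ℝ}
    (hΦ : ∀ A, BM (Φ A)) (hΨ : ∀ A, BM (Ψ A)) :
    EE Λ μ δ (fun A p => Φ A p + Ψ A p) = EE Λ μ δ Φ + EE Λ μ δ Ψ := by
  unfold EE
  rw [← sum_add_distrib]
  refine sum_congr rfl fun A _ => ?_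
  rw [integral_add (((hΦ A).comp (measurable_obs δ A)).integrable _)
    (((hΨ A).comp (measurable_obs δ A)).integrable _), mul_add]

theorem EE_mul (δ c : ℝ) (Φ : Finset V → (V × ℕ → ℝ) → ℝ) :
    EE Λ μ δ (fun A p => c * Φ A p) = c * EE Λ μ δ Φ := by
  simp only [EE, integral_const_mul, mul_sum, mul_left_comm c]

theorem Prior.EE_const (h : Prior Λ μ) (δ c : ℝ) : EE Λ μ δ (fun _ _ => c) = c := by
  simp only [EE, integral_const, probReal_univ, smul_eq_mul, one_mul, ← sum_mul, h.sum]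

theorem EE_sum {ι : Type*} (s : Finset ι) (δ : ℝ) {Φ : ι → Finset V → (V × ℕ → ℝ) → ℝ}
    (hΦ : ∀ i ∈ s, ∀ A, BM (Φ i A)) :
    EE Λ μ δ (fun A p => ∑ i ∈ s, Φ i A p) = ∑ i ∈ s, EE Λ μ δ (Φ i) := by
  unfold EE
  rw [sum_comm]
  refine sum_congr rfl fun A _ => ?_
  rw [integral_finsetSum _ fun i hi => ((hΦ i hi A).comp (measurable_obs δ A)).integrable _,
    mul_sum]

end Post

/-! ### Cavity recursion on an abstract rooted forest -/

/-- the message `artanh (θ tanh h)` -/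
noncomputable def Ath (θ h : ℝ) : ℝ :=
  Real.log ((1 + θ * Real.tanh h) / (1 - θ * Real.tanh h)) / 2

/-- the derivative of the message -/
noncomputable def gg (θ h : ℝ) : ℝ := θ * (1 - Real.tanh h ^ 2) / (1 - θ ^ 2 * Real.tanh h ^ 2)

structure Fo (V : Type*) where
  ch : V → Finset V
  Sub : V → Set V
  ht : V → ℕ
  self : ∀ x, x ∈ Sub x
  sub : ∀ x, ∀ z ∈ ch x, Sub z ⊆ Sub x
  nself : ∀ x, ∀ z ∈ ch x, x ∉ Sub z
  disj : ∀ x, ∀ z ∈ ch x, ∀ z' ∈ ch x, z ≠ z' → Disjoint (Sub z) (Sub z')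
  lt : ∀ x, ∀ z ∈ ch x, ht z < ht x

namespace Fo
variable {V : Type*} (F : Fo V)

/-- cavity field with edge signs `t` and external field `y` -/
noncomputable def H (θ : ℝ) (t y : V → ℝ) (x : V) : ℝ :=
  y x + ∑ z ∈ (F.ch x).attach, t z * Ath θ (H θ t y z)
termination_by F.ht x
decreasing_by exact F.lt _ _ z.2

theorem H_eq (θ : ℝ) (t y : V → ℝ) (x : V) :
    F.H θ t y x = y x + ∑ z ∈ F.ch x, t z * Ath θ (F.H θ t y z) := by
  rw [H, sum_attach (F.ch x) (fun z => t z * Ath θ (F.H θ t y z))]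

/-- sum over descendants of the squared products of `gg` along the path -/
noncomputable def L (θ : ℝ) (h : V → ℝ) (x : V) : ℝ :=
  1 + ∑ z ∈ (F.ch x).attach, gg θ (h z) ^ 2 * L θ h z
termination_by F.ht x
decreasing_by exact F.lt _ _ z.2

theorem L_eq (θ : ℝ) (h : V → ℝ) (x : V) :
    F.L θ h x = 1 + ∑ z ∈ F.ch x, gg θ (h z) ^ 2 * F.L θ h z := by
  rw [L, sum_attach (F.ch x) (fun z => gg θ (h z) ^ 2 * F.L θ h z)]

theorem ind {P : V → Prop} (h : ∀ x, (∀ z ∈ F.ch x, P z) → P x) (x : V) : P x := by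
  induction hx : F.ht x using Nat.strong_induction_on generalizing x with
  | _ n ih => exact h x fun z hz => ih _ (hx ▸ F.lt x z hz) z rfl

/-- the subtree of `x` contains a full `b`-ary tree of depth `D` -/
def Full (b : ℕ) : ℕ → V → Prop
  | 0, _ => True
  | D + 1, x => (F.ch x).card = b ∧ ∀ z ∈ F.ch x, Full b D z

/-- a descending path -/
def Chain (l : List V) : Prop := l.IsChain (fun x z => z ∈ F.ch x)

/-- the random cavity field: edge signs `tf (w (z, true))`, fields `a z + √τ w (z, false)` -/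
noncomputable def HH (θ : ℝ) (tf : ℝ → ℝ) (a : V → ℝ) (τ : ℝ) (w : V × Bool → ℝ) : V → ℝ :=
  F.H θ (fun z => tf (w (z, true))) (fun z => a z + √τ * w (z, false))

end Fo

/-- product of `gg` along a list -/
noncomputable def pg {V : Type*} (θ : ℝ) (h : V → ℝ) (l : List V) : ℝ :=
  (l.map fun x => gg θ (h x)).prod

theorem integral_mp {α β : Type*} [MeasurableSpace α] [MeasurableSpace β] {μ : Measure α}
    {ν : Measure β} {e : α → β} (he : MeasurePreserving e μ ν) {f : β → ℝ} (hf : Measurable f) :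
    ∫ x, f (e x) ∂μ = ∫ y, f y ∂ν := by
  rw [← he.map_eq, integral_map he.measurable.aemeasurable hf.aestronglyMeasurable]

/-- a random sign with mean `θ` -/
structure Sgn (θ : ℝ) (tf : ℝ → ℝ) : Prop where
  meas : Measurable tf
  pm : ∀ x, tf x = 1 ∨ tf x = -1
  law : (gaussianReal 0 1).real {x | tf x = 1} = (1 + θ) / 2

end Crest.Agent.R160
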