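import Crest.Agent.R160.Gauss

/-! Row 160, sub-task F1: crude path bound and the tail of `L`. -/

set_option autoImplicit false

namespace Crest.Agent.R160

open MeasureTheory ProbabilityTheory Finset

universe u

namespace Env1Aux

/-! ### Elementary facts -/

theorem measurable_tanh : Measurable Real.tanh := by
  have : Real.tanh = fun x => (Real.exp x - Real.exp (-x)) / (Real.exp x + Real.exp (-x)) :=
    funext Real.tanh_eq
  rw [this]; fun_prop

theorem measurable_Ath (θ : ℝ) : Measurable (Ath θ) := by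
  have := measurable_tanh
  unfold Ath; fun_prop

theorem measurable_gg (θ : ℝ) : Measurable (gg θ) := by
  have := measurable_tanh
  unfold gg; fun_prop

theorem gg_sq_le {θ : ℝ} (h2 : θ ^ 2 ≤ 1 / 2) (x : ℝ) :
    gg θ x ^ 2 ≤ θ ^ 2 * Real.exp (-Real.tanh x ^ 2) := by
  have h1 := Real.tanh_sq_lt_one x
  have h0 := sq_nonneg (Real.tanh x)
  unfold gg
  set T := Real.tanh x ^ 2
  have hd : 1 - T / 2 ≤ 1 - θ ^ 2 * T := by nlinarith
  have hd0 : 0 < 1 - T / 2 := by linarith
  have a1 : (1 - T) / (1 - θ ^ 2 * T) ≤ Real.exp (-T / 2) := by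
    refine le_trans ?_ (Real.add_one_le_exp (-T / 2))
    rw [div_le_iff₀ (by linarith)]
    nlinarith
  have a0 : 0 ≤ (1 - T) / (1 - θ ^ 2 * T) := div_nonneg (by linarith) (by linarith)
  rw [mul_div_assoc, mul_pow]
  refine mul_le_mul_of_nonneg_left ?_ (sq_nonneg θ)
  calc _ ≤ Real.exp (-T / 2) ^ 2 := pow_le_pow_left₀ a0 a1 2
    _ = _ := by rw [← Real.exp_nat_mul]; congr 1; push_cast; ring

theorem gg_sq_le' {θ : ℝ} (h2 : θ ^ 2 ≤ 1 / 2) (x : ℝ) : gg θ x ^ 2 ≤ θ ^ 2 :=
  (gg_sq_le h2 x).trans (mul_le_of_le_one_right (sq_nonneg θ)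
    (Real.exp_le_one_iff.2 (neg_nonpos.2 (sq_nonneg _))))

theorem bm_gg {θ : ℝ} (h2 : θ ^ 2 ≤ 1 / 2) : BM (gg θ) :=
  ⟨measurable_gg θ, 1, fun x => by
    have := gg_sq_le' h2 x
    exact (sq_le_one_iff_abs_le_one _).1 (by linarith)⟩

theorem tanh_low {η x : ℝ} (h0 : 0 ≤ η) (h1 : η ≤ 1) (hx : η ≤ |x|) :
    η ^ 2 / 4 ≤ Real.tanh x ^ 2 := by
  have key : ∀ y, η ≤ y → η / 2 ≤ Real.tanh y := fun y hy => by
    rw [Real.tanh_eq, le_div_iff₀ (by positivity)]
    have e1 : Real.exp y = Real.exp (2 * y) * Real.exp (-y) := by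
      rw [← Real.exp_add]; congr 1; ring
    have e2 := Real.add_one_le_exp (2 * y)
    have e3 := Real.exp_pos (-y)
    have e4 : 1 + η / 2 ≤ Real.exp (2 * y) * (1 - η / 2) := by nlinarith
    rw [e1]
    nlinarith
  have e : Real.tanh x ^ 2 = Real.tanh |x| ^ 2 := by
    rcases abs_choice x with h | h <;> rw [h]
    rw [Real.tanh_neg, neg_sq]
  rw [e]
  have := pow_le_pow_left₀ (by linarith) (key _ hx) 2
  linarith

theorem gauss_Ioo {a b : ℝ} (hab : a ≤ b) :
    (gaussianReal 0 1).real (Set.Ioo a b) ≤ 2 / 5 * (b - a) := by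
  have hpdf : ∀ x, gaussianPDF 0 1 x ≤ ENNReal.ofReal (2 / 5) := fun x => by
    refine ENNReal.ofReal_le_ofReal ?_
    unfold gaussianPDFReal
    have h1 : (5 / 2 : ℝ) ≤ √(2 * Real.pi * (1 : NNReal)) := by
      refine Real.le_sqrt_of_sq_le ?_
      have := Real.pi_gt_d2
      simp only [NNReal.coe_one]
      linarith
    have h2 : (√(2 * Real.pi * (1 : NNReal)))⁻¹ ≤ 2 / 5 := by
      rw [inv_le_comm₀ (by linarith) (by norm_num)]
      linarith
    refine (mul_le_of_le_one_right (by positivity) (Real.exp_le_one_iff.2 ?_)).trans h2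
    exact div_nonpos_of_nonpos_of_nonneg (neg_nonpos.2 (sq_nonneg _)) (by positivity)
  refine ENNReal.toReal_le_of_le_ofReal (by nlinarith) ?_
  rw [gaussianReal_apply 0 one_ne_zero]
  refine (lintegral_mono hpdf).trans ?_
  rw [setLIntegral_const, Real.volume_Ioo, ← ENNReal.ofReal_mul (by norm_num)]

/-- one-site bound -/
theorem site {τ η : ℝ} (hτ : 0 < τ) (h0 : 0 ≤ η) (h1 : η ≤ 1) (q : ℕ) (H : ℝ) :
    ∫ g, Real.exp (-Real.tanh (H + √τ * g) ^ 2) ^ q ∂gaussianReal 0 1 ≤
      Real.exp (-(q * η ^ 2 / 4)) + (1 - Real.exp (-(q * η ^ 2 / 4))) * (4 / 5 * η / √τ) := by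
  have hs : 0 < √τ := Real.sqrt_pos.2 hτ
  set e := Real.exp (-(q * η ^ 2 / 4)) with he
  have he1 : e ≤ 1 := Real.exp_le_one_iff.2 (neg_nonpos.2 (by positivity))
  set I := Set.Ioo ((-η - H) / √τ) ((η - H) / √τ) with hI
  have hIm : MeasurableSet I := measurableSet_Ioo
  have hle : ∀ g, Real.exp (-Real.tanh (H + √τ * g) ^ 2) ^ q ≤
      e + (1 - e) * I.indicator (fun _ => (1 : ℝ)) g := fun g => by
    by_cases hg : g ∈ I
    · rw [Set.indicator_of_mem hg]
      have : Real.exp (-Real.tanh (H + √τ * g) ^ 2) ^ q ≤ 1 :=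
        pow_le_one₀ (Real.exp_pos _).le (Real.exp_le_one_iff.2 (neg_nonpos.2 (sq_nonneg _)))
      linarith
    · rw [Set.indicator_of_notMem hg, mul_zero, add_zero, ← Real.exp_nat_mul]
      have : η ≤ |H + √τ * g| := by
        by_contra hc
        rw [not_le, abs_lt] at hc
        refine hg ⟨?_, ?_⟩
        · rw [div_lt_iff₀ hs]; linarith
        · rw [lt_div_iff₀ hs]; linarith
      have := mul_le_mul_of_nonneg_left (tanh_low h0 h1 this) (Nat.cast_nonneg (α := ℝ) q)
      exact Real.exp_le_exp.2 (by linarith)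
  have hi : Integrable (I.indicator fun _ => (1 : ℝ)) (gaussianReal 0 1) :=
    (integrable_const _).indicator hIm
  refine (integral_mono_of_nonneg (ae_of_all _ fun g => by positivity)
    ((integrable_const e).add (hi.const_mul _)) (ae_of_all _ hle)).trans ?_
  simp only [Pi.add_apply]
  rw [integral_add (integrable_const e) (hi.const_mul _), integral_const_mul,
    integral_indicator_const _ hIm]
  simp only [integral_const, probReal_univ, smul_eq_mul, one_mul, mul_one]
  refine add_le_add le_rfl (mul_le_mul_of_nonneg_left ?_ (by linarith))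
  refine (gauss_Ioo (by gcongr; linarith)).trans (le_of_eq ?_)
  field_simp
  ring

theorem site1 {τ : ℝ} (hτ : 0 < τ) {q : ℕ} (hq : 1 ≤ q) {M : ℝ} (hM : 34 * (1 / τ + q) ≤ M)
    (H : ℝ) : ∫ g, Real.exp (-Real.tanh (H + √τ * g) ^ 2) ^ q ∂gaussianReal 0 1 ≤
      Real.exp (-1 / M) ^ q := by
  have hs : 0 < √τ := Real.sqrt_pos.2 hτ
  have hq' : (1 : ℝ) ≤ q := by exact_mod_cast hq
  have hτ' : 0 < 1 / τ := by positivity
  have hM0 : 0 < M := by linarith
  set η := min √τ 1 / 2 with hη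
  have hη0 : 0 < η := by positivity
  have hη1 : η ≤ 1 := by linarith [min_le_right √τ 1]
  have hη2 : 4 / 5 * η / √τ ≤ 1 / 2 := by
    rw [div_le_iff₀ hs]; linarith [min_le_left √τ 1]
  have hη3 : 1 ≤ 4 * η ^ 2 * (1 / τ + 1) := by
    rcases min_choice √τ 1 with h | h
    · have : 4 * η ^ 2 = τ := by rw [hη, h, div_pow, Real.sq_sqrt hτ.le]; ring
      rw [this, mul_add, mul_one_div_cancel hτ.ne']; linarith
    · have : 4 * η ^ 2 = 1 := by rw [hη, h]; norm_num
      rw [this]; linarith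
  refine (site hτ hη0.le hη1 q H).trans ?_
  set u := (q : ℝ) * η ^ 2 / 4 with hu
  have hu0 : 0 < u := by positivity
  have e1 : Real.exp (-u) ≤ 1 / (1 + u) := by
    rw [Real.exp_neg, one_div]
    exact inv_anti₀ (by linarith) (by linarith [Real.add_one_le_exp u])
  have e2 : Real.exp (-u) ≤ 1 := Real.exp_le_one_iff.2 (by linarith)
  have e3 : (q : ℝ) / M ≤ u / (2 * (1 + u)) := by
    rw [div_le_div_iff₀ hM0 (by positivity)]
    have b1 : u * (34 * (1 / τ + q)) ≤ u * M := mul_le_mul_of_nonneg_left hM hu0.le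
    have b2 : (q : ℝ) ≤ 16 * u * (1 / τ + 1) := by
      have := mul_le_mul_of_nonneg_left hη3 (Nat.cast_nonneg (α := ℝ) q)
      rw [hu]; nlinarith
    have b3 : u * 1 ≤ u * q := mul_le_mul_of_nonneg_left hq' hu0.le
    have b4 : 0 ≤ u * (1 / τ) := by positivity
    nlinarith
  have e4 : u / (2 * (1 + u)) = 1 / 2 * (1 - 1 / (1 + u)) := by field_simp; ring
  rw [← Real.exp_nat_mul]
  have e5 := Real.add_one_le_exp ((q : ℝ) * (-1 / M))
  have e6 : (q : ℝ) * (-1 / M) = -(q / M) := by ring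
  have e7 := mul_le_mul_of_nonneg_left hη2 (sub_nonneg.2 e2)
  linarith

theorem site2 {τ : ℝ} (hτ : 0 < τ) {q : ℕ} (hq : 1 ≤ q) {M : ℝ} (h4 : 1 ≤ q * τ ^ 4)
    (hM : 1088 * q / Real.log (q + 1) ≤ M) (H : ℝ) :
    ∫ g, Real.exp (-Real.tanh (H + √τ * g) ^ 2) ^ q ∂gaussianReal 0 1 ≤ Real.exp (-1 / M) ^ q := by
  have hq' : (1 : ℝ) ≤ q := by exact_mod_cast hq
  have hL : 0 < Real.log (q + 1) := Real.log_pos (by linarith)
  rw [div_le_iff₀ hL] at hM
  have hM0 : 0 < M := by
    by_contra hc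
    nlinarith
  set s := √√√(q : ℝ) with hs
  have hs0 : 0 ≤ s := Real.sqrt_nonneg _
  have hs8 : s ^ 8 = q := by
    have : s ^ 8 = ((s ^ 2) ^ 2) ^ 2 := by ring
    rw [this, hs, Real.sq_sqrt (Real.sqrt_nonneg _), Real.sq_sqrt (Real.sqrt_nonneg _),
      Real.sq_sqrt (by linarith)]
  have hs1 : 1 ≤ s := by
    by_contra hc
    have := pow_lt_one₀ hs0 (not_le.1 hc) (by norm_num : 8 ≠ 0)
    linarith
  have hτs : 1 ≤ s ^ 2 * τ := by
    by_contra hc
    have := pow_lt_one₀ (by positivity) (not_le.1 hc) (by norm_num : 4 ≠ 0)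
    rw [mul_pow, ← pow_mul, show 2 * 4 = 8 from rfl, hs8] at this
    linarith
  by_cases h3 : s < 3
  · refine site1 hτ hq ?_ H
    have a1 : 1 / τ ≤ q := by
      rw [div_le_iff₀ hτ, ← hs8]
      have : s ^ 2 ≤ s ^ 8 := pow_le_pow_right₀ hs1 (by norm_num)
      nlinarith
    have a2 : Real.log (q + 1) ≤ 16 := by
      have b1 : s ^ 8 < 3 ^ 8 := pow_lt_pow_left₀ h3 hs0 (by norm_num)
      have b2 : q < 6561 := by
        rw [hs8] at b1
        exact_mod_cast b1.trans_eq (by norm_num : (3 : ℝ) ^ 8 = (6561 : ℕ))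
      have b3 : (q : ℝ) + 1 ≤ 3 ^ 8 := by
        have : q + 1 ≤ 6561 := b2
        exact_mod_cast this
      calc Real.log (q + 1) ≤ Real.log (3 ^ 8) := Real.log_le_log (by linarith) b3
        _ = 8 * Real.log 3 := by rw [Real.log_pow]; norm_num
        _ ≤ 16 := by linarith [Real.log_le_sub_one_of_pos (by norm_num : (0 : ℝ) < 3)]
    nlinarith
  · rw [not_lt] at h3
    have hsp : 0 < s := by linarith
    have hη1 : 1 / s ^ 2 ≤ 1 := by rw [div_le_one (by positivity)]; nlinarith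
    refine (site hτ (by positivity) hη1 q H).trans ?_
    have hu : (q : ℝ) * (1 / s ^ 2) ^ 2 / 4 = s ^ 4 / 4 := by rw [← hs8]; field_simp
    rw [hu]
    have hsq : 1 / s ≤ √τ := by
      refine Real.le_sqrt_of_sq_le ?_
      rw [div_pow, div_le_iff₀ (by positivity)]; linarith
    have a1 : 4 / 5 * (1 / s ^ 2) / √τ ≤ 4 / 5 * (1 / s) := by
      rw [div_le_iff₀ (Real.sqrt_pos.2 hτ)]
      have := mul_le_mul_of_nonneg_left hsq (show 0 ≤ 4 / 5 * (1 / s) by positivity)
      refine le_trans (le_of_eq ?_) this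
      field_simp
    have a2 : Real.exp (-(s ^ 4 / 4)) ≤ 1 / 5 * (1 / s) := by
      rw [Real.exp_neg, inv_le_comm₀ (Real.exp_pos _) (by positivity)]
      refine le_trans ?_ (Real.add_one_le_exp _)
      have : (3 : ℝ) ^ 3 ≤ s ^ 3 := pow_le_pow_left₀ (by norm_num) h3 3
      have e : (1 / 5 * (1 / s))⁻¹ = 5 * s := by field_simp
      rw [e]; nlinarith
    have a3 : 1 / s ≤ Real.exp (-1 / M) ^ q := by
      rw [← Real.exp_nat_mul, ← Real.exp_log (show 0 < 1 / s by positivity), Real.exp_le_exp,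
        one_div, Real.log_inv]
      have b1 : Real.log (q + 1) ≤ 16 * Real.log s := by
        have : (q : ℝ) + 1 ≤ s ^ 16 := by
          have e : s ^ 16 = q * q := by rw [← hs8]; ring
          have : (3 : ℝ) ^ 8 ≤ q := hs8 ▸ pow_le_pow_left₀ (by norm_num) h3 8
          rw [e]; nlinarith
        calc _ ≤ Real.log (s ^ 16) := Real.log_le_log (by linarith) this
          _ = _ := by rw [Real.log_pow]; norm_num
      have b2 : (q : ℝ) * (-1 / M) = -(q / M) := by ring
      rw [b2, neg_le_neg_iff, div_le_iff₀ hM0]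
      nlinarith
    have a4 : 0 ≤ 4 / 5 * (1 / s ^ 2) / √τ := by positivity
    have a5 := Real.exp_pos (-(s ^ 4 / 4))
    nlinarith

/-! ### Structure of the cavity field -/

section Struct
variable {V : Type u} (F : Fo V) {θ : ℝ} {tf : ℝ → ℝ} (a : V → ℝ) (τ : ℝ)

theorem HH_eq (w : V × Bool → ℝ) (x : V) : F.HH θ tf a τ w x = a x + √τ * w (x, false) +
    ∑ z ∈ F.ch x, tf (w (z, true)) * Ath θ (F.HH θ tf a τ w z) := F.H_eq _ _ _ _

theorem measurable_HH (htf : Measurable tf) (x : V) : Measurable fun w => F.HH θ tf a τ w x := by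
  induction x using F.ind with
  | h x ih =>
    simp only [HH_eq F a τ _ x]
    refine Measurable.add (by fun_prop) (Finset.measurable_sum _ fun z hz => ?_)
    exact (htf.comp (measurable_pi_apply _)).mul ((measurable_Ath θ).comp (ih z hz))

theorem HH_dep {w w' : V × Bool → ℝ} (x : V) (h : ∀ i : V × Bool, i.1 ∈ F.Sub x → w i = w' i) :
    F.HH θ tf a τ w x = F.HH θ tf a τ w' x := by
  induction x using F.ind with
  | h x ih =>
    rw [HH_eq F a τ _ x, HH_eq F a τ _ x, h (x, false) (F.self x)]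
    congr 1
    refine sum_congr rfl fun z hz => ?_
    rw [h (z, true) (F.sub x z hz (F.self z)), ih z hz fun i hi => h i (F.sub x z hz hi)]

theorem L_dep {w w' : V × Bool → ℝ} (x : V) (h : ∀ i : V × Bool, i.1 ∈ F.Sub x → w i = w' i) :
    F.L θ (F.HH θ tf a τ w) x = F.L θ (F.HH θ tf a τ w') x := by
  induction x using F.ind with
  | h x ih =>
    rw [F.L_eq, F.L_eq θ _ x]
    congr 1
    refine sum_congr rfl fun z hz => ?_
    rw [HH_dep F a τ z fun i hi => h i (F.sub x z hz hi), ih z hz fun i hi => h i (F.sub x z hz hi)]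

theorem bm_ggH (h2 : θ ^ 2 ≤ 1 / 2) (htf : Measurable tf) (x : V) :
    BM fun w => gg θ (F.HH θ tf a τ w x) := (bm_gg h2).comp (measurable_HH F a τ htf x)

theorem bm_L (h2 : θ ^ 2 ≤ 1 / 2) (htf : Measurable tf) (x : V) :
    BM fun w => F.L θ (F.HH θ tf a τ w) x := by
  induction x using F.ind with
  | h x ih =>
    simp only [F.L_eq θ _ x]
    exact (BM.const 1).add (BM.sum _ fun z hz => ((bm_ggH F a τ h2 htf z).pow 2).mul (ih z hz))

theorem bm_pg (h2 : θ ^ 2 ≤ 1 / 2) (htf : Measurable tf) (l : List V) :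
    BM fun w => pg θ (F.HH θ tf a τ w) l := by
  induction l with
  | nil => simpa [pg] using BM.const 1
  | cons x l ih =>
    simp only [pg, List.map_cons, List.prod_cons] at ih ⊢
    exact (bm_ggH F a τ h2 htf x).mul ih

theorem L_nonneg (h : V → ℝ) (x : V) : 0 ≤ F.L θ h x := by
  induction x using F.ind with
  | h x ih =>
    rw [F.L_eq]
    exact add_nonneg zero_le_one (sum_nonneg fun z hz => mul_nonneg (sq_nonneg _) (ih z hz))

theorem chain_sub {x : V} {l : List V} (h : F.Chain (x :: l)) :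
    ∀ y ∈ l, ∃ z ∈ F.ch x, F.Sub y ⊆ F.Sub z := by
  induction l generalizing x with
  | nil => simp
  | cons z l ih =>
    obtain ⟨h1, h2⟩ := List.isChain_cons_cons.1 h
    intro y hy
    rcases List.mem_cons.1 hy with rfl | hy
    · exact ⟨y, h1, subset_rfl⟩
    · obtain ⟨z', hz', hs⟩ := ih h2 y hy
      exact ⟨z, h1, hs.trans (F.sub z z' hz')⟩

theorem peel (h2 : θ ^ 2 ≤ 1 / 2) (htf : Measurable tf) (q : ℕ) {κ : ℝ} (hκ : 0 ≤ κ)
    (hs : ∀ H : ℝ, ∫ g, Real.exp (-Real.tanh (H + √τ * g) ^ 2) ^ q ∂gaussianReal 0 1 ≤ κ ^ q)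
    (l : List V) (hl : F.Chain l) :
    ∫ w, pg θ (F.HH θ tf a τ w) l ^ (2 * q) ∂gam _ ≤ (θ ^ 2 * κ) ^ (q * l.length) := by
  classical
  induction l with
  | nil => simp [pg]
  | cons x l ih =>
    have ih' := ih (List.IsChain.tail hl)
    have hB := (bm_pg F a τ h2 htf (x :: l)).pow (2 * q)
    have hB' := (bm_pg F a τ h2 htf l).pow (2 * q)
    rw [integral_merge (fun i : V × Bool => ¬ i = (x, false)) hB, List.length_cons, mul_add,
      mul_one, pow_add]
    refine le_trans ?_ (mul_le_mul_of_nonneg_right ih' (by positivity))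
    rw [← integral_mul_const]
    refine integral_mono (BM.integral_right
      (hB.comp (gam_merge (fun i : V × Bool => ¬ i = (x, false))).measurable) _ |>.integrable _)
      ((hB'.integrable _).mul_const _) fun w => ?_
    have hy : ∀ (w' : V × Bool → ℝ) (y : V), x ∉ F.Sub y →
        F.HH θ tf a τ (fun j => if ¬ j = (x, false) then w j else w' j) y = F.HH θ tf a τ w y :=
      fun w' y hxy => HH_dep F a τ y fun i hi => if_pos fun h => hxy (by rw [h] at hi; exact hi)
    have e : ∀ w' : V × Bool → ℝ,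
        pg θ (F.HH θ tf a τ fun j => if ¬ j = (x, false) then w j else w' j) (x :: l) =
        pg θ (F.HH θ tf a τ w) l * gg θ ((a x + ∑ z ∈ F.ch x, tf (w (z, true)) *
          Ath θ (F.HH θ tf a τ w z)) + √τ * w' (x, false)) := fun w' => by
      simp only [pg, List.map_cons, List.prod_cons]
      rw [mul_comm]
      congr 1
      · congr 1
        refine List.map_congr_left fun y hy' => ?_
        obtain ⟨z, hz, hs⟩ := chain_sub F hl y hy'
        rw [hy w' y fun h => F.nself x z hz (hs h)]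
      · rw [HH_eq F a τ _ x, sum_congr rfl fun z hz => by rw [hy w' z (F.nself x z hz)]]
        simp only [not_true, if_false, Prod.mk.injEq, Bool.true_eq_false, and_false,
          not_false_eq_true, if_true]
        ring_nf
    simp only [e]
    set H := a x + ∑ z ∈ F.ch x, tf (w (z, true)) * Ath θ (F.HH θ tf a τ w z)
    simp only [mul_pow (pg θ _ l)]
    rw [integral_const_mul]
    refine mul_le_mul_of_nonneg_left ?_ (by rw [pow_mul]; positivity)
    have hm : Measurable fun g => gg θ (H + √τ * g) ^ (2 * q) :=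
      ((measurable_gg θ).comp (by fun_prop)).pow_const _
    rw [integral_mp (gam_eval (x, false)) hm, mul_pow]
    refine le_trans ?_ (mul_le_mul_of_nonneg_left (hs H) (by positivity))
    rw [← integral_const_mul]
    have hE : BM fun g => Real.exp (-Real.tanh (H + √τ * g) ^ 2) := by
      have := measurable_tanh
      refine ⟨by fun_prop, 1, fun g => ?_⟩
      rw [abs_of_pos (Real.exp_pos _)]
      exact Real.exp_le_one_iff.2 (neg_nonpos.2 (sq_nonneg _))
    refine integral_mono_of_nonneg (ae_of_all _ fun g => (even_two_mul q).pow_nonneg _)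
      (((hE.pow q).integrable _).const_mul _) (ae_of_all _ fun g => ?_)
    simp only
    rw [pow_mul, ← mul_pow]
    exact pow_le_pow_left₀ (sq_nonneg _) (gg_sq_le h2 _) q

end Struct

/-! ### Minkowski, independence, exponential moments -/

section Gen
variable {α : Type*} [MeasurableSpace α] {ν : Measure α} [IsProbabilityMeasure ν]

theorem mink {X Y : α → ℝ} (hX : BM X) (hY : BM Y) (hX0 : ∀ w, 0 ≤ X w) (hY0 : ∀ w, 0 ≤ Y w)
    {q : ℕ} {a b : ℝ} (ha : 0 < a) (hb : 0 < b) (h1 : ∫ w, X w ^ q ∂ν ≤ a ^ q)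
    (h2 : ∫ w, Y w ^ q ∂ν ≤ b ^ q) : ∫ w, (X w + Y w) ^ q ∂ν ≤ (a + b) ^ q := by
  have hab : 0 < a + b := add_pos ha hb
  have hle : ∀ w, (X w + Y w) ^ q ≤ (a + b) ^ q * (a / (a + b) / a ^ q) * X w ^ q +
      (a + b) ^ q * (b / (a + b) / b ^ q) * Y w ^ q := fun w => by
    have := (convexOn_pow q).2 (Set.mem_Ici.2 (div_nonneg (hX0 w) ha.le))
      (Set.mem_Ici.2 (div_nonneg (hY0 w) hb.le)) (div_pos ha hab).le (div_pos hb hab).le
      (by field_simp)
    simp only [smul_eq_mul] at this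
    have e : a / (a + b) * (X w / a) + b / (a + b) * (Y w / b) = (X w + Y w) / (a + b) := by
      field_simp
    rw [e, div_pow, div_le_iff₀ (pow_pos hab q), div_pow, div_pow] at this
    refine this.trans (le_of_eq ?_)
    ring
  refine (integral_mono (((hX.add hY).pow q).integrable _) ((((hX.pow q).integrable ν).const_mul
    _).fun_add (((hY.pow q).integrable ν).const_mul _)) hle).trans ?_
  rw [integral_add (((hX.pow q).integrable ν).const_mul _) (((hY.pow q).integrable ν).const_mul _),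
    integral_const_mul, integral_const_mul]
  refine (add_le_add (mul_le_mul_of_nonneg_left h1 (by positivity))
    (mul_le_mul_of_nonneg_left h2 (by positivity))).trans (le_of_eq ?_)
  field_simp

theorem mink_sum {ι : Type*} (s : Finset ι) {X : α → ℝ} {Y : ι → α → ℝ} (hX : BM X)
    (hY : ∀ i ∈ s, BM (Y i)) (hX0 : ∀ w, 0 ≤ X w) (hY0 : ∀ i ∈ s, ∀ w, 0 ≤ Y i w)
    {q : ℕ} {a b : ℝ} (ha : 0 < a) (hb : 0 < b) (h1 : ∫ w, X w ^ q ∂ν ≤ a ^ q)
    (h2 : ∀ i ∈ s, ∫ w, Y i w ^ q ∂ν ≤ b ^ q) :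
    ∫ w, (X w + ∑ i ∈ s, Y i w) ^ q ∂ν ≤ (a + #s * b) ^ q := by
  classical
  induction s using Finset.induction_on with
  | empty => simpa using h1
  | insert i s hi ih =>
    have hs : ∀ j ∈ s, j ∈ insert i s := fun j hj => mem_insert_of_mem hj
    have := mink (hX.add (BM.sum s fun j hj => hY j (hs j hj))) (hY i (mem_insert_self _ _))
      (fun w => add_nonneg (hX0 w) (sum_nonneg fun j hj => hY0 j (hs j hj) w))
      (hY0 i (mem_insert_self _ _)) (by positivity) hb
      (ih (fun j hj => hY j (hs j hj)) (fun j hj => hY0 j (hs j hj)) fun j hj => h2 j (hs j hj))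
      (h2 i (mem_insert_self _ _))
    simp only [sum_insert hi, card_insert_of_notMem hi]
    have e1 : ∀ w, X w + (Y i w + ∑ i ∈ s, Y i w) = X w + ∑ i ∈ s, Y i w + Y i w :=
      fun w => by ring
    have e2 : a + ((#s + 1 : ℕ) : ℝ) * b = a + #s * b + b := by push_cast; ring
    simpa only [e1, e2] using this

theorem exp_mom {X : α → ℝ} (hX : BM X) (hX0 : ∀ w, 0 ≤ X w) {A B : ℝ} (hA : 0 ≤ A) (hB : 0 ≤ B)
    (h : ∀ q : ℕ, 1 ≤ q → ∫ w, X w ^ q ∂ν ≤ (A + B * q) ^ q) {s : ℝ} (hs : 0 ≤ s)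
    (hs1 : 12 * B * s ≤ 1) : ∫ w, Real.exp (s * X w) ∂ν ≤ Real.exp (s * (2 * A + 12 * B)) := by
  set r := 6 * B * s with hr
  have hr0 : 0 ≤ r := by positivity
  have hr1 : r ≤ 1 / 2 := by linarith
  have hu : HasSum (fun q : ℕ => (2 * A * s) ^ q / (q.factorial : ℝ) +
      (r ^ q - if q = 0 then 1 else 0)) (Real.exp (2 * A * s) + ((1 - r)⁻¹ - 1)) := by
    refine HasSum.add ?_ ((hasSum_geometric_of_lt_one hr0 (by linarith)).sub (hasSum_ite_eq 0 1))
    rw [Real.exp_eq_exp_ℝ]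
    exact NormedSpace.expSeries_div_hasSum_exp _
  have hi : ∀ q : ℕ, Integrable (fun w => (s * X w) ^ q / (q.factorial : ℝ)) ν := fun q =>
    ((((BM.const s).mul hX).pow q).integrable ν).div_const _
  have hle : ∀ q : ℕ, ∫ w, (s * X w) ^ q / (q.factorial : ℝ) ∂ν ≤
      (2 * A * s) ^ q / (q.factorial : ℝ) + (r ^ q - if q = 0 then 1 else 0) := fun q => by
    rcases Nat.eq_zero_or_pos q with rfl | hq
    · simp
    rw [if_neg hq.ne', sub_zero, integral_div]
    simp only [mul_pow s]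
    rw [integral_const_mul]
    have hf : (0 : ℝ) < q.factorial := by exact_mod_cast q.factorial_pos
    have a1 : (A + B * q) ^ q ≤ (2 * A) ^ q + (2 * B * q) ^ q := by
      rcases le_total A (B * q) with hc | hc
      · exact (pow_le_pow_left₀ (by positivity) (by linarith) q).trans
          (le_add_of_nonneg_left (by positivity))
      · exact (pow_le_pow_left₀ (by positivity) (by linarith) q).trans
          (le_add_of_nonneg_right (by positivity))
    have a2 : (q : ℝ) ^ q / q.factorial ≤ 3 ^ q := by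
      refine (Real.pow_div_factorial_le_exp _ (Nat.cast_nonneg q) q).trans ?_
      rw [← Real.exp_one_pow]
      exact pow_le_pow_left₀ (Real.exp_pos _).le (Real.exp_one_lt_d9.le.trans (by norm_num)) q
    calc s ^ q * (∫ w, X w ^ q ∂ν) / q.factorial
        ≤ s ^ q * ((2 * A) ^ q + (2 * B * q) ^ q) / q.factorial := by
          gcongr; exact (h q hq).trans a1
      _ = (2 * A * s) ^ q / q.factorial + (2 * B * s) ^ q * ((q : ℝ) ^ q / q.factorial) := by
          simp only [mul_pow]; ring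
      _ ≤ (2 * A * s) ^ q / q.factorial + (2 * B * s) ^ q * 3 ^ q := by gcongr
      _ = _ := by rw [← mul_pow, hr]; congr 2; ring
  have hnn : ∀ (q : ℕ) w, 0 ≤ (s * X w) ^ q / (q.factorial : ℝ) := fun q w => by
    have := hX0 w; positivity
  have hsum := hasSum_integral_of_summable_integral_norm hi (by
    simp only [Real.norm_eq_abs, fun q w => abs_of_nonneg (hnn q w)]
    exact hu.summable.of_nonneg_of_le (fun q => integral_nonneg (hnn q)) hle)
  have e : ∀ w, ∑' q : ℕ, (s * X w) ^ q / (q.factorial : ℝ) = Real.exp (s * X w) := fun w => by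
    rw [Real.exp_eq_exp_ℝ]
    exact (NormedSpace.expSeries_div_hasSum_exp _).tsum_eq
  simp only [e] at hsum
  refine (hasSum_le hle hsum hu).trans ?_
  have b1 : (1 - r)⁻¹ - 1 ≤ 2 * r := by
    rw [sub_le_iff_le_add, inv_le_iff_one_le_mul₀ (by linarith)]
    nlinarith
  have b2 : 1 ≤ Real.exp (2 * A * s) := Real.one_le_exp (by positivity)
  have b3 := Real.add_one_le_exp (2 * r)
  have b4 : s * (2 * A + 12 * B) = 2 * A * s + 2 * r := by rw [hr]; ring
  rw [b4, Real.exp_add]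
  nlinarith

theorem bm_exp {X : α → ℝ} (hX : BM X) : BM fun w => Real.exp (X w) := by
  obtain ⟨h1, C, h2⟩ := hX
  exact ⟨h1.exp, Real.exp C, fun w => by
    rw [abs_of_pos (Real.exp_pos _)]
    exact Real.exp_le_exp.2 ((le_abs_self _).trans (h2 w))⟩

theorem integral_prod_dep {J ι : Type*} (s : Finset ι) (D : ι → Set J) {f : ι → (J → ℝ) → ℝ}
    (hf : ∀ i ∈ s, BM (f i)) (hd : ∀ i ∈ s, DependsOn (f i) (D i))
    (hD : ∀ i ∈ s, ∀ j ∈ s, i ≠ j → Disjoint (D i) (D j)) :
    ∫ w, ∏ i ∈ s, f i w ∂gam J = ∏ i ∈ s, ∫ w, f i w ∂gam J := by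
  classical
  induction s using Finset.induction_on with
  | empty => simp
  | insert i s hi ih =>
    have hs : ∀ j ∈ s, j ∈ insert i s := fun j hj => mem_insert_of_mem hj
    rw [integral_merge (· ∈ D i) (BM.prod _ hf), prod_insert hi, ← ih (fun j hj => hf j (hs j hj))
      (fun j hj => hd j (hs j hj)) fun j hj k hk => hD j (hs j hj) k (hs k hk),
      ← integral_mul_const]
    refine integral_congr_ae (ae_of_all _ fun w => ?_)
    simp only
    rw [← integral_const_mul]
    refine integral_congr_ae (ae_of_all _ fun w' => ?_)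
    simp only [prod_insert hi]
    congr 1
    · exact hd i (mem_insert_self _ _) fun j hj => if_pos hj
    · refine prod_congr rfl fun k hk => hd k (hs k hk) fun j hj => if_neg fun h => ?_
      exact Set.disjoint_left.1 (hD i (mem_insert_self _ _) k (hs k hk) (by rintro rfl; exact hi hk))
        h hj

end Gen

section Tail
variable {V : Type u} (F : Fo V) {θ : ℝ} {tf : ℝ → ℝ} (a : V → ℝ) (τ : ℝ)

theorem mink_tree (h2 : θ ^ 2 ≤ 1 / 2) (htf : Measurable tf) {c : V} {b : ℕ} (hb0 : 0 < b)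
    (hb : ∀ x, x ≠ c → (F.ch x).card ≤ b) (hc : ∀ x, c ∉ F.ch x) {q : ℕ} {E ρ : ℝ} (hE : 0 < E)
    (hρ0 : 0 < ρ) (hρ1 : ρ < 1)
    (h : ∀ l, F.Chain l → c ∉ l → ∫ w, pg θ (F.HH θ tf a τ w) l ^ (2 * q) ∂gam _ ≤
      (E * (1 / b * ρ) ^ l.length) ^ q) (x : V) : x ≠ c → ∀ l, F.Chain l → c ∉ l →
    (∀ z ∈ F.ch x, F.Chain (l ++ [z])) →
    ∫ w, (pg θ (F.HH θ tf a τ w) l ^ 2 * F.L θ (F.HH θ tf a τ w) x) ^ q ∂gam _ ≤
      (E * (1 / b * ρ) ^ l.length / (1 - ρ)) ^ q := by
  induction x using F.ind with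
  | h x ih =>
    intro hx l hl hcl hz
    have hb' : (0 : ℝ) < b := by exact_mod_cast hb0
    have h1ρ : 0 < 1 - ρ := by linarith
    have e : ∀ w, pg θ (F.HH θ tf a τ w) l ^ 2 * F.L θ (F.HH θ tf a τ w) x =
        pg θ (F.HH θ tf a τ w) l ^ 2 + ∑ z ∈ F.ch x,
          pg θ (F.HH θ tf a τ w) (l ++ [z]) ^ 2 * F.L θ (F.HH θ tf a τ w) z := fun w => by
      rw [F.L_eq, mul_add, mul_one, mul_sum]
      congr 1
      refine sum_congr rfl fun z _ => ?_
      simp only [pg, List.map_append, List.prod_append, List.map_cons, List.map_nil,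
        List.prod_cons, List.prod_nil]
      ring
    simp only [e]
    refine (mink_sum (F.ch x) ((bm_pg F a τ h2 htf l).pow 2)
      (fun z _ => ((bm_pg F a τ h2 htf _).pow 2).mul (bm_L F a τ h2 htf z))
      (fun w => sq_nonneg _) (fun z _ w => mul_nonneg (sq_nonneg _) (L_nonneg F _ z))
      (a := E * (1 / b * ρ) ^ l.length) (b := E * (1 / b * ρ) ^ (l.length + 1) / (1 - ρ))
      (by positivity) (by positivity) (by simpa only [← pow_mul] using h l hl hcl)
      fun z hzx => ?_).trans (pow_le_pow_left₀ (by positivity) ?_ q)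
    · have hzc : z ≠ c := fun h => hc x (h ▸ hzx)
      have := ih z hzx hzc (l ++ [z]) (hz z hzx) (by simp [hcl, hzc.symm]) fun z' hz' => by
        rw [List.append_assoc]
        exact List.isChain_append_cons_cons.2 ⟨hz z hzx, hz', List.isChain_singleton _⟩
      simpa only [List.length_append, List.length_singleton] using this
    · have hcard : ((F.ch x).card : ℝ) ≤ b := by exact_mod_cast hb x hx
      refine (add_le_add le_rfl (mul_le_mul_of_nonneg_right hcard (by positivity))).trans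
        (le_of_eq ?_)
      rw [pow_succ]
      field_simp
      ring

theorem exp_step (htf : Measurable tf) {b : ℕ} (hb : 2 ≤ b) (hθ : b * θ ^ 2 ≤ 1) (x : V)
    {s K : ℝ} (hs : 0 ≤ s) (hK : 0 ≤ K) {n : ℝ} (hn : ((F.ch x).card : ℝ) ≤ n * b)
    (h : ∀ z ∈ F.ch x, ∫ w, Real.exp (s / b * F.L θ (F.HH θ tf a τ w) z) ∂gam _ ≤
      Real.exp (s / b * K)) :
    ∫ w, Real.exp (s * F.L θ (F.HH θ tf a τ w) x) ∂gam _ ≤ Real.exp (s * (1 + n * K)) := by
  have hb' : (2 : ℝ) ≤ b := by exact_mod_cast hb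
  have h2 : θ ^ 2 ≤ 1 / 2 := by nlinarith [sq_nonneg θ]
  have hθ' : θ ^ 2 ≤ 1 / b := by rw [le_div_iff₀ (by linarith)]; linarith
  have hB : ∀ z, BM fun w => Real.exp (s / b * F.L θ (F.HH θ tf a τ w) z) := fun z =>
    bm_exp ((BM.const _).mul (bm_L F a τ h2 htf z))
  have hle : ∀ w, Real.exp (s * F.L θ (F.HH θ tf a τ w) x) ≤
      Real.exp s * ∏ z ∈ F.ch x, Real.exp (s / b * F.L θ (F.HH θ tf a τ w) z) := fun w => by
    rw [← Real.exp_sum, ← Real.exp_add, Real.exp_le_exp, F.L_eq, mul_add, mul_one, mul_sum]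
    refine add_le_add le_rfl (sum_le_sum fun z _ => ?_)
    rw [← mul_assoc, div_eq_mul_one_div s]
    exact mul_le_mul_of_nonneg_right (mul_le_mul_of_nonneg_left ((gg_sq_le' h2 _).trans hθ') hs)
      (L_nonneg F _ z)
  refine (integral_mono ((bm_exp ((BM.const _).mul (bm_L F a τ h2 htf x))).integrable _)
    (((BM.prod _ fun z _ => hB z).integrable _).const_mul _) hle).trans ?_
  rw [integral_const_mul, integral_prod_dep (F.ch x) (fun z => {i | i.1 ∈ F.Sub z})
    (fun z _ => hB z) (fun z _ w w' hw => by simp only [L_dep F a τ z hw])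
    fun z hz z' hz' hne => Set.disjoint_left.2 fun i hi hi' =>
      Set.disjoint_left.1 (F.disj x z hz z' hz' hne) hi hi']
  refine (mul_le_mul_of_nonneg_left (prod_le_prod (fun z _ => integral_nonneg fun w =>
    (Real.exp_pos _).le) h) (Real.exp_pos _).le).trans ?_
  rw [prod_const, ← Real.exp_nat_mul, ← Real.exp_add, Real.exp_le_exp, mul_add, mul_one]
  refine add_le_add le_rfl ((mul_le_mul_of_nonneg_right hn (by positivity)).trans (le_of_eq ?_))
  field_simp

end Tail

end Env1Aux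

open Env1Aux

theorem crude : ∃ C : ℝ, 1 ≤ C ∧ ∀ (V : Type u) (F : Fo V) (θ : ℝ), 0 ≤ θ → θ ^ 2 ≤ 1 / 2 →
    ∀ tf : ℝ → ℝ, Measurable tf → ∀ (a : V → ℝ) (τ : ℝ), 0 < τ → ∀ q : ℕ, 1 ≤ q →
    ∀ l, F.Chain l → ∀ M : ℝ,
    (C * (1 / τ + q) ≤ M ∨ (1 ≤ q * τ ^ 4 ∧ C * q / Real.log (q + 1) ≤ M)) →
    ∫ w, pg θ (F.HH θ tf a τ w) l ^ (2 * q) ∂gam _ ≤
      (θ ^ 2 * Real.exp (-1 / M)) ^ (q * l.length) := by
  refine ⟨1088, by norm_num, fun V F θ _ h2 tf htf a τ hτ q hq l hl M hM => ?_⟩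
  refine peel F a τ h2 htf q (Real.exp_pos _).le (fun H => ?_) l hl
  rcases hM with hM | ⟨h4, hM⟩
  · refine site1 hτ hq (le_trans ?_ hM) H
    gcongr
    norm_num
  · exact site2 hτ hq h4 hM H

theorem ltail {C1 : ℝ} (hC1 : 1 ≤ C1) : ∃ C2 : ℝ, 1 ≤ C2 ∧ ∀ (V : Type u) (F : Fo V) (θ : ℝ)
    (b : ℕ), 2 ≤ b → 0 ≤ θ → b * θ ^ 2 ≤ 1 → ∀ tf : ℝ → ℝ, Measurable tf →
    ∀ (a : V → ℝ) (τ : ℝ) (c : V) (M0 : ℝ), 1 ≤ M0 → (F.ch c).card ≤ b + 1 →
    (∀ x, x ≠ c → (F.ch x).card ≤ b) → (∀ x, c ∉ F.ch x) →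
    (∀ q : ℕ, 1 ≤ q → ∀ l, F.Chain l → c ∉ l → ∫ w, pg θ (F.HH θ tf a τ w) l ^ (2 * q) ∂gam _ ≤
      (Real.exp 1 * (1 / b * Real.exp (-1 / (M0 + C1 * q))) ^ l.length) ^ q) →
    ∀ q : ℕ, 1 ≤ q → ∫ w, F.L θ (F.HH θ tf a τ w) c ^ q ∂gam _ ≤
      (C2 * (M0 + Real.log (q + 1))) ^ q := by
  refine ⟨27 + 72 * C1, by linarith, fun V F θ b hb _ hθ tf htf a τ c M0 hM0 hcc hcb hc h q hq => ?_⟩
  have hb' : (2 : ℝ) ≤ b := by exact_mod_cast hb
  have h2 : θ ^ 2 ≤ 1 / 2 := by nlinarith [sq_nonneg θ]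
  have mom : ∀ x, x ≠ c → ∀ q : ℕ, 1 ≤ q → ∫ w, F.L θ (F.HH θ tf a τ w) x ^ q ∂gam _ ≤
      (6 * M0 + 3 * C1 * q) ^ q := fun x hx q hq => by
    have hq' : (0 : ℝ) ≤ C1 * q := by positivity
    set M := M0 + C1 * q with hM
    have hMp : 0 < M := by linarith
    have hρ : Real.exp (-1 / M) ≤ M / (M + 1) := by
      rw [neg_div, Real.exp_neg, inv_le_comm₀ (Real.exp_pos _) (by positivity), inv_div]
      refine le_trans (le_of_eq ?_) (Real.add_one_le_exp _)
      field_simp
      ring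
    have hρ1 : M / (M + 1) < 1 := by rw [div_lt_one (by linarith)]; linarith
    have := mink_tree F a τ h2 htf (by omega) hcb hc (Real.exp_pos 1) (Real.exp_pos (-1 / M))
      (hρ.trans_lt hρ1) (h q hq) x hx [] List.isChain_nil List.not_mem_nil
      fun z _ => List.isChain_singleton z
    simp only [pg, List.map_nil, List.prod_nil, one_pow, one_mul, List.length_nil, pow_zero,
      mul_one] at this
    refine this.trans (pow_le_pow_left₀ (div_nonneg (Real.exp_pos _).le (by linarith)) ?_ q)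
    rw [div_le_iff₀ (by linarith)]
    have e1 : Real.exp 1 ≤ 3 := Real.exp_one_lt_d9.le.trans (by norm_num)
    have e2 : 1 / (M + 1) ≤ 1 - Real.exp (-1 / M) := by
      have : 1 / (M + 1) = 1 - M / (M + 1) := by field_simp; ring
      linarith
    have e3 : 3 * (M + 1) ≤ 6 * M0 + 3 * C1 * q := by linarith
    calc Real.exp 1 ≤ 3 * (M + 1) * (1 / (M + 1)) := by field_simp; linarith
      _ ≤ _ := mul_le_mul e3 e2 (by positivity) (by linarith)
  have expm : ∀ j : ℕ, ∀ x, x ≠ c → ∀ s, 0 ≤ s → 36 * C1 * s ≤ b ^ j →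
      ∫ w, Real.exp (s * F.L θ (F.HH θ tf a τ w) x) ∂gam _ ≤
        Real.exp (s * (12 * M0 + 36 * C1 + j)) := fun j => by
    induction j with
    | zero =>
      intro x hx s hs hs1
      have := exp_mom (bm_L F a τ h2 htf x) (fun w => L_nonneg F _ x) (A := 6 * M0) (B := 3 * C1)
        (by linarith) (by linarith) (mom x hx) hs (by rw [pow_zero] at hs1; linarith)
      refine this.trans (le_of_eq ?_)
      congr 1
      push_cast
      ring
    | succ j ih =>
      intro x hx s hs hs1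
      refine (exp_step F a τ htf hb hθ x hs (K := 12 * M0 + 36 * C1 + j) (by positivity) (n := 1)
        (by rw [one_mul]; exact_mod_cast hcb x hx) fun z hz => ih z (fun h => hc x (h ▸ hz)) _
          (by positivity) ?_).trans (le_of_eq ?_)
      · rw [← mul_div_assoc, div_le_iff₀ (by linarith), ← pow_succ]
        exact hs1
      · congr 1
        push_cast
        ring
  have hq' : (1 : ℝ) ≤ q := by exact_mod_cast hq
  have hL : 0 ≤ Real.log (q + 1) := Real.log_nonneg (by linarith)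
  set j := ⌈2 * Real.log (q + 1)⌉₊ with hj
  have hj1 : (j : ℝ) ≤ 2 * Real.log (q + 1) + 1 := (Nat.ceil_lt_add_one (by positivity)).le
  have hj2 : (q : ℝ) ≤ b ^ j := by
    have e1 : 2 * Real.log (q + 1) ≤ j := Nat.le_ceil _
    have e2 := Real.log_two_gt_d9
    calc (q : ℝ) ≤ Real.exp (Real.log (q + 1)) := by rw [Real.exp_log (by linarith)]; linarith
      _ ≤ Real.exp (j * Real.log 2) := Real.exp_le_exp.2 (by nlinarith)
      _ = 2 ^ j := by rw [Real.exp_nat_mul, Real.exp_log (by norm_num)]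
      _ ≤ b ^ j := pow_le_pow_left₀ (by norm_num) hb' j
  set K : ℝ := 1 + 2 * (12 * M0 + 36 * C1 + j) with hK
  have hj0 : (0 : ℝ) ≤ j := Nat.cast_nonneg _
  have hK1 : 36 * C1 ≤ K := by linarith
  have hK0 : 0 < K := by linarith
  have fin := exp_step F a τ htf hb hθ c (s := q / K) (by positivity)
    (K := 12 * M0 + 36 * C1 + j) (by positivity) (n := 2)
    (by have : ((F.ch c).card : ℝ) ≤ b + 1 := by exact_mod_cast hcc
        linarith) fun z hz => expm j z (fun h => hc c (h ▸ hz)) _ (by positivity) (by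
      refine le_trans ?_ hj2
      rw [← mul_div_assoc, ← mul_div_assoc, div_div, div_le_iff₀ (by positivity)]
      have : 36 * C1 ≤ K * b := by nlinarith
      nlinarith)
  rw [← hK, div_mul_cancel₀ _ hK0.ne'] at fin
  have hle : ∀ w, F.L θ (F.HH θ tf a τ w) c ^ q ≤
      K ^ q * Real.exp (-q) * Real.exp (q / K * F.L θ (F.HH θ tf a τ w) c) := fun w => by
    have h0 := L_nonneg F (θ := θ) (F.HH θ tf a τ w) c
    set y := F.L θ (F.HH θ tf a τ w) c
    have e1 : y ≤ K * Real.exp (y / K - 1) := by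
      have := mul_le_mul_of_nonneg_left (Real.add_one_le_exp (y / K - 1)) hK0.le
      rwa [sub_add_cancel, mul_div_cancel₀ _ hK0.ne'] at this
    refine (pow_le_pow_left₀ h0 e1 q).trans (le_of_eq ?_)
    rw [mul_pow, ← Real.exp_nat_mul, mul_assoc, ← Real.exp_add]
    congr 2
    ring
  refine (integral_mono (((bm_L F a τ h2 htf c).pow q).integrable _)
    (((bm_exp ((BM.const _).mul (bm_L F a τ h2 htf c))).integrable _).const_mul _) hle).trans ?_
  rw [integral_const_mul]
  refine (mul_le_mul_of_nonneg_left fin (by positivity)).trans ?_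
  rw [mul_assoc, ← Real.exp_add, neg_add_cancel, Real.exp_zero, mul_one]
  refine pow_le_pow_left₀ hK0.le ?_ q
  nlinarith [mul_nonneg (sub_nonneg.2 hC1) (sub_nonneg.2 hM0), mul_nonneg (sub_nonneg.2 hC1) hL]

end Crest.Agent.R160
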