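import Crest.Agent.R160.Env2C

/-! Row 160, sub-task F2: moment bounds, the linear estimator and the small-ball estimate. -/

set_option autoImplicit false
set_option linter.unusedSectionVars false

namespace Crest.Agent.R160.E2

open MeasureTheory ProbabilityTheory Finset Real

universe u

theorem half {b : ℕ} (hb : 2 ≤ b) {θ : ℝ} (hθ : b * θ ^ 2 ≤ 1) : θ ^ 2 ≤ 1 / 2 := by
  have b2 : (2 : ℝ) ≤ b := by exact_mod_cast hb
  nlinarith [sq_nonneg θ]

theorem mom {b : ℕ} (hb : 2 ≤ b) {i : ℕ} (hi : 1 ≤ i) : ∃ C : ℝ, 1 ≤ C ∧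
    ∀ (V : Type u) (F : Fo V) (θ : ℝ), 0 ≤ θ → b * θ ^ 2 ≤ 1 → ∀ tf, Sgn θ tf →
    ∀ σ : ℝ, 0 < σ → σ ≤ 1 → ∀ c : V, (F.ch c).card ≤ b + 1 →
    (∀ x, x ≠ c → (F.ch x).card ≤ b) → (∀ x, c ∉ F.ch x) → ∀ x,
    ∫ w, hh F θ tf (σ ^ 4) x w ^ 2 ^ i ∂gam _ ≤ C * σ ^ 2 ^ i := by
  classical
  have card : ∀ {V : Type u} {F : Fo V} {c : V}, (F.ch c).card ≤ b + 1 →
      (∀ x, x ≠ c → (F.ch x).card ≤ b) → ∀ x, (F.ch x).card ≤ b + 1 := fun {V F c} h1 h2 x => by
    by_cases h : x = c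
    · rwa [h]
    · exact (h2 x h).trans b.le_succ
  induction i, hi using Nat.le_induction with
  | base =>
    obtain ⟨K, K1, hK⟩ := y_pow.{u} even_two
    have K2 : 1 ≤ max K 32 := le_max_of_le_left K1
    refine ⟨4 ^ (b + 1) * max K 32, one_le_mul_of_one_le_of_one_le (one_le_pow₀ (by norm_num)) K2,
      fun V F θ h0 hθ tf ht σ s0 s1 c c1 c2 c3 x => ?_⟩
    have h1 := half hb hθ
    have inv : ∀ z, z ≠ c → 1 - 2 * σ ^ 2 ≤ (∫ w, exp (-hh F θ tf (σ ^ 4) z w) ∂gam _) ^ 2 :=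
      fun z => by
        induction z using F.ind with
        | h z ih =>
          exact fun hz => B_step F h0 h1 ht (by positivity) hb hθ (by positivity) (by nlinarith)
            (by ring) (c2 z hz) fun y hy => ih y hy fun e => c3 z (e ▸ hy)
    obtain ⟨M, hM⟩ := ((F.ch x).image fun z => ∫ w, XX F θ tf (σ ^ 4) z w ^ (2 * 2) ∂gam _).exists_le
    refine (both F h0 h1 ht (σ ^ 4) even_two one_pos x (a := max K 32 * σ ^ 2)
      ((hK V _ σ s0 s1).trans (by gcongr; exact le_max_left _ _)) le_rfl (fun z hz => ?_)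
      fun z hz => hM _ (mem_image_of_mem _ hz)).1.trans ?_
    · refine (X_sq F h0 h1 ht (by positivity) (inv z fun e => c3 x (e ▸ hz))).trans ?_
      nlinarith [le_max_right K 32, sq_nonneg σ]
    · rw [mul_assoc, pow_one, show (2 : ℝ) ^ (2 - 1) * 2 = 4 by norm_num]
      gcongr
      · norm_num
      · exact card c1 c2 x
  | succ i hi ih =>
    obtain ⟨C, C1, hC⟩ := ih
    have p2 : 2 ≤ 2 ^ i := le_self_pow₀ one_le_two (by omega)
    have hp : Even (2 ^ i) := even_two.pow_of_ne_zero (by omega)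
    rw [pow_succ']
    generalize 2 ^ i = p at *
    obtain ⟨K, K1, hK⟩ := y_pow.{u} hp
    obtain ⟨K₂, K2, hK₂⟩ := y_pow.{u} (even_two_mul p)
    obtain ⟨δ, hδ, d1⟩ := exists_delta (2 * p * (b + 1))
    have K3 : 1 ≤ max K C := le_max_of_le_left K1
    have c0 : (1 : ℝ) ≤ 2 ^ (p - 1) * 2 := by rw [← pow_succ]; exact one_le_pow₀ one_le_two
    set K₃ := (4 / δ) ^ p * ((2 ^ (p - 1) * 2) ^ (b + 1) * max K C * max K C) with hK₃
    have K4 : 0 ≤ (b + 1) * K₃ := by positivity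
    set L := 6 * (K₂ + (b + 1) * K₃) with hL
    refine ⟨2 * L, by linarith, fun V F θ h0 hθ tf ht σ s0 s1 c c1 c2 c3 => ?_⟩
    have h1 := half hb hθ
    have t1 : θ ≤ 1 := by nlinarith
    have t2 : θ ^ (2 * p) ≤ θ ^ 2 * (1 / 2) :=
      (pow_le_pow_of_le_one h0 t1 (show 2 + 2 ≤ 2 * p by omega)).trans (by rw [pow_add]; gcongr)
    have step : ∀ x (r : ℝ), #(F.ch x) * θ ^ (2 * p) ≤ r →
        (∀ z ∈ F.ch x, ∫ w, hh F θ tf (σ ^ 4) z w ^ (2 * p) ∂gam _ ≤ L * σ ^ (2 * p)) →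
        ∫ w, hh F θ tf (σ ^ 4) x w ^ (2 * p) ∂gam _ ≤ 3 / 2 * (1 / 6 + r) * L * σ ^ (2 * p) :=
      fun x r hr ih => by
        have k := card c1 c2 x
        have k' : (#(F.ch x) : ℝ) ≤ b + 1 := by exact_mod_cast k
        refine (both F h0 h1 ht (σ ^ 4) hp hδ x (a := max K C * σ ^ p)
          (M := θ ^ (2 * p) * (L * σ ^ (2 * p)))
          ((hK V _ σ s0 s1).trans (by gcongr; exact le_max_left _ _)) (hK₂ V _ σ s0 s1)
          (fun z hz => (X_pow F h0 h1 ht _ hp z).trans ?_) fun z hz =>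
            (X_pow F h0 h1 ht _ (even_two_mul p) z).trans (by gcongr; exact ih z hz)).2.trans ?_
        · calc _ ≤ 1 * (max K C * σ ^ p) := by
                gcongr
                · exact integral_nonneg fun w => hp.pow_nonneg _
                · exact pow_le_one₀ h0 t1
                · exact (hC V F θ h0 hθ tf ht σ s0 s1 c c1 c2 c3 z).trans
                    (by gcongr; exact le_max_right _ _)
            _ = _ := one_mul _
        · have a1 : ((1 + δ) ^ (2 * p)) ^ #(F.ch x) ≤ 3 / 2 := by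
            refine le_trans ?_ d1
            rw [pow_mul _ (2 * p)]
            exact pow_le_pow_right₀ (one_le_pow₀ (by linarith)) k
          have a2 : (4 / δ) ^ p * ((2 ^ (p - 1) * 2) ^ #(F.ch x) * (max K C * σ ^ p) *
              (max K C * σ ^ p)) ≤ K₃ * σ ^ (2 * p) := by
            calc _ ≤ (4 / δ) ^ p * ((2 ^ (p - 1) * 2) ^ (b + 1) * (max K C * σ ^ p) *
                  (max K C * σ ^ p)) := by gcongr
              _ = _ := by rw [hK₃]; ring
          have a3 : 0 ≤ L * σ ^ (2 * p) := by positivity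
          calc _ ≤ 3 / 2 * (K₂ * σ ^ (2 * p) + (r * (L * σ ^ (2 * p)) +
                (b + 1) * (K₃ * σ ^ (2 * p)))) := by
                rw [mul_add (#(F.ch x) : ℝ), ← mul_assoc (#(F.ch x) : ℝ)]
                gcongr
            _ = _ := by rw [hL]; ring
    have inv : ∀ z, z ≠ c → ∫ w, hh F θ tf (σ ^ 4) z w ^ (2 * p) ∂gam _ ≤ L * σ ^ (2 * p) :=
      fun z => by
        induction z using F.ind with
        | h z ih =>
          intro hz
          have k : (#(F.ch z) : ℝ) ≤ b := by exact_mod_cast c2 z hz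
          refine (step z (1 / 2) ?_ fun y hy => ih y hy fun e => c3 z (e ▸ hy)).trans_eq (by ring)
          calc _ ≤ b * (θ ^ 2 * (1 / 2)) := by gcongr
            _ ≤ _ := by linarith
    intro x
    have k : (#(F.ch x) : ℝ) ≤ b + 1 := by exact_mod_cast card c1 c2 x
    refine (step x 1 ?_ fun y hy => inv y fun e => c3 x (e ▸ hy)).trans ?_
    · calc _ ≤ (b + 1) * (θ ^ 2 * (1 / 2)) := by gcongr
        _ ≤ _ := by linarith
    · gcongr; norm_num

section
variable {V : Type*} (F : Fo V) {θ : ℝ} {tf : ℝ → ℝ} (h0 : 0 ≤ θ) (h1 : θ ^ 2 ≤ 1 / 2)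
  (ht : Sgn θ tf)

theorem full_mono {b : ℕ} {j D : ℕ} (h : j ≤ D) {x : V} (hx : F.Full b D x) : F.Full b j x := by
  induction j generalizing D x with
  | zero => trivial
  | succ j ih =>
    obtain ⟨D, rfl⟩ := Nat.exists_eq_add_of_le' ((Nat.le_add_left 1 j).trans h)
    exact ⟨hx.1, fun z hz => ih (by omega) (hx.2 z hz)⟩

include h0 h1 ht

theorem S_mom {b : ℕ} (hθ : b * θ ^ 2 = 1) {τ : ℝ} (hτ : 0 ≤ τ) (j : ℕ) (x : V)
    (hx : F.Full b j x) : MemLp (SS F θ tf τ j x) (2 : ℕ) (gam _) ∧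
      ∫ w, SS F θ tf τ j x w ∂gam _ = (j + 1) * τ ∧
      ∫ w, SS F θ tf τ j x w ^ 2 ∂gam _ ≤ (j + 1) * τ + (j + 1) ^ 3 * τ ^ 2 := by
  induction j generalizing x with
  | zero =>
    exact ⟨memLp_y τ _ 2, by simpa [SS] using int_y τ _, by simpa [SS] using (int_y_sq hτ _).le⟩
  | succ j ih =>
    have m : ∀ z, Measurable fun w => tf (w (z, true)) * (θ * SS F θ tf τ j z w) := fun z =>
      (ht.meas.comp (measurable_pi_apply _)).mul ((meas_S F τ ht.meas j z).const_mul θ)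
    obtain ⟨a1, a2, a3⟩ := sum_ind F x (φ := fun g => τ + √τ * g) (by fun_prop) m
      (fun z => dep_mul F (fun t s => tf t * (θ * s)) (dep_S F θ tf τ j z))
      (P := fun k T => MemLp T (2 : ℕ) (gam _) ∧ ∫ w, T w ∂gam _ = τ + k * θ ^ 2 * ((j + 1) * τ) ∧
        ∫ w, T w ^ 2 ∂gam _ ≤ τ + k * θ ^ 2 * ((j + 1) * τ + (j + 1) ^ 3 * τ ^ 2) +
          (τ + k * θ ^ 2 * ((j + 1) * τ)) ^ 2)
      ⟨memLp_y τ _ 2, by simpa using int_y τ _, by simpa using (int_y_sq hτ _).le⟩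
      fun k T z hz _ hT hi ⟨b1, b2, b3⟩ => by
        obtain ⟨c1, c2, c3⟩ := ih z (hx.2 z hz)
        have d1 : MemLp (fun w => tf (w (z, true)) * (θ * SS F θ tf τ j z w)) (2 : ℕ) (gam _) :=
          (c1.const_mul θ).of_le (m z).aestronglyMeasurable (ae_of_all _ fun w => by
            rw [norm_mul (tf _), norm_eq_abs, abs_t ht, one_mul])
        have d2 : ∫ w, tf (w (z, true)) * (θ * SS F θ tf τ j z w) ∂gam _ = θ ^ 2 * ((j + 1) * τ) := by
          rw [int_t_mul (F := F) ht ((meas_S F τ ht.meas j z).const_mul θ)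
            (fun _ _ h => by simp only [dep_S F θ tf τ j z h]), integral_const_mul, c2]
          ring
        have d3 : ∫ w, (tf (w (z, true)) * (θ * SS F θ tf τ j z w)) ^ 2 ∂gam _ ≤
            θ ^ 2 * ((j + 1) * τ + (j + 1) ^ 3 * τ ^ 2) := by
          simp only [mul_pow, ← sq_abs (tf _), abs_t ht, one_pow, one_mul, integral_const_mul]
          gcongr
        have i1 := b1.integrable (by simp)
        have i2 := d1.integrable (by simp)
        have d4 := hi.integral_fun_mul_eq_mul_integral i1.1 i2.1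
        have i3 := (show Integrable (fun w => T w * (tf (w (z, true)) * (θ * SS F θ tf τ j z w))) _
          from hi.integrable_mul i1 i2).const_mul 2
        refine ⟨b1.add d1, by rw [integral_add i1 i2, b2, d2]; push_cast; ring, ?_⟩
        simp only [add_sq, mul_assoc (2 : ℝ)]
        rw [integral_add ((int_pow b1).fun_add i3) (int_pow d1), integral_add (int_pow b1) i3,
          integral_const_mul, d4, b2, d2]
        push_cast
        nlinarith [sq_nonneg (θ ^ 2 * ((j + 1) * τ))]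
    rw [hx.1, hθ] at a2 a3
    refine ⟨a1, a2.trans (by push_cast; ring), a3.trans ?_⟩
    push_cast
    have : (0 : ℝ) ≤ j := j.cast_nonneg
    nlinarith [mul_nonneg (sq_nonneg τ) (show (0 : ℝ) ≤ 2 * j ^ 2 + 5 * j + 3 by positivity)]

theorem m_low {b : ℕ} (hθ : b * θ ^ 2 = 1) {σ : ℝ} {j : ℕ} (j1 : 1 ≤ (j + 1) * σ ^ 2)
    (j3 : (j + 1) * σ ^ 2 ≤ 3) {x : V} (hx : F.Full b j x) :
    σ ^ 2 / 30 ≤ ∫ w, tanh (hh F θ tf (σ ^ 4) x w) ^ 2 ∂gam _ := by
  obtain ⟨a1, a2, a3⟩ := S_mom F h0 h1 ht hθ (τ := σ ^ 4) (by positivity) j x hx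
  have k : ∫ w, SS F θ tf (σ ^ 4) j x w * (cosh (hh F θ tf (σ ^ 4) x w))⁻¹ *
      exp (-hh F θ tf (σ ^ 4) x w) ∂gam _ = 0 :=
    (nish F h0 h1 ht (by positivity) x).real (f := fun e => e (j + 1) * (cosh (e 0))⁻¹)
      (by fun_prop) fun e => by simp
  simp only [mul_assoc, ← one_sub_tanh] at k
  have b1 := bm_tanh.comp (meas_h (θ := θ) F (σ ^ 4) ht.meas x)
  obtain ⟨m, C, hC⟩ := (BM.const 1).sub b1
  have i1 := a1.integrable (by simp)
  have i2 := (int_pow a1).const_mul (1 / 60)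
  have i3 := ((b1.pow 2).integrable (gam _)).const_mul 15
  have := integral_mono ((i1.sub' i2).sub' i3) (i1.mul_bdd m.aestronglyMeasurable (ae_of_all _ hC))
    fun w => by
      dsimp only
      nlinarith [sq_nonneg (SS F θ tf (σ ^ 4) j x w - 30 * tanh (hh F θ tf (σ ^ 4) x w))]
  rw [k, integral_sub (i1.sub' i2) i3, integral_sub i1 i2, integral_const_mul, integral_const_mul,
    a2] at this
  rw [show ((j : ℝ) + 1) * σ ^ 4 = (j + 1) * σ ^ 2 * σ ^ 2 by ring] at this a3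
  rw [show ((j : ℝ) + 1) ^ 3 * (σ ^ 4) ^ 2 = ((j + 1) * σ ^ 2) ^ 3 * σ ^ 2 by ring] at a3
  generalize ((j : ℝ) + 1) * σ ^ 2 = u at *
  have u3 : u ^ 3 ≤ 3 ^ 3 := pow_le_pow_left₀ (by linarith) j3 3
  nlinarith [sq_nonneg σ]

theorem var_low (τ : ℝ) (x : V) (r : ℝ) : θ ^ 2 / 2 * ∫ w, tanh (hh F θ tf τ x w) ^ 2 ∂gam _ ≤
    ∫ w, (r + XX F θ tf τ x w) ^ 2 ∂gam _ := by
  have m := meas_h (θ := θ) F τ ht.meas x
  have b1 : BM fun w => Ath θ (hh F θ tf τ x w) := ⟨(meas_A θ).comp m, 3, fun w => abs_A h0 h1 _⟩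
  have i1 := ((BM.const (r ^ 2)).add (b1.pow 2)).integrable (gam _)
  have e : ∀ w, (r + XX F θ tf τ x w) ^ 2 =
      (r ^ 2 + Ath θ (hh F θ tf τ x w) ^ 2) + 2 * r * XX F θ tf τ x w := fun w => by
    rw [add_sq, ← sq_abs (XX _ _ _ _ _ _), abs_X F h0 h1 ht, sq_abs]; ring
  simp only [e]
  rw [integral_add i1 (((bm_X F h0 h1 ht τ x).integrable _).const_mul _),
    integral_const_mul (2 * r)]
  simp only [XX]
  rw [int_t_mul (F := F) ht b1.1 (fun _ _ h => by simp only [dep_h F θ tf τ x h]), ← mul_assoc,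
    ← integral_const_mul, ← integral_const_mul, ← integral_add i1 ((b1.integrable _).const_mul _)]
  refine integral_mono ((((bm_tanh.comp m).pow 2).integrable _).const_mul _)
    (i1.add ((b1.integrable _).const_mul _)) fun w => ?_
  dsimp only
  generalize hh F θ tf τ x w = h
  nlinarith [(A_sq h0 h1 h).1, sq_nonneg (r + θ * Ath θ h),
    mul_nonneg (sub_nonneg.2 h1) (sq_nonneg (Ath θ h))]

omit ht in
theorem bm_gg : BM (gg θ) :=
  ⟨meas_gg θ, θ, fun x => by rw [abs_of_nonneg (gg_le h0 h1 x).1]; exact gg_le' h0 h1 x⟩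

end

theorem small_ball {c C₁ C₂ : ℝ} (c0 : 0 < c) (c1 : c ≤ 1) (hC₁ : 0 ≤ C₁) (hC₂ : 0 ≤ C₂) :
    ∃ C : ℝ, 1 ≤ C ∧ ∀ (J : Type u) (X : (J → ℝ) → ℝ), BM X → ∀ θ : ℝ, 0 ≤ θ → θ ^ 2 ≤ 1 / 2 →
      ∀ s : ℝ, 0 < s → s ≤ 1 → ∫ w, X w ^ 2 ∂gam J ≤ C₁ * s → ∫ w, X w ^ 4 ∂gam J ≤ C₂ * s ^ 2 →
      ∀ (q : ℕ) (r : ℝ), c * s ≤ ∫ w, (r + X w) ^ 2 ∂gam J →
      ∫ w, gg θ (r + X w) ^ (2 * q) ∂gam J ≤ θ ^ (2 * q) * exp (-(q / (C * (1 / s + q)))) := by
  set K := 8 * ((2 + 2 * C₁ / c) ^ 2 + C₂ / c ^ 2) with hK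
  have K1 : 1 ≤ K := by
    have : 0 ≤ 2 * C₁ / c := by positivity
    have : 0 ≤ C₂ / c ^ 2 := by positivity
    nlinarith
  refine ⟨16 * K / c, by rw [le_div_iff₀ c0]; linarith, fun J X hX θ h0 h1 s s0 s1 x2 x4 q r hW => ?_⟩
  have hZ := (BM.const r).add hX
  have i := fun n => (hZ.pow n).integrable (gam J)
  have i' := fun n => (hX.pow n).integrable (gam J)
  set W := ∫ w, (r + X w) ^ 2 ∂gam J with eW
  have W0 : 0 < W := lt_of_lt_of_le (by positivity) hW
  have sW : s ≤ W / c := by rw [le_div_iff₀ c0]; linarith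
  have a1 : r ^ 2 ≤ (2 + 2 * C₁ / c) * W := by
    have := integral_mono (integrable_const (r ^ 2)) (((i 2).fun_add (i' 2)).const_mul 2) fun w => by
      dsimp only; nlinarith [sq_nonneg (r + 2 * X w)]
    rw [integral_const_mul, integral_add (i 2) (i' 2), ← eW] at this
    simp only [integral_const, probReal_univ, smul_eq_mul, one_mul] at this
    have h := mul_le_mul_of_nonneg_left sW hC₁
    calc r ^ 2 ≤ 2 * (W + C₁ * (W / c)) := by linarith
      _ = _ := by ring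
  have a2 : ∫ w, (r + X w) ^ 4 ∂gam J ≤ K * W ^ 2 := by
    have := integral_mono (i 4) (((integrable_const (r ^ 4)).fun_add (i' 4)).const_mul (2 ^ (4 - 1)))
      fun w => (show Even 4 by decide).add_pow_le
    rw [integral_const_mul, integral_add (integrable_const _) (i' 4)] at this
    simp only [integral_const, probReal_univ, smul_eq_mul, one_mul] at this
    calc _ ≤ 8 * ((r ^ 2) ^ 2 + C₂ * s ^ 2) := by norm_num at this; linarith
      _ ≤ 8 * (((2 + 2 * C₁ / c) * W) ^ 2 + C₂ * (W / c) ^ 2) := by gcongr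
      _ = _ := by rw [hK]; ring
  have η0 : 0 ≤ c * s / 2 := by positivity
  have j1 := ((i 2).sub' (integrable_const (c * s / 2))).const_mul (2 * (1 / (2 * K * W)))
  have j2 := (i 4).const_mul ((1 / (2 * K * W)) ^ 2)
  have j3 := (j1.sub' j2).const_mul (q * (c * s / 2) / 2 / (1 + q * (c * s / 2) / 2))
  refine (integral_mono ((((bm_gg h0 h1).comp hZ.1).pow _).integrable _)
    (((integrable_const 1).sub' j3).const_mul _) fun w =>
      gg_poly h0 h1 q η0 (by nlinarith) (a := 1 / (2 * K * W)) (by positivity) _).trans ?_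
  rw [integral_const_mul, integral_sub (integrable_const 1) j3, integral_const_mul,
    integral_sub j1 j2, integral_const_mul, integral_const_mul,
    integral_sub (i 2) (integrable_const _), ← eW]
  simp only [integral_const, probReal_univ, smul_eq_mul, one_mul]
  gcongr
  refine le_trans ?_ (one_sub_le_exp_neg _)
  have b1 : 1 / (4 * K) ≤ 2 * (1 / (2 * K * W)) * (W - c * s / 2) -
      (1 / (2 * K * W)) ^ 2 * ∫ w, (r + X w) ^ 4 ∂gam J := by
    calc _ = 2 * (1 / (2 * K * W)) * (W - W / 2) - (1 / (2 * K * W)) ^ 2 * (K * W ^ 2) := by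
          field_simp; ring
      _ ≤ _ := by gcongr
  gcongr 1 - ?_
  refine le_trans ?_ (mul_le_mul_of_nonneg_left b1 (by positivity))
  rw [div_mul_div_comm, div_le_div_iff₀ (by positivity) (by positivity)]
  have e : q * (c * s / 2) / 2 * 1 * (16 * K / c * (1 / s + q)) = q * ((1 + q * s) * (4 * K)) := by
    field_simp; ring
  rw [e]
  gcongr
  nlinarith [mul_nonneg (Nat.cast_nonneg (α := ℝ) q) s0.le]

theorem peel {J : Type*} {D : Set J} {R X G : (J → ℝ) → ℝ} {φ : ℝ → ℝ} (hR : Measurable R)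
    (hX : Measurable X) (hG : BM G) (hφ : BM φ) (G0 : ∀ w, 0 ≤ G w) (dR : DependsOn R Dᶜ)
    (dG : DependsOn G Dᶜ) (dX : DependsOn X D) {k : ℝ} (h : ∀ r, ∫ w, φ (r + X w) ∂gam J ≤ k) :
    ∫ w, φ (R w + X w) * G w ∂gam J ≤ k * ∫ w, G w ∂gam J := by
  classical
  rw [integral_merge (· ∉ D) ((hφ.comp (hR.fun_add hX)).mul hG), ← integral_const_mul]
  have e : ∀ z z' : J → ℝ, φ (R (fun j => if j ∉ D then z j else z' j) +
      X fun j => if j ∉ D then z j else z' j) * G (fun j => if j ∉ D then z j else z' j) =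
      φ (R z + X z') * G z := fun z z' => by
    have k : ∀ i ∈ Dᶜ, (fun j => if j ∉ D then z j else z' j) i = z i := fun i hi => if_pos hi
    have k' : ∀ i ∈ D, (fun j => if j ∉ D then z j else z' j) i = z' i :=
      fun i hi => if_neg (not_not.2 hi)
    rw [dR k, dG k, dX k']
  simp only [e, integral_mul_const]
  exact integral_mono ((((hφ.comp (e := fun p : (J → ℝ) × (J → ℝ) => R p.1 + X p.2)
    (by fun_prop)).integral_right (gam J)).mul hG).integrable _) ((hG.integrable _).const_mul _)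
    fun z => mul_le_mul_of_nonneg_right (h _) (G0 z)

end Crest.Agent.R160.E2
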