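import Crest.Agent.R160.Env1
import Crest.Agent.R160.Env2D

/-! Row 160, sub-task F2: sharp small-time estimates for the cavity fields. -/

set_option autoImplicit false

namespace Crest.Agent.R160

open MeasureTheory ProbabilityTheory Finset

universe u

namespace E2

theorem exists_sigma {τ : ℝ} (h0 : 0 < τ) (h1 : τ ≤ 1) : ∃ σ : ℝ, 0 < σ ∧ σ ≤ 1 ∧ σ ^ 4 = τ :=
  ⟨√(√τ), by positivity, Real.sqrt_le_one.2 (Real.sqrt_le_one.2 h1), by
    rw [show 4 = 2 * 2 from rfl, pow_mul, Real.sq_sqrt (by positivity), Real.sq_sqrt h0.le]⟩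

variable {V : Type*} (F : Fo V) {θ : ℝ} {tf : ℝ → ℝ}

theorem bm_pg (h0 : 0 ≤ θ) (h1 : θ ^ 2 ≤ 1 / 2) (ht : Measurable tf) (τ : ℝ) (l : List V) :
    BM fun w => pg θ (F.HH θ tf (fun _ => τ) τ w) l := by
  induction l with
  | nil => exact BM.const 1
  | cons x l ih => exact ((bm_gg h0 h1).comp (meas_h F τ ht x)).mul ih

theorem chain_sub {z : V} {l : List V} (h : F.Chain (z :: l)) : ∀ v ∈ z :: l, F.Sub v ⊆ F.Sub z := by
  induction l generalizing z with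
  | nil => simp
  | cons y l ih =>
    rw [Fo.Chain, List.isChain_cons_cons] at h
    rw [List.forall_mem_cons]
    exact ⟨Set.Subset.rfl, fun v hv => (ih h.2 v hv).trans (F.sub z y h.1)⟩

theorem dep_pg (θ : ℝ) (tf : ℝ → ℝ) (τ : ℝ) {x : V} {l : List V} (h : F.Chain (x :: l))
    (hx : 1 < #(F.ch x)) : ∃ u ∈ F.ch x,
      DependsOn (fun w => pg θ (F.HH θ tf (fun _ => τ) τ w) l) (sub F u)ᶜ := by
  cases l with
  | nil =>
    obtain ⟨u, hu⟩ := card_pos.1 (zero_lt_one.trans hx)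
    exact ⟨u, hu, fun _ _ _ => rfl⟩
  | cons z l =>
    rw [Fo.Chain, List.isChain_cons_cons] at h
    obtain ⟨u, hu, huz⟩ := exists_mem_ne hx z
    refine ⟨u, hu, fun w w' e => congrArg List.prod (List.map_congr_left fun v hv => ?_)⟩
    exact congrArg (gg θ) (dep_h F θ tf τ v fun p hp => e p
      (Set.disjoint_left.1 (F.disj x z h.1 u hu huz.symm) (chain_sub F h.2 v hv hp.1)))

end E2

open E2

theorem moments {b : ℕ} (hb : 2 ≤ b) {i : ℕ} (hi : 1 ≤ i) : ∃ C : ℝ, 1 ≤ C ∧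
    ∀ (V : Type u) (F : Fo V) (θ : ℝ), 0 ≤ θ → b * θ ^ 2 ≤ 1 → ∀ tf, Sgn θ tf →
    ∀ τ : ℝ, 0 < τ → τ ≤ 1 → ∀ c : V, (F.ch c).card ≤ b + 1 →
    (∀ x, x ≠ c → (F.ch x).card ≤ b) → (∀ x, c ∉ F.ch x) → ∀ x,
    Integrable (fun w => F.HH θ tf (fun _ => τ) τ w x ^ 2 ^ i) (gam _) ∧
    ∫ w, F.HH θ tf (fun _ => τ) τ w x ^ 2 ^ i ∂gam _ ≤ C * τ ^ ((2 : ℝ) ^ i / 4) := by
  obtain ⟨C, C1, hC⟩ := mom.{u} hb hi
  refine ⟨C, C1, fun V F θ h0 hθ tf ht τ t0 t1 c c1 c2 c3 x => ?_⟩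
  obtain ⟨σ, s0, s1, rfl⟩ := exists_sigma t0 t1
  refine ⟨int_pow (memLp_h F h0 (half hb hθ) ht _ x _),
    (hC V F θ h0 hθ tf ht σ s0 s1 c c1 c2 c3 x).trans_eq ?_⟩
  rw [← Real.rpow_natCast σ 4, ← Real.rpow_mul s0.le, ← Real.rpow_natCast]
  congr 2
  push_cast; ring

set_option linter.unusedVariables false in
open Classical in
theorem sharp {b : ℕ} (hb : 2 ≤ b) : ∃ C : ℝ, 1 ≤ C ∧
    ∀ (V : Type u) (F : Fo V) (θ : ℝ), 0 ≤ θ → b * θ ^ 2 = 1 → ∀ tf, Sgn θ tf →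
    ∀ τ : ℝ, 0 < τ → τ ≤ 1 → ∀ c : V, (F.ch c).card ≤ b + 1 →
    (∀ x, x ≠ c → (F.ch x).card ≤ b) → (∀ x, c ∉ F.ch x) → ∀ D : ℕ, 1 ≤ √τ * D →
    ∀ q : ℕ, 1 ≤ q → ∀ l, F.Chain l → c ∉ l →
    ∫ w, pg θ (F.HH θ tf (fun _ => τ) τ w) l ^ (2 * q) ∂gam _ ≤ θ ^ (2 * q * l.length) *
      Real.exp (-(q * (l.countP fun x => decide (F.Full b (D + 1) x)) / (C * (1 / √τ + q)))) := by
  obtain ⟨C₁, C1, hC₁⟩ := mom.{u} hb le_rfl
  obtain ⟨C₂, C2, hC₂⟩ := mom.{u} hb one_le_two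
  have b2 : (2 : ℝ) ≤ b := by exact_mod_cast hb
  obtain ⟨C, C3, hC⟩ := small_ball.{u} (c := 1 / (60 * b)) (C₁ := C₁) (C₂ := C₂) (by positivity)
    (by rw [div_le_one (by positivity)]; linarith) (by linarith) (by linarith)
  refine ⟨C, C3, fun V F θ h0 hθ tf ht τ t0 t1 c c1 c2 c3 D hD q hq l hl hc => ?_⟩
  clear hc
  obtain ⟨σ, s0, s1, rfl⟩ := exists_sigma t0 t1
  have h1 := half hb hθ.le
  have s2 : 0 < σ ^ 2 := by positivity
  have s3 : σ ^ 2 ≤ 1 := pow_le_one₀ s0.le s1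
  rw [show √(σ ^ 4) = σ ^ 2 by rw [show σ ^ 4 = (σ ^ 2) ^ 2 by ring, Real.sqrt_sq s2.le]] at hD ⊢
  have j1 := Nat.le_ceil (1 / σ ^ 2)
  have j2 := (Nat.ceil_lt_add_one (show 0 ≤ 1 / σ ^ 2 by positivity)).le
  have j3 : ⌈1 / σ ^ 2⌉₊ ≤ D := Nat.ceil_le.2 (by rw [div_le_iff₀ s2]; linarith)
  rw [div_le_iff₀ s2] at j1
  rw [← sub_le_iff_le_add, le_div_iff₀ s2] at j2
  have key : ∀ u, F.Full b D u → ∀ r, ∫ w, gg θ (r + XX F θ tf (σ ^ 4) u w) ^ (2 * q) ∂gam _ ≤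
      θ ^ (2 * q) * Real.exp (-(q / (C * (1 / σ ^ 2 + q)))) := fun u hu r => by
    have t1 : θ ≤ 1 := by nlinarith
    refine hC _ _ (bm_X F h0 h1 ht _ u) θ h0 h1 _ s2 s3 ?_ ?_ q r
      (le_trans ?_ (var_low F h0 h1 ht _ u r))
    · exact (X_pow F h0 h1 ht _ even_two u).trans ((mul_le_of_le_one_left
        (integral_nonneg fun w => sq_nonneg _) (pow_le_one₀ h0 t1)).trans
        (hC₁ V F θ h0 hθ.le tf ht σ s0 s1 c c1 c2 c3 u))
    · refine (X_pow F h0 h1 ht _ (n := 4) (by decide) u).trans ((mul_le_of_le_one_left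
        (integral_nonneg fun w => by positivity) (pow_le_one₀ h0 t1)).trans
        ((hC₂ V F θ h0 hθ.le tf ht σ s0 s1 c c1 c2 c3 u).trans_eq (by ring)))
    · have := m_low F h0 h1 ht hθ (σ := σ) (j := ⌈1 / σ ^ 2⌉₊) (by linarith) (by linarith)
        (full_mono F j3 hu)
      calc _ = θ ^ 2 / 2 * (σ ^ 2 / 30) := by
            rw [eq_div_of_mul_eq (by positivity) ((mul_comm _ _).trans hθ)]; ring
        _ ≤ _ := by gcongr
  induction l with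
  | nil => simp [pg]
  | cons x l ih =>
    have ih := ih (List.isChain_of_isChain_cons hl)
    have bG := (bm_pg F h0 h1 ht.meas (σ ^ 4) l).pow (2 * q)
    have G0 : ∀ w, 0 ≤ pg θ (F.HH θ tf (fun _ => σ ^ 4) (σ ^ 4) w) l ^ (2 * q) :=
      fun w => (even_two_mul q).pow_nonneg _
    have e : ∀ w, pg θ (F.HH θ tf (fun _ => σ ^ 4) (σ ^ 4) w) (x :: l) ^ (2 * q) =
        gg θ (hh F θ tf (σ ^ 4) x w) ^ (2 * q) *
          pg θ (F.HH θ tf (fun _ => σ ^ 4) (σ ^ 4) w) l ^ (2 * q) := fun w => mul_pow _ _ _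
    simp only [e, List.length_cons, List.countP_cons, decide_eq_true_eq]
    rw [mul_add_one, pow_add, mul_comm _ (θ ^ (2 * q))]
    split_ifs with hx
    · obtain ⟨u, hu, d⟩ := dep_pg F θ tf (σ ^ 4) hl (by rw [hx.1]; omega)
      have m := meas_X (θ := θ) F (σ ^ 4) ht.meas
      simp only [hh_eq, ← sum_erase_add _ _ hu, ← add_assoc]
      refine (peel (φ := fun h => gg θ h ^ (2 * q)) (by fun_prop) (m u) bG ((bm_gg h0 h1).pow _) G0
        (dep_part F hu (erase_subset u _) (notMem_erase u _) (fun g => σ ^ 4 + √(σ ^ 4) * g)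
          (dep_X F θ tf _)) (fun _ _ h => congrArg (· ^ (2 * q)) (d h)) (dep_X F θ tf _ u)
        (key u (hx.2 u hu))).trans ?_
      refine (mul_le_mul_of_nonneg_left ih (by positivity)).trans_eq ?_
      rw [mul_mul_mul_comm, ← Real.exp_add]
      congr 2
      push_cast; ring
    · refine (integral_mono ((((bm_gg h0 h1).comp (meas_h F _ ht.meas x)).pow _).mul bG |>.integrable _)
        ((bG.integrable _).const_mul (θ ^ (2 * q))) fun w => mul_le_mul_of_nonneg_right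
          (pow_le_pow_left₀ (gg_le h0 h1 _).1 (gg_le' h0 h1 _) _) (G0 w)).trans ?_
      rw [integral_const_mul, mul_assoc, add_zero]
      gcongr

end Crest.Agent.R160
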