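import Crest.Agent.R160.Gauss

/-! Row 160, sub-task F2: pointwise inequalities. -/

set_option autoImplicit false

namespace Crest.Agent.R160.E2

open Real

variable {θ : ℝ}

theorem abs_u (h0 : 0 ≤ θ) (h1 : θ ^ 2 ≤ 1 / 2) (h : ℝ) : |θ * tanh h| ≤ 3 / 4 := by
  have : θ ≤ 3 / 4 := by nlinarith
  rw [abs_mul, abs_of_nonneg h0]
  nlinarith [abs_tanh_lt_one h, abs_nonneg (tanh h)]

theorem meas_tanh : Measurable tanh := by
  have : tanh = fun x => sinh x / cosh x := funext tanh_eq_sinh_div_cosh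
  rw [this]; fun_prop

theorem meas_A (θ : ℝ) : Measurable (Ath θ) := by
  have := meas_tanh
  unfold Ath; fun_prop

theorem meas_gg (θ : ℝ) : Measurable (gg θ) := by
  have := meas_tanh
  unfold gg; fun_prop

theorem A_neg (θ h : ℝ) : Ath θ (-h) = -Ath θ h := by
  rw [Ath, Ath, tanh_neg, ← neg_div, ← log_inv, inv_div]
  simp [sub_eq_add_neg]

/-- the normaliser `√(1 - θ² tanh² h)` -/
noncomputable def qq (θ h : ℝ) : ℝ := √(1 - (θ * tanh h) ^ 2)

theorem meas_qq (θ : ℝ) : Measurable (qq θ) := by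
  have := meas_tanh
  unfold qq; fun_prop

theorem qq_neg (θ h : ℝ) : qq θ (-h) = qq θ h := by simp [qq]

theorem sech_sq (h : ℝ) : (cosh h)⁻¹ ^ 2 = 1 - tanh h ^ 2 := by
  have := cosh_pos h
  rw [tanh_eq_sinh_div_cosh]
  field_simp
  exact (cosh_sq_sub_sinh_sq h).symm

theorem one_sub_tanh (h : ℝ) : 1 - tanh h = (cosh h)⁻¹ * exp (-h) := by
  have := cosh_pos h
  rw [tanh_eq_sinh_div_cosh, ← cosh_sub_sinh]
  field_simp

theorem sech_le (h : ℝ) : 0 < (cosh h)⁻¹ ∧ (cosh h)⁻¹ ≤ 1 :=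
  ⟨inv_pos.2 (cosh_pos h), inv_le_one_of_one_le₀ (one_le_cosh h)⟩

theorem tanh_sq_ge (z : ℝ) : z ^ 2 / (1 + z ^ 2) ≤ tanh z ^ 2 := by
  have h1 : z ^ 2 ≤ sinh z ^ 2 := by
    rw [← sq_abs z, ← sq_abs (sinh z), abs_sinh]
    exact pow_le_pow_left₀ (abs_nonneg _) (self_le_sinh_iff.2 (abs_nonneg _)) 2
  have := cosh_pos z
  rw [tanh_eq_sinh_div_cosh, div_pow, div_le_div_iff₀ (by positivity) (by positivity), cosh_sq]
  nlinarith

section
variable (h0 : 0 ≤ θ) (h1 : θ ^ 2 ≤ 1 / 2)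
include h0 h1

theorem qq_sq (h : ℝ) : qq θ h ^ 2 = 1 - (θ * tanh h) ^ 2 :=
  sq_sqrt (by have := abs_le.1 (abs_u h0 h1 h); nlinarith)

theorem qq_ge (h : ℝ) : 1 / 2 ≤ qq θ h :=
  le_sqrt_of_sq_le (by have := abs_le.1 (abs_u h0 h1 h); nlinarith)

omit h0 h1 in
theorem qq_le (h : ℝ) : qq θ h ≤ 1 := sqrt_le_one.2 (by nlinarith)

theorem exp_A (h : ℝ) : exp (Ath θ h) = (1 + θ * tanh h) / qq θ h := by
  have a1 := abs_le.1 (abs_u h0 h1 h)
  have a2 := qq_ge h0 h1 h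
  have a3 : 0 < 1 - θ * tanh h := by linarith
  have a4 : 0 < 1 + θ * tanh h := by linarith
  rw [Ath, exp_half, exp_log (by positivity), sqrt_eq_iff_mul_self_eq (by positivity)
    (by positivity), ← sq, div_pow, qq_sq h0 h1,
    show 1 - (θ * tanh h) ^ 2 = (1 + θ * tanh h) * (1 - θ * tanh h) by ring]
  field_simp

theorem exp_neg_A (h : ℝ) : exp (-Ath θ h) = (1 - θ * tanh h) / qq θ h := by
  rw [← A_neg, exp_A h0 h1, qq_neg, tanh_neg]; ring

theorem A_bounds {h : ℝ} (hh : 0 ≤ h) : θ * tanh h ≤ Ath θ h ∧ Ath θ h ≤ 4 * (θ * tanh h) := by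
  have a1 := abs_le.1 (abs_u h0 h1 h)
  have a2 : 0 ≤ θ * tanh h := mul_nonneg h0 (by
    rw [tanh_eq_sinh_div_cosh]; exact div_nonneg (sinh_nonneg_iff.2 hh) (cosh_pos h).le)
  rw [Ath]
  generalize θ * tanh h = u at *
  have a3 : 0 < 1 - u := by linarith
  have a4 : (1 + u) / (1 - u) = 1 + 2 * u / (1 - u) := by field_simp; ring
  have a5 := le_log_one_add_of_nonneg (x := 2 * u / (1 - u)) (by positivity)
  have a6 := log_le_sub_one_of_pos (x := 1 + 2 * u / (1 - u)) (by positivity)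
  have a7 : 2 * (2 * u / (1 - u)) / (2 * u / (1 - u) + 2) = 2 * u := by field_simp; ring
  have a8 : 2 * u / (1 - u) ≤ 8 * u := by rw [div_le_iff₀ a3]; nlinarith
  rw [a4]
  constructor <;> linarith

theorem A_sq (h : ℝ) : θ ^ 2 * tanh h ^ 2 ≤ Ath θ h ^ 2 ∧ Ath θ h ^ 2 ≤ 8 * tanh h ^ 2 := by
  wlog hh : 0 ≤ h generalizing h
  · simpa [A_neg] using this (-h) (by linarith)
  obtain ⟨a1, a2⟩ := A_bounds h0 h1 hh
  have a3 : 0 ≤ θ * tanh h := by linarith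
  have a4 := pow_le_pow_left₀ (a3.trans a1) a2 2
  rw [← mul_pow]
  exact ⟨pow_le_pow_left₀ a3 a1 2, by nlinarith [sq_nonneg (tanh h)]⟩

theorem abs_A (h : ℝ) : |Ath θ h| ≤ 3 :=
  abs_le_of_sq_le_sq' (by linarith [(A_sq h0 h1 h).2, tanh_sq_lt_one h]) (by norm_num) |> abs_le.2

theorem gg_le (h : ℝ) : 0 ≤ gg θ h ∧ gg θ h ≤ θ * (1 - tanh h ^ 2 / 2) := by
  have a1 := tanh_sq_lt_one h
  have a2 := sq_nonneg (tanh h)
  have a3 : 0 < 1 - θ ^ 2 * tanh h ^ 2 := by nlinarith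
  refine ⟨div_nonneg (mul_nonneg h0 (by linarith)) a3.le, ?_⟩
  rw [gg, div_le_iff₀ a3, mul_assoc]
  gcongr
  generalize tanh h ^ 2 = x at *
  nlinarith [mul_nonneg a2 (sub_nonneg.2 h1), mul_nonneg a2 a2]

theorem gg_le' (h : ℝ) : gg θ h ≤ θ :=
  (gg_le h0 h1 h).2.trans (by nlinarith [sq_nonneg (tanh h)])

theorem deriv_A (h : ℝ) : HasDerivAt (Ath θ) (gg θ h) h := by
  have a1 := abs_le.1 (abs_u h0 h1 h)
  have a3 : 0 < 1 - θ * tanh h := by linarith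
  have a4 : 0 < 1 + θ * tanh h := by linarith
  have d1 : HasDerivAt tanh (1 - tanh h ^ 2) h := by
    have : tanh = fun x => sinh x / cosh x := funext tanh_eq_sinh_div_cosh
    have c := cosh_pos h
    rw [← sech_sq, this]
    refine ((hasDerivAt_sinh h).div (hasDerivAt_cosh h) c.ne').congr_deriv ?_
    field_simp
    exact cosh_sq_sub_sinh_sq h
  have d2 := ((((d1.const_mul θ).const_add 1).div ((d1.const_mul θ).const_sub 1) a3.ne').log
    (div_pos a4 a3).ne').div_const 2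
  refine d2.congr_deriv ?_
  simp only [gg, Pi.div_apply]
  rw [show 1 - θ ^ 2 * tanh h ^ 2 = (1 + θ * tanh h) * (1 - θ * tanh h) by ring]
  field_simp
  ring

theorem abs_A_le (h : ℝ) : |Ath θ h| ≤ θ * |h| := by
  have := (convex_univ (𝕜 := ℝ) (E := ℝ)).norm_image_sub_le_of_norm_hasDerivWithin_le
    (f := Ath θ) (f' := gg θ) (C := θ) (fun x _ => (deriv_A h0 h1 x).hasDerivWithinAt)
    (fun x _ => by rw [norm_of_nonneg (gg_le h0 h1 x).1]; exact gg_le' h0 h1 x)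
    (Set.mem_univ 0) (Set.mem_univ h)
  simpa [show Ath θ 0 = 0 by simp [Ath]] using this

theorem gg_pow (q : ℕ) (h : ℝ) : gg θ h ^ (2 * q) ≤ θ ^ (2 * q) * (1 + q * tanh h ^ 2)⁻¹ := by
  have a1 := tanh_sq_lt_one h
  have a2 := sq_nonneg (tanh h)
  refine (pow_le_pow_left₀ (gg_le h0 h1 h).1 (gg_le h0 h1 h).2 _).trans ?_
  rw [mul_pow]
  gcongr
  have a3 : 1 - tanh h ^ 2 / 2 ≤ exp (-(tanh h ^ 2 / 2)) := one_sub_le_exp_neg _
  refine (pow_le_pow_left₀ (by linarith) a3 _).trans ?_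
  rw [← exp_nat_mul, show ((2 * q : ℕ) : ℝ) * -(tanh h ^ 2 / 2) = -(q * tanh h ^ 2) by
    push_cast; ring, exp_neg]
  exact inv_anti₀ (by positivity) (by linarith [add_one_le_exp (q * tanh h ^ 2)])

/-- polynomial majorant used for the small-ball estimate -/
theorem gg_poly (q : ℕ) {η a : ℝ} (hη : 0 ≤ η) (hη1 : η ≤ 1) (ha : 0 ≤ a) (z : ℝ) :
    gg θ z ^ (2 * q) ≤ θ ^ (2 * q) *
      (1 - q * η / 2 / (1 + q * η / 2) * (2 * a * (z ^ 2 - η) - a ^ 2 * z ^ 4)) := by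
  refine (gg_pow h0 h1 q z).trans ?_
  gcongr
  have u0 : 0 ≤ q * η / 2 := by positivity
  have k0 : 0 ≤ q * η / 2 / (1 + q * η / 2) := by positivity
  rcases le_total η (z ^ 2) with h | h
  · have b1 : η / 2 ≤ tanh z ^ 2 := by
      refine le_trans ?_ (tanh_sq_ge z)
      rw [div_le_div_iff₀ (by positivity) (by positivity)]
      nlinarith
    have b2 : 2 * a * (z ^ 2 - η) - a ^ 2 * z ^ 4 ≤ 1 := by
      nlinarith [sq_nonneg (a * z ^ 2 - 1), mul_nonneg ha hη]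
    calc _ ≤ (1 + q * η / 2)⁻¹ := inv_anti₀ (by positivity) (by
          rw [mul_div_assoc]; gcongr)
      _ = 1 - q * η / 2 / (1 + q * η / 2) * 1 := by field_simp; ring
      _ ≤ _ := by gcongr
  · have b2 : 2 * a * (z ^ 2 - η) - a ^ 2 * z ^ 4 ≤ 0 := by
      nlinarith [mul_nonneg ha (sub_nonneg.2 h), mul_nonneg (sq_nonneg a) (sq_nonneg (z ^ 2))]
    have b3 := mul_nonpos_of_nonneg_of_nonpos k0 b2
    have b4 : (1 + q * tanh z ^ 2)⁻¹ ≤ 1 := inv_le_one_of_one_le₀ (by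
      linarith [mul_nonneg (Nat.cast_nonneg (α := ℝ) q) (sq_nonneg (tanh z))])
    linarith

end

theorem two_term {p : ℕ} (hp : Even p) {δ : ℝ} (hδ : 0 < δ) (a b : ℝ) :
    (a + b) ^ (2 * p) ≤ (1 + δ) ^ (2 * p) * (a ^ (2 * p) + b ^ (2 * p)) +
      (4 / δ) ^ p * (a ^ p * b ^ p) := by
  have e2 : Even (2 * p) := even_two_mul p
  wlog h : |b| ≤ |a| generalizing a b
  · have := this b a (by linarith)
    rwa [add_comm b, add_comm (b ^ _), mul_comm (b ^ p)] at this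
  rw [← e2.pow_abs (a + b), ← e2.pow_abs a, ← e2.pow_abs b, ← hp.pow_abs a, ← hp.pow_abs b]
  have t := abs_add_le a b
  have a0 := abs_nonneg a
  have b0 := abs_nonneg b
  have c0 := abs_nonneg (a + b)
  generalize |a| = x, |b| = y, |a + b| = z at *
  rcases le_total y (δ * x) with h2 | h2
  · have : z ^ (2 * p) ≤ ((1 + δ) * x) ^ (2 * p) := pow_le_pow_left₀ c0 (by linarith) _
    rw [mul_pow] at this
    refine this.trans (le_add_of_le_of_nonneg ?_ (by positivity))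
    gcongr
    exact le_add_of_nonneg_right (by positivity)
  · refine le_add_of_nonneg_of_le (by positivity) ?_
    rw [← mul_pow, ← mul_pow, pow_mul]
    refine pow_le_pow_left₀ (by positivity) ?_ _
    rw [div_mul_eq_mul_div, le_div_iff₀ hδ]
    have : z ^ 2 ≤ (2 * x) ^ 2 := pow_le_pow_left₀ c0 (by linarith) _
    nlinarith [mul_le_mul_of_nonneg_left h2 a0]

theorem exists_delta (n : ℕ) : ∃ δ : ℝ, 0 < δ ∧ (1 + δ) ^ n ≤ 3 / 2 := by
  have h : ContinuousAt (fun δ : ℝ => (1 + δ) ^ n) 0 := by fun_prop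
  obtain ⟨δ, h1, h2⟩ := Metric.continuousAt_iff.1 h (1 / 2) (by norm_num)
  have := h2 (x := δ / 2) (by rw [Real.dist_eq, sub_zero, abs_of_pos (by linarith)]; linarith)
  rw [Real.dist_eq, abs_lt] at this
  exact ⟨δ / 2, by linarith, by simp at this; linarith⟩

end Crest.Agent.R160.E2
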