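import Crest.Agent.R160.Env2A

/-! Row 160, sub-task F2: independence and the Nishimori symmetry. -/

set_option autoImplicit false

namespace Crest.Agent.R160.E2

open MeasureTheory ProbabilityTheory Finset
open scoped ENNReal

theorem indep_of_dep {J α β : Type*} [MeasurableSpace α] [MeasurableSpace β] {f : (J → ℝ) → α}
    {g : (J → ℝ) → β} (hf : Measurable f) (hg : Measurable g) {D : Set J} (h1 : DependsOn f Dᶜ)
    (h2 : DependsOn g D) : IndepFun f g (gam J) := by
  classical
  rw [indepFun_iff_map_prod_eq_prod_map_map hf.aemeasurable hg.aemeasurable,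
    Measure.map_prod_map _ _ hf hg]
  conv_lhs => rw [← (gam_merge (· ∉ D)).map_eq]
  rw [Measure.map_map (hf.prodMk hg) (gam_merge _).measurable]
  congr 1
  funext p
  exact Prod.ext (h1 fun i hi => if_pos hi) (h2 fun i hi => if_neg (not_not.2 hi))

theorem lint_indep {Ω α β : Type*} [MeasurableSpace Ω] [MeasurableSpace α] [MeasurableSpace β]
    {P : Measure Ω} [IsProbabilityMeasure P] {f : Ω → α} {g : Ω → β} (hf : Measurable f)
    (hg : Measurable g) (h : IndepFun f g P) {G : α × β → ℝ≥0∞} (hG : Measurable G) :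
    ∫⁻ w, G (f w, g w) ∂P = ∫⁻ w, ∫⁻ w', G (f w, g w') ∂P ∂P := by
  rw [← lintegral_map hG (hf.prodMk hg),
    (indepFun_iff_map_prod_eq_prod_map_map hf.aemeasurable hg.aemeasurable).1 h,
    Measure.map_prod_map _ _ hf hg, lintegral_map hG (hf.prodMap hg)]
  exact lintegral_prod _ (hG.comp (hf.prodMap hg)).aemeasurable

variable {V : Type*} (F : Fo V)

/-- coordinates below `x` -/
def sub (x : V) : Set (V × Bool) := {p | p.1 ∈ F.Sub x}

/-- coordinates below `x`, without the edge sign of `x` -/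
def dep (x : V) : Set (V × Bool) := {p | p.1 ∈ F.Sub x ∧ p ≠ (x, true)}

theorem dep_part {E : Type*} [AddCommMonoid E] {x z : V} (hz : z ∈ F.ch x) {s : Finset V}
    (hs : s ⊆ F.ch x) (hzs : z ∉ s) (φ : ℝ → E) {Ψ : V → (V × Bool → ℝ) → E}
    (hd : ∀ z, DependsOn (Ψ z) (sub F z)) :
    DependsOn (fun w => φ (w (x, false)) + ∑ u ∈ s, Ψ u w) (sub F z)ᶜ := fun w w' h => by
  dsimp only
  rw [h (x, false) (F.nself x z hz), sum_congr rfl fun u hu => hd u fun p hp => h p
    (Set.disjoint_left.1 (F.disj x u (hs hu) z hz fun e => hzs (e ▸ hu)) hp)]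

theorem sum_ind {E : Type*} [AddCommMonoid E] [MeasurableSpace E] [MeasurableAdd₂ E] (x : V)
    {φ : ℝ → E} (hφ : Measurable φ) {Ψ : V → (V × Bool → ℝ) → E} (hΨ : ∀ z, Measurable (Ψ z))
    (hd : ∀ z, DependsOn (Ψ z) (sub F z)) {P : ℕ → ((V × Bool → ℝ) → E) → Prop}
    (h0 : P 0 fun w => φ (w (x, false)))
    (hs : ∀ k T z, z ∈ F.ch x → k < #(F.ch x) → Measurable T → IndepFun T (Ψ z) (gam _) →
      P k T → P (k + 1) fun w => T w + Ψ z w) :
    P #(F.ch x) fun w => φ (w (x, false)) + ∑ z ∈ F.ch x, Ψ z w := by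
  classical
  suffices ∀ s ⊆ F.ch x, P #s fun w => φ (w (x, false)) + ∑ z ∈ s, Ψ z w from this _ Subset.rfl
  intro s
  induction s using Finset.induction_on with
  | empty => simpa using h0
  | insert z s hz ih =>
    intro h
    have h1 := (subset_insert z s).trans h
    have h2 := h (mem_insert_self z s)
    have hm : Measurable fun w : V × Bool → ℝ => φ (w (x, false)) + ∑ z ∈ s, Ψ z w := by fun_prop
    have := hs _ _ z h2 (by have := card_le_card h; rw [card_insert_of_notMem hz] at this; omega)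
      hm (indep_of_dep hm (hΨ z) (dep_part F h2 h1 hz φ hd) (hd z)) (ih h1)
    simpa only [card_insert_of_notMem hz, sum_insert hz, add_assoc, add_comm (Ψ z _)] using this

variable (θ : ℝ) (tf : ℝ → ℝ) (τ : ℝ)

/-- the cavity field -/
noncomputable def hh (x : V) (w : V × Bool → ℝ) : ℝ := F.HH θ tf (fun _ => τ) τ w x

/-- the message to the parent -/
noncomputable def XX (z : V) (w : V × Bool → ℝ) : ℝ := tf (w (z, true)) * Ath θ (hh F θ tf τ z w)

theorem hh_eq (x : V) :
    hh F θ tf τ x = fun w => (τ + √τ * w (x, false)) + ∑ z ∈ F.ch x, XX F θ tf τ z w :=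
  funext fun _ => F.H_eq _ _ _ x

/-- the linear estimator -/
noncomputable def SS : ℕ → V → (V × Bool → ℝ) → ℝ
  | 0, x, w => τ + √τ * w (x, false)
  | j + 1, x, w => (τ + √τ * w (x, false)) + ∑ z ∈ F.ch x, tf (w (z, true)) * (θ * SS j z w)

/-- all observables together -/
noncomputable def OO (x : V) (w : V × Bool → ℝ) : ℕ → ℝ
  | 0 => hh F θ tf τ x w
  | j + 1 => SS F θ tf τ j x w

/-- the message map -/
noncomputable def Phi (e : ℕ → ℝ) : ℕ → ℝ
  | 0 => Ath θ (e 0)
  | 1 => 0
  | j + 2 => θ * e (j + 1)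

theorem meas_Phi : Measurable (Phi θ) := measurable_pi_lambda _ fun
  | 0 => (meas_A θ).comp (measurable_pi_apply 0)
  | 1 => measurable_const
  | j + 2 => (by fun_prop : Measurable fun e : ℕ → ℝ => θ * e (j + 1))

theorem Phi_neg (e : ℕ → ℝ) : Phi θ (-e) = -Phi θ e := funext fun
  | 0 => A_neg θ _
  | 1 => neg_zero.symm
  | _ + 2 => mul_neg θ _

theorem OO_eq (x : V) : OO F θ tf τ x = fun w => (fun _ => τ + √τ * w (x, false)) +
    ∑ z ∈ F.ch x, tf (w (z, true)) • Phi θ (OO F θ tf τ z w) := by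
  funext w n
  rw [Pi.add_apply, Finset.sum_apply]
  match n with
  | 0 => exact F.H_eq _ _ _ x
  | 1 => simp [OO, SS, Phi]
  | j + 2 => rfl

theorem dep_O (x : V) : DependsOn (OO F θ tf τ x) (dep F x) := by
  induction x using F.ind with
  | h x ih =>
    intro w w' h
    have k : ∀ z ∈ F.ch x, ∀ p : V × Bool, p.1 ∈ F.Sub z → w p = w' p := fun z hz p hp =>
      h p ⟨F.sub x z hz hp, fun e => F.nself x z hz (by rwa [e] at hp)⟩
    rw [OO_eq]
    dsimp only
    rw [h (x, false) ⟨F.self x, by simp⟩, sum_congr rfl fun z hz => by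
      rw [k z hz _ (F.self z), ih z hz fun p hp => k z hz p hp.1]]

theorem dep_h (x : V) : DependsOn (hh F θ tf τ x) (dep F x) := fun _ _ h =>
  congrFun (dep_O F θ tf τ x h) 0

theorem dep_S (j : ℕ) (x : V) : DependsOn (SS F θ tf τ j x) (dep F x) := fun _ _ h =>
  congrFun (dep_O F θ tf τ x h) (j + 1)

theorem dep_mul {E : Type*} (G : ℝ → E → E) {z : V} {Z : (V × Bool → ℝ) → E}
    (h : DependsOn Z (dep F z)) : DependsOn (fun w => G (w (z, true)) (Z w)) (sub F z) :=
  fun w w' e => by
    dsimp only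
    rw [e (z, true) (F.self z), h fun p hp => e p hp.1]

theorem dep_X (z : V) : DependsOn (XX F θ tf τ z) (sub F z) :=
  dep_mul F (fun t a => tf t * Ath θ a) (dep_h F θ tf τ z)

variable {θ tf}

theorem meas_O (ht : Measurable tf) (x : V) : Measurable (OO F θ tf τ x) := by
  induction x using F.ind with
  | h x ih =>
    rw [OO_eq]
    refine Measurable.add (by fun_prop) (Finset.measurable_fun_sum _ fun z hz => ?_)
    exact (ht.comp (measurable_pi_apply _)).smul ((meas_Phi θ).comp (ih z hz))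

theorem meas_h (ht : Measurable tf) (x : V) : Measurable (hh F θ tf τ x) :=
  by have := meas_O (θ := θ) F τ ht x; exact (by fun_prop : Measurable fun w => OO F θ tf τ x w 0)

theorem meas_S (ht : Measurable tf) (j : ℕ) (x : V) : Measurable (SS F θ tf τ j x) :=
  (measurable_pi_apply (j + 1)).comp (meas_O F τ ht x)

theorem meas_X (ht : Measurable tf) (x : V) : Measurable (XX F θ tf τ x) :=
  (ht.comp (measurable_pi_apply _)).mul ((meas_A θ).comp (meas_h F τ ht x))

theorem abs_t (ht : Sgn θ tf) (x : ℝ) : |tf x| = 1 := by rcases ht.pm x with h | h <;> simp [h]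

theorem int_t (ht : Sgn θ tf) (p : V × Bool) : ∫ w, tf (w p) ∂gam _ = θ := by
  rw [integral_mp (gam_eval p) ht.meas]
  have hs : MeasurableSet {x | tf x = 1} := ht.meas (measurableSet_singleton 1)
  have : tf = fun x => 2 * {x | tf x = 1}.indicator 1 x - 1 := funext fun x => by
    rcases ht.pm x with h | h
    · rw [Set.indicator_of_mem (by exact h), h]; norm_num
    · rw [Set.indicator_of_notMem (by simp [h]; norm_num), h]; norm_num
  rw [this, integral_sub (((integrable_const 1).indicator hs).const_mul 2) (integrable_const 1),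
    integral_const_mul, integral_indicator_one hs, ht.law]
  simp; ring

variable {F} in
theorem indep_t {E : Type*} [MeasurableSpace E] {z : V} {Z : (V × Bool → ℝ) → E} (hZ : Measurable Z)
    (h : DependsOn Z (dep F z)) : IndepFun (fun w => w (z, true)) Z (gam _) :=
  indep_of_dep (measurable_pi_apply _) hZ (fun _ _ e => e _ fun h => h.2 rfl) h

variable {F} in
theorem int_t_mul (ht : Sgn θ tf) {z : V} {Z : (V × Bool → ℝ) → ℝ} (hZ : Measurable Z)
    (h : DependsOn Z (dep F z)) : ∫ w, tf (w (z, true)) * Z w ∂gam _ = θ * ∫ w, Z w ∂gam _ := by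
  rw [← int_t ht (z, true)]
  exact ((indep_t hZ h).comp ht.meas measurable_id).integral_fun_mul_eq_mul_integral
    (ht.meas.comp (measurable_pi_apply _)).aestronglyMeasurable hZ.aestronglyMeasurable

variable {F} in
theorem lint_t (ht : Sgn θ tf) {E : Type*} [MeasurableSpace E] {z : V} {Z : (V × Bool → ℝ) → E}
    (hZ : Measurable Z) (h : DependsOn Z (dep F z)) {G : ℝ → E → ℝ≥0∞} (h1 : Measurable (G 1))
    (h2 : Measurable (G (-1))) : ∫⁻ w, G (tf (w (z, true))) (Z w) ∂gam _ =
      ∫⁻ w, (ENNReal.ofReal ((1 + θ) / 2) * G 1 (Z w) +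
        ENNReal.ofReal ((1 - θ) / 2) * G (-1) (Z w)) ∂gam _ := by
  have key : ∀ (s : ℝ), |s| = 1 → ∀ g : E → ℝ≥0∞, Measurable g →
      ∫⁻ w, ENNReal.ofReal ((1 + s * tf (w (z, true))) / 2) * g (Z w) ∂gam _ =
        ∫⁻ w, ENNReal.ofReal ((1 + s * θ) / 2) * g (Z w) ∂gam _ := fun s hs g hg => by
    have m : Measurable fun x => (1 + s * tf x) / 2 := by have := ht.meas; fun_prop
    have b : ∀ x, |s * tf x| = 1 := fun x => by rw [abs_mul, hs, abs_t ht, one_mul]
    have i : Integrable (fun w : V × Bool → ℝ => s * tf (w (z, true))) (gam _) :=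
      BM.integrable ⟨by have := ht.meas; fun_prop, 1, fun _ => (b _).le⟩ _
    rw [lintegral_const_mul _ (by fun_prop)]
    refine (lintegral_mul_eq_lintegral_mul_lintegral_of_indepFun''
      (m.comp (measurable_pi_apply _)).ennreal_ofReal.aemeasurable (hg.comp hZ).aemeasurable
      ((indep_t hZ h).comp m.ennreal_ofReal hg)).trans ?_
    congr 1
    refine (ofReal_integral_eq_lintegral_ofReal (((integrable_const 1).add i).div_const 2)
      (ae_of_all _ fun w => ?_)).symm.trans ?_
    · have := abs_le.1 (b (w (z, true))).le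
      simp only [Pi.add_apply, Pi.zero_apply]; linarith
    · simp only [Pi.add_apply]
      rw [integral_div, integral_add (integrable_const 1) i, integral_const_mul, int_t ht]
      simp
  have k1 := key 1 (by simp) _ h1
  have k2 := key (-1) (by simp) _ h2
  simp only [one_mul, neg_mul, ← sub_eq_add_neg] at k1 k2
  rw [lintegral_add_left (by fun_prop), ← k1, ← k2, ← lintegral_add_left]
  · refine lintegral_congr fun w => ?_
    rcases ht.pm (w (z, true)) with e | e <;> simp [e]
  · have := ht.meas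
    exact (by fun_prop : Measurable fun w : V × Bool → ℝ =>
      (1 + tf (w (z, true))) / 2).ennreal_ofReal.mul (h1.comp hZ)

/-- the weight `e^{-H}` -/
noncomputable def rho (e : ℕ → ℝ) : ℝ≥0∞ := ENNReal.ofReal (Real.exp (-e 0))

theorem meas_rho : Measurable rho := by unfold rho; fun_prop

theorem rho_add (a b : ℕ → ℝ) : rho (a + b) = rho a * rho b := by
  rw [rho, Pi.add_apply, neg_add, Real.exp_add, ENNReal.ofReal_mul (Real.exp_pos _).le]; rfl

/-- Nishimori symmetry -/
def Nish {Ω : Type*} [MeasurableSpace Ω] (P : Measure Ω) (O : Ω → ℕ → ℝ) : Prop :=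
  ∀ f : (ℕ → ℝ) → ℝ≥0∞, Measurable f →
    ∫⁻ w, f (-O w) * rho (O w) ∂P = ∫⁻ w, f (O w) * rho (O w) ∂P

theorem Nish.add {Ω : Type*} [MeasurableSpace Ω] {P : Measure Ω} [IsProbabilityMeasure P]
    {A B : Ω → ℕ → ℝ} (hA : Measurable A) (hB : Measurable B) (h : IndepFun A B P)
    (h1 : Nish P A) (h2 : Nish P B) : Nish P fun w => A w + B w := fun f hf => by
  have := meas_rho
  have m : Measurable fun a : ℕ → ℝ => ∫⁻ w, f (a + B w) * rho (B w) ∂P :=
    Measurable.lintegral_prod_right' (f := fun p : (ℕ → ℝ) × Ω => f (p.1 + B p.2) * rho (B p.2))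
      (by fun_prop)
  have e : ∀ a c : ℕ → ℝ, ∫⁻ w, f (c + B w) * rho (a + B w) ∂P =
      (∫⁻ w, f (c + B w) * rho (B w) ∂P) * rho a := fun a c => by
    rw [← lintegral_mul_const _ (by fun_prop)]
    simp only [rho_add, mul_comm (rho a), mul_assoc]
  rw [lint_indep hA hB h (G := fun p => f (-(p.1 + p.2)) * rho (p.1 + p.2)) (by fun_prop),
    lint_indep hA hB h (G := fun p => f (p.1 + p.2) * rho (p.1 + p.2)) (by fun_prop)]
  simp only [e]
  rw [← h1 _ m]
  refine lintegral_congr fun w => ?_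
  rw [← h2 (fun b => f (-A w + b)) (by fun_prop), ← lintegral_mul_const _ (by fun_prop)]
  simp only [rho_add, mul_comm (rho (A w)), mul_assoc, neg_add]

theorem Nish.real {Ω : Type*} [MeasurableSpace Ω] {P : Measure Ω} {O : Ω → ℕ → ℝ} (h : Nish P O)
    {f : (ℕ → ℝ) → ℝ} (hf : Measurable f) (ho : ∀ e, f (-e) = -f e) :
    ∫ w, f (O w) * Real.exp (-O w 0) ∂P = 0 := by
  by_cases hi : Integrable (fun w => f (O w) * Real.exp (-O w 0)) P
  · rw [integral_eq_lintegral_pos_part_sub_lintegral_neg_part hi, sub_eq_zero]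
    have := h _ hf.ennreal_ofReal
    simp only [ho, rho, ← ENNReal.ofReal_mul' (Real.exp_pos _).le, neg_mul] at this
    rw [this]
  · exact integral_undef hi

theorem nish_y {τ : ℝ} (hτ : 0 ≤ τ) (p : V × Bool) :
    Nish (gam _) fun (w : V × Bool → ℝ) (_ : ℕ) => τ + √τ * w p := by
  classical
  have key : ∀ g : ℝ → ℝ≥0∞, Measurable g →
      ∫⁻ w, g (τ + √τ * w p) * ENNReal.ofReal (Real.exp (-(τ + √τ * w p))) ∂gam _ =
        (∫⁻ x, g (√τ * x) ∂gaussianReal 0 1) * ENNReal.ofReal (Real.exp (-τ / 2)) := fun g hg => by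
    have h1 := lintegral_map (μ := gam (V × Bool)) (f := fun w => g (τ + √τ * w p))
      (g := fun z i => z i + if i ∈ ({p} : Finset _) then -√τ else 0) (by fun_prop)
      (measurable_pi_lambda _ fun i => by fun_prop)
    rw [gam_shift, lintegral_withDensity_eq_lintegral_mul _ (by fun_prop) (by fun_prop)] at h1
    simp only [sum_singleton, mem_singleton, if_true, Pi.mul_apply, mul_add, mul_neg,
      Real.mul_self_sqrt hτ, neg_sq, Real.sq_sqrt hτ, add_comm τ, neg_add_cancel_right] at h1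
    rw [← (gam_eval p).lintegral_comp (f := fun x => g (√τ * x)) (by fun_prop), ← h1,
      ← lintegral_mul_const _ (by fun_prop)]
    refine lintegral_congr fun w => ?_
    rw [mul_comm _ (g _), mul_assoc, ← ENNReal.ofReal_mul (Real.exp_pos _).le, ← Real.exp_add,
      add_comm τ]
    congr 3; ring
  intro f hf
  refine (key (fun y => f (-fun _ => y)) (by fun_prop)).trans
    (Eq.trans ?_ (key (fun y => f fun _ => y) (by fun_prop)).symm)
  congr 1
  conv_rhs => rw [← neg_zero, ← gaussianReal_map_neg, lintegral_map (by fun_prop) (by fun_prop)]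
  simp only [mul_neg]
  rfl

theorem nish_X (h0 : 0 ≤ θ) (h1 : θ ^ 2 ≤ 1 / 2) (ht : Sgn θ tf) {z : V}
    {O : (V × Bool → ℝ) → ℕ → ℝ} (hO : Measurable O) (hd : DependsOn O (dep F z))
    (h : Nish (gam _) O) : Nish (gam _) fun w => tf (w (z, true)) • Phi θ (O w) := fun f hf => by
  have := meas_rho
  have := meas_Phi θ
  have := meas_qq θ
  rw [lint_t ht hO hd (G := fun t e => f (-(t • Phi θ e)) * rho (t • Phi θ e)) (by fun_prop)
    (by fun_prop), lint_t ht hO hd (G := fun t e => f (t • Phi θ e) * rho (t • Phi θ e))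
    (by fun_prop) (by fun_prop)]
  have e : ∀ e, ENNReal.ofReal ((1 + θ) / 2) * rho (Phi θ e) =
      ENNReal.ofReal ((1 - θ) / 2) * rho (-Phi θ e) +
        ENNReal.ofReal (θ / qq θ (e 0) * (Real.cosh (e 0))⁻¹) * rho e := fun e => by
    have a1 := qq_ge h0 h1 (e 0)
    have a2 := (sech_le (e 0)).1
    have a3 : θ ≤ 1 := by nlinarith
    simp only [rho]
    rw [← ENNReal.ofReal_mul (by positivity), ← ENNReal.ofReal_mul (by linarith),
      ← ENNReal.ofReal_mul (by positivity), ← ENNReal.ofReal_add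
        (mul_nonneg (by linarith) (Real.exp_pos _).le) (by positivity), mul_assoc, ← one_sub_tanh,
      Pi.neg_apply, neg_neg, Phi, exp_A h0 h1, exp_neg_A h0 h1]
    congr 1; ring
  have k := h (fun e => f (Phi θ e) * ENNReal.ofReal (θ / qq θ (e 0) * (Real.cosh (e 0))⁻¹))
    (by fun_prop)
  simp only [Phi_neg, Pi.neg_apply, qq_neg, Real.cosh_neg, mul_assoc] at k
  simp only [one_smul, neg_smul, neg_neg, mul_left_comm (ENNReal.ofReal _) (f _), e, mul_add,
    add_right_comm _ (f _ * (ENNReal.ofReal (θ / _ * _) * _))]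
  rw [lintegral_add_left (by fun_prop), lintegral_add_left (by fun_prop) (fun w => f (Phi θ (O w)) *
    (ENNReal.ofReal (θ / _ * _) * _)), k]
  simp only [add_comm]

theorem nish (h0 : 0 ≤ θ) (h1 : θ ^ 2 ≤ 1 / 2) (ht : Sgn θ tf) {τ : ℝ} (hτ : 0 ≤ τ) (x : V) :
    Nish (gam _) (OO F θ tf τ x) := by
  induction x using F.ind with
  | h x ih =>
    have m : ∀ z, Measurable fun w => tf (w (z, true)) • Phi θ (OO F θ tf τ z w) := fun z =>
      (ht.meas.comp (measurable_pi_apply _)).smul ((meas_Phi θ).comp (meas_O F τ ht.meas z))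
    rw [OO_eq]
    exact sum_ind F x (φ := fun g _ => τ + √τ * g) (by fun_prop) m
      (fun z => dep_mul F (fun t e => tf t • Phi θ e) (dep_O F θ tf τ z))
      (P := fun _ => Nish (gam _)) (nish_y hτ _) fun _ T z hz _ hT hi hN => hN.add hT (m z) hi
        (nish_X F h0 h1 ht (meas_O F τ ht.meas z) (dep_O F θ tf τ z) (ih z hz))

end Crest.Agent.R160.E2
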