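import Crest.Agent.R160.Env2B

/-! Row 160, sub-task F2: moments of the cavity fields. -/

set_option autoImplicit false
set_option linter.unusedSectionVars false

namespace Crest.Agent.R160.E2

open MeasureTheory ProbabilityTheory Finset Real

universe u

theorem int_pow {Ω : Type*} [MeasurableSpace Ω] {P : Measure Ω} [IsProbabilityMeasure P]
    {T : Ω → ℝ} {n : ℕ} (h : MemLp T n P) : Integrable (fun w => T w ^ n) P :=
  h.integrable_norm_pow'.mono' (h.1.pow n) (ae_of_all _ fun w => by simp)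

theorem bm_memLp {Ω : Type*} [MeasurableSpace Ω] {P : Measure Ω} [IsProbabilityMeasure P]
    {T : Ω → ℝ} (h : BM T) (n : ENNReal) : MemLp T n P := by
  obtain ⟨h1, C, h2⟩ := h
  exact MemLp.of_bound h1.aestronglyMeasurable C (ae_of_all _ h2)

theorem bm_tanh : BM tanh := ⟨meas_tanh, 1, fun x => (abs_tanh_lt_one x).le⟩

theorem bm_sech : BM fun h => (cosh h)⁻¹ :=
  ⟨by fun_prop, 1, fun x => by rw [abs_of_pos (sech_le x).1]; exact (sech_le x).2⟩

variable {V : Type*}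

theorem memLp_g (p : V × Bool) (n : ℕ) : MemLp (fun w : V × Bool → ℝ => w p) n (gam _) :=
  (memLp_id_gaussianReal' n (by simp)).comp_measurePreserving (gam_eval p)

theorem memLp_y (τ : ℝ) (p : V × Bool) (n : ℕ) :
    MemLp (fun w : V × Bool → ℝ => τ + √τ * w p) n (gam _) :=
  (memLp_const τ).add ((memLp_g p n).const_mul _)

theorem int_g (p : V × Bool) : ∫ w, w p ∂gam _ = 0 := by
  simpa using integral_lin {p} fun _ => 1

theorem int_g_sq (p : V × Bool) : ∫ w, w p ^ 2 ∂gam _ = 1 := by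
  simpa using integral_lin_sq {p} fun _ => 1

theorem int_y (τ : ℝ) (p : V × Bool) : ∫ w, τ + √τ * w p ∂gam _ = τ := by
  rw [integral_add (integrable_const _) (((memLp_g p 1).integrable (by simp)).const_mul _),
    integral_const_mul, int_g]
  simp

theorem int_y_sq {τ : ℝ} (hτ : 0 ≤ τ) (p : V × Bool) :
    ∫ w, (τ + √τ * w p) ^ 2 ∂gam _ = τ + τ ^ 2 := by
  have i1 := ((memLp_g p 1).integrable (by simp)).const_mul (2 * τ * √τ)
  have i2 := (int_pow (memLp_g p 2)).const_mul τ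
  have : ∀ w : V × Bool → ℝ, (τ + √τ * w p) ^ 2 = τ ^ 2 + (2 * τ * √τ * w p + τ * w p ^ 2) :=
    fun w => by rw [add_sq, mul_pow, sq_sqrt hτ]; ring
  simp only [this]
  rw [integral_add (integrable_const _) (i1.fun_add i2), integral_add i1 i2, integral_const_mul,
    integral_const_mul, int_g, int_g_sq]
  simp [add_comm]

theorem exp_y {τ : ℝ} (hτ : 0 ≤ τ) (p : V × Bool) :
    Integrable (fun w : V × Bool → ℝ => exp (-(τ + √τ * w p))) (gam _) ∧
      ∫ w, exp (-(τ + √τ * w p)) ∂gam _ = exp (-τ / 2) := by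
  have h1 := integrable_exp_lin {p} fun _ => -√τ
  have h2 := integral_exp_lin {p} fun _ => -√τ
  simp only [sum_singleton, neg_mul, neg_sq, sq_sqrt hτ] at h1 h2
  simp only [neg_add, exp_add]
  refine ⟨h1.const_mul _, ?_⟩
  rw [integral_const_mul, h2, ← exp_add]
  congr 1; ring

theorem y_pow {n : ℕ} (hn : Even n) : ∃ K : ℝ, 1 ≤ K ∧ ∀ (V : Type u) (p : V × Bool) (σ : ℝ),
    0 < σ → σ ≤ 1 → ∫ w, (σ ^ 4 + √(σ ^ 4) * w p) ^ n ∂gam _ ≤ K * σ ^ n := by
  have h0 : 0 ≤ ∫ x, x ^ n ∂gaussianReal 0 1 := integral_nonneg fun x => hn.pow_nonneg x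
  have h1 : (1 : ℝ) ≤ 2 ^ (n - 1) := one_le_pow₀ one_le_two
  refine ⟨2 ^ (n - 1) * (1 + ∫ x, x ^ n ∂gaussianReal 0 1), by nlinarith, fun V p σ a1 a2 => ?_⟩
  have i := int_pow (memLp_g p n)
  rw [← integral_mp (gam_eval p) (by fun_prop), ← probReal_univ (μ := gam (V × Bool)),
    ← mul_one (Measure.real _ _), ← smul_eq_mul (Measure.real _ _), ← integral_const,
    ← integral_add (integrable_const _) i, ← integral_const_mul, ← integral_mul_const]
  refine integral_mono (int_pow (memLp_y _ p n))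
    ((((integrable_const _).add i).const_mul _).mul_const _) fun w => ?_
  have e : σ ^ 4 + √(σ ^ 4) * w p = σ * (σ ^ 3 + σ * w p) := by
    rw [show σ ^ 4 = (σ ^ 2) ^ 2 by ring, sqrt_sq (by positivity)]; ring
  dsimp only
  rw [e, mul_pow, mul_comm]
  gcongr
  refine hn.add_pow_le.trans ?_
  rw [mul_pow]
  gcongr
  · exact pow_le_one₀ (by positivity) (pow_le_one₀ a1.le a2)
  · exact mul_le_of_le_one_left (hn.pow_nonneg _) (pow_le_one₀ a1.le a2)

variable (F : Fo V) {θ : ℝ} {tf : ℝ → ℝ} (h0 : 0 ≤ θ) (h1 : θ ^ 2 ≤ 1 / 2) (ht : Sgn θ tf)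
include h0 h1 ht

theorem abs_X (τ : ℝ) (z : V) (w : V × Bool → ℝ) :
    |XX F θ tf τ z w| = |Ath θ (hh F θ tf τ z w)| := by rw [XX, abs_mul, abs_t ht, one_mul]

theorem bm_X (τ : ℝ) (z : V) : BM (XX F θ tf τ z) :=
  ⟨meas_X F τ ht.meas z, 3, fun w => by rw [abs_X F h0 h1 ht]; exact abs_A h0 h1 _⟩

theorem memLp_h (τ : ℝ) (x : V) (n : ℕ) : MemLp (hh F θ tf τ x) n (gam _) := by
  rw [hh_eq]
  exact (memLp_y τ _ n).add (bm_memLp (BM.sum _ fun z _ => bm_X F h0 h1 ht τ z) n)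

theorem bm_qq : BM (qq θ) ∧ BM fun h => (qq θ h)⁻¹ := by
  have := meas_qq θ
  refine ⟨⟨this, 1, fun x => ?_⟩, by fun_prop, 2, fun x => ?_⟩
  · rw [abs_of_nonneg (by linarith [qq_ge h0 h1 x])]; exact qq_le x
  · have := qq_ge h0 h1 x
    rw [abs_of_nonneg (by positivity)]
    exact inv_le_of_inv_le₀ two_pos (by linarith)

variable {τ : ℝ} (hτ : 0 ≤ τ)
include hτ

theorem int_exp_h (x : V) : Integrable (fun w => exp (-hh F θ tf τ x w)) (gam _) := by
  obtain ⟨m, C, hC⟩ := BM.sum (F.ch x) fun z _ => bm_X F h0 h1 ht τ z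
  simp only [hh_eq, neg_add _ (∑ _ ∈ _, _), exp_add]
  exact (exp_y hτ _).1.mul_bdd (c := exp C) m.neg.exp.aestronglyMeasurable (ae_of_all _ fun w => by
    rw [norm_of_nonneg (exp_pos _).le]; exact exp_le_exp.2 ((neg_le_abs _).trans (hC w)))

theorem odd_h (x : V) {f : ℝ → ℝ} (hf : Measurable f) (ho : ∀ h, f (-h) = -f h) :
    ∫ w, f (hh F θ tf τ x w) * exp (-hh F θ tf τ x w) ∂gam _ = 0 :=
  (nish F h0 h1 ht hτ x).real (f := fun e => f (e 0)) (by fun_prop) fun e => ho (e 0)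

theorem add_odd (x : V) {f g : ℝ → ℝ} (hf : BM f) (ho : ∀ h, f (-h) = -f h)
    (hg : Integrable (fun w => g (hh F θ tf τ x w)) (gam _)) :
    ∫ w, g (hh F θ tf τ x w) + f (hh F θ tf τ x w) * exp (-hh F θ tf τ x w) ∂gam _ =
      ∫ w, g (hh F θ tf τ x w) ∂gam _ := by
  obtain ⟨m, C, hC⟩ := hf.comp (meas_h (θ := θ) F τ ht.meas x)
  rw [integral_add hg ((int_exp_h F h0 h1 ht hτ x).bdd_mul (c := C) m.aestronglyMeasurable
    (ae_of_all _ hC)), odd_h F h0 h1 ht hτ x hf.1 ho, add_zero]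

theorem B_eq (x : V) :
    ∫ w, exp (-hh F θ tf τ x w) ∂gam _ = ∫ w, (cosh (hh F θ tf τ x w))⁻¹ ∂gam _ := by
  rw [← add_odd F h0 h1 ht hτ x (g := fun h => exp (-h)) bm_tanh tanh_neg
    (int_exp_h F h0 h1 ht hτ x)]
  refine integral_congr_ae (ae_of_all _ fun w => ?_)
  have := one_sub_tanh (-hh F θ tf τ x w)
  rw [tanh_neg, cosh_neg, neg_neg, sub_neg_eq_add] at this
  dsimp only
  rw [← one_add_mul, this, mul_assoc, ← exp_add, add_neg_cancel, exp_zero, mul_one]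

theorem BX_eq (z : V) :
    ∫ w, exp (-XX F θ tf τ z w) ∂gam _ = ∫ w, qq θ (hh F θ tf τ z w) ∂gam _ := by
  have m := meas_h (θ := θ) F τ ht.meas z
  obtain ⟨q1, q2⟩ := bm_qq h0 h1 ht
  have b1 := q2.comp m
  have b2 := (((BM.const θ).mul bm_tanh).mul q2).comp m
  have b3 : BM fun w : V × Bool → ℝ => tf (w (z, true)) :=
    ⟨ht.meas.comp (measurable_pi_apply _), 1, fun w => (abs_t ht _).le⟩
  have e : ∀ w, exp (-XX F θ tf τ z w) = (qq θ (hh F θ tf τ z w))⁻¹ - tf (w (z, true)) *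
      (θ * tanh (hh F θ tf τ z w) * (qq θ (hh F θ tf τ z w))⁻¹) := fun w => by
    rw [XX]
    rcases ht.pm (w (z, true)) with e | e <;> rw [e]
    · rw [one_mul, exp_neg_A h0 h1]; ring
    · rw [neg_one_mul, neg_neg, exp_A h0 h1]; ring
  simp only [e]
  rw [integral_sub (b1.integrable _) ((b3.mul b2).integrable _), int_t_mul (F := F) ht b2.1
    (fun _ _ h => by simp only [dep_h F θ tf τ z h]), ← integral_const_mul,
    ← integral_sub (b1.integrable _) ((b2.integrable _).const_mul _),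
    ← add_odd F h0 h1 ht hτ z (g := qq θ)
      (f := fun h => -θ ^ 2 * tanh h * (cosh h)⁻¹ * (qq θ h)⁻¹)
      ((((BM.const _).mul bm_tanh).mul bm_sech).mul q2) (fun h => by simp [qq_neg])
      ((q1.comp m).integrable _)]
  refine integral_congr_ae (ae_of_all _ fun w => ?_)
  dsimp only
  generalize hh F θ tf τ z w = h
  have a1 := qq_sq h0 h1 h
  have a2 := qq_ge h0 h1 h
  rw [mul_right_comm _ (qq θ h)⁻¹, mul_assoc _ (cosh h)⁻¹, ← one_sub_tanh]
  field_simp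
  linarith

theorem BX_ge (z : V) : 1 - θ ^ 2 * (1 - (∫ w, exp (-hh F θ tf τ z w) ∂gam _) ^ 2) ≤
    (∫ w, exp (-XX F θ tf τ z w) ∂gam _) ^ 2 := by
  have m := meas_h (θ := θ) F τ ht.meas z
  rw [B_eq F h0 h1 ht hτ, BX_eq F h0 h1 ht hτ]
  have i1 := (bm_sech.comp m).integrable (gam _)
  have i2 := ((bm_qq h0 h1 ht).1.comp m).integrable (gam _)
  set B := ∫ w, (cosh (hh F θ tf τ z w))⁻¹ ∂gam _ with hB
  have p0 : 0 < 1 - θ ^ 2 * (1 - B ^ 2) := by nlinarith [mul_nonneg (sq_nonneg θ) (sq_nonneg B)]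
  have p1 := sqrt_pos.2 p0
  have p2 := sq_sqrt p0.le
  generalize √(1 - θ ^ 2 * (1 - B ^ 2)) = r at p1 p2
  have key := integral_mono (((i1.const_mul (θ ^ 2 * B))).add (integrable_const (1 - θ ^ 2)))
    (i2.const_mul r) fun w => by
      dsimp only [Pi.add_apply]
      generalize hh F θ tf τ z w = h
      have a1 := qq_sq h0 h1 h
      have a2 := qq_ge h0 h1 h
      refine le_of_sq_le_sq ?_ (by positivity)
      rw [mul_pow r, p2, a1, mul_pow θ, show tanh h ^ 2 = 1 - (cosh h)⁻¹ ^ 2 by rw [sech_sq]; ring]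
      nlinarith [mul_nonneg (mul_nonneg (sq_nonneg θ) (show 0 ≤ 1 - θ ^ 2 by linarith))
        (sq_nonneg ((cosh h)⁻¹ - B))]
  simp only [Pi.add_apply] at key
  rw [integral_add (i1.const_mul _) (integrable_const _), integral_const_mul, integral_const_mul,
    ← hB] at key
  simp only [integral_const, probReal_univ, smul_eq_mul, one_mul] at key
  rw [← p2]
  refine pow_le_pow_left₀ p1.le (le_of_mul_le_mul_left ?_ p1) 2
  linarith

theorem B_step {b : ℕ} (hb : 2 ≤ b) (hθ : b * θ ^ 2 ≤ 1) {ε : ℝ} (e0 : 0 ≤ ε) (e2 : ε ≤ 2)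
    (eτ : τ = ε ^ 2 / 4) {x : V} (hx : #(F.ch x) ≤ b)
    (ih : ∀ z ∈ F.ch x, 1 - ε ≤ (∫ w, exp (-hh F θ tf τ z w) ∂gam _) ^ 2) :
    1 - ε ≤ (∫ w, exp (-hh F θ tf τ x w) ∂gam _) ^ 2 := by
  have b2 : (2 : ℝ) ≤ b := by exact_mod_cast hb
  have r0 : ε / b ≤ 1 := by rw [div_le_one (by linarith)]; linarith
  have r1 : 0 ≤ ε / b := by positivity
  have key := sum_ind F x (φ := fun g => τ + √τ * g) (by fun_prop) (meas_X (θ := θ) F τ ht.meas)
    (dep_X F θ tf τ) (P := fun k T => exp (-τ) * (1 - ε / b) ^ k ≤ (∫ w, exp (-T w) ∂gam _) ^ 2)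
    (by rw [(exp_y hτ _).2, ← exp_nat_mul]; simp [mul_div_cancel₀]) fun k T z hz _ hT hi h => by
      have m := meas_X (θ := θ) F τ ht.meas z
      have a1 := (hi.comp (φ := fun t => exp (-t)) (ψ := fun t => exp (-t)) (by fun_prop)
        (by fun_prop)).integral_fun_mul_eq_mul_integral (by fun_prop) (by fun_prop)
      simp only [Function.comp_def] at a1
      simp only [neg_add, exp_add, a1]
      rw [mul_pow, pow_succ, ← mul_assoc]
      refine mul_le_mul h (le_trans ?_ (BX_ge F h0 h1 ht hτ z)) (by linarith) (sq_nonneg _)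
      have a2 : θ ^ 2 * ε ≤ ε / b := by rw [le_div_iff₀ (by linarith)]; nlinarith
      nlinarith [ih z hz, sq_nonneg θ]
  rw [hh_eq]
  refine le_trans ?_ key
  have a1 : (1 - ε / b) ^ b ≤ (1 - ε / b) ^ #(F.ch x) :=
    pow_le_pow_of_le_one (by linarith) (by linarith) hx
  have a2 := one_add_mul_self_le_rpow_one_add (s := -(ε / b)) (p := b / 2) (by linarith)
    (by linarith)
  rw [show 1 + (b : ℝ) / 2 * -(ε / b) = 1 - ε / 2 by field_simp; ring] at a2
  have a3 := pow_le_pow_left₀ (by linarith) a2 2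
  rw [← rpow_natCast (_ ^ _), ← rpow_mul (by linarith), Nat.cast_ofNat, div_mul_cancel₀ _ two_ne_zero,
    rpow_natCast, ← sub_eq_add_neg] at a3
  have a4 := one_sub_le_exp_neg τ
  calc 1 - ε ≤ (1 - τ) * (1 - ε / 2) ^ 2 := by
        rw [eτ]; nlinarith [mul_nonneg (sq_nonneg ε) (mul_nonneg e0 (show 0 ≤ 4 - ε by linarith))]
    _ ≤ _ := mul_le_mul a4 (a3.trans a1) (sq_nonneg _) (exp_pos _).le

theorem X_sq {ε : ℝ} {x : V} (h : 1 - ε ≤ (∫ w, exp (-hh F θ tf τ x w) ∂gam _) ^ 2) :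
    ∫ w, XX F θ tf τ x w ^ 2 ∂gam _ ≤ 16 * ε := by
  have m := meas_h (θ := θ) F τ ht.meas x
  have i1 := (bm_sech.comp m).integrable (gam _)
  rw [B_eq F h0 h1 ht hτ] at h
  have a1 : 0 ≤ ∫ w, (cosh (hh F θ tf τ x w))⁻¹ ∂gam _ := integral_nonneg fun w => (sech_le _).1.le
  have a2 := integral_mono i1 (integrable_const 1) fun w => (sech_le _).2
  have a3 := integral_mono (((bm_X F h0 h1 ht τ x).pow 2).integrable (gam _))
    (((integrable_const 1).sub i1).const_mul 16) fun w => by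
      dsimp only [Pi.sub_apply]
      rw [← sq_abs, abs_X F h0 h1 ht, sq_abs]
      generalize hh F θ tf τ x w = h
      nlinarith [(A_sq h0 h1 h).2, sech_sq h, sq_nonneg (1 - (cosh h)⁻¹)]
  simp only [Pi.sub_apply] at a3
  rw [integral_const_mul, integral_sub (integrable_const _) i1] at a3
  simp only [integral_const, probReal_univ, smul_eq_mul, one_mul] at a2 a3
  nlinarith

omit hτ in
theorem X_pow (τ : ℝ) {n : ℕ} (hn : Even n) (x : V) :
    ∫ w, XX F θ tf τ x w ^ n ∂gam _ ≤ θ ^ n * ∫ w, hh F θ tf τ x w ^ n ∂gam _ := by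
  rw [← integral_const_mul]
  refine integral_mono (((bm_X F h0 h1 ht τ x).pow n).integrable _)
    ((int_pow (memLp_h F h0 h1 ht τ x n)).const_mul _) fun w => ?_
  dsimp only
  rw [← hn.pow_abs, abs_X F h0 h1 ht, ← hn.pow_abs (hh _ _ _ _ _ _), ← mul_pow]
  exact pow_le_pow_left₀ (abs_nonneg _) (abs_A_le h0 h1 _) n

omit hτ in
theorem both (τ : ℝ) {p : ℕ} (hp : Even p) {δ a a₂ M : ℝ} (hδ : 0 < δ) (x : V)
    (y1 : ∫ w, (τ + √τ * w (x, false)) ^ p ∂gam _ ≤ a)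
    (y2 : ∫ w, (τ + √τ * w (x, false)) ^ (2 * p) ∂gam _ ≤ a₂)
    (x1 : ∀ z ∈ F.ch x, ∫ w, XX F θ tf τ z w ^ p ∂gam _ ≤ a)
    (x2 : ∀ z ∈ F.ch x, ∫ w, XX F θ tf τ z w ^ (2 * p) ∂gam _ ≤ M) :
    ∫ w, hh F θ tf τ x w ^ p ∂gam _ ≤ (2 ^ (p - 1) * 2) ^ #(F.ch x) * a ∧
    ∫ w, hh F θ tf τ x w ^ (2 * p) ∂gam _ ≤ ((1 + δ) ^ (2 * p)) ^ #(F.ch x) *
      (a₂ + #(F.ch x) * (M + (4 / δ) ^ p * ((2 ^ (p - 1) * 2) ^ #(F.ch x) * a * a))) := by
  have a0 : 0 ≤ a := le_trans (integral_nonneg fun w => hp.pow_nonneg _) y1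
  rw [hh_eq]
  refine (sum_ind F x (φ := fun g => τ + √τ * g) (by fun_prop) (meas_X (θ := θ) F τ ht.meas)
    (dep_X F θ tf τ) (P := fun k T => (∀ n : ℕ, MemLp T n (gam _)) ∧
      ∫ w, T w ^ p ∂gam _ ≤ (2 ^ (p - 1) * 2) ^ k * a ∧ ∫ w, T w ^ (2 * p) ∂gam _ ≤ ((1 + δ) ^ (2 * p)) ^ k *
        (a₂ + k * (M + (4 / δ) ^ p * ((2 ^ (p - 1) * 2) ^ #(F.ch x) * a * a))))
    ⟨memLp_y τ _, by simpa, by simpa⟩ fun k T z hz hk hT hi ⟨l, b1, b2⟩ => ?_).2
  have bX := bm_X F h0 h1 ht τ z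
  have l' := fun n : ℕ => (l n).add (bm_memLp bX n)
  have i1 := fun n => int_pow (l n)
  have i2 := fun n => (bX.pow n).integrable (gam _)
  have c0 : (1 : ℝ) ≤ 2 ^ (p - 1) * 2 := by rw [← pow_succ]; exact one_le_pow₀ one_le_two
  have c1 : (1 : ℝ) ≤ (2 ^ (p - 1) * 2) ^ k := one_le_pow₀ c0
  have c2 : 1 ≤ (1 + δ) ^ (2 * p) := one_le_pow₀ (by linarith)
  have c3 : 1 ≤ ((1 + δ) ^ (2 * p)) ^ k := one_le_pow₀ c2
  refine ⟨l', ?_, ?_⟩
  · refine (integral_mono (int_pow (l' p)) (((i1 p).add (i2 p)).const_mul (2 ^ (p - 1)))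
      fun w => hp.add_pow_le).trans ?_
    simp only [Pi.add_apply]
    rw [integral_const_mul, integral_add (i1 p) (i2 p), pow_succ' _ k, mul_assoc, mul_assoc]
    gcongr
    nlinarith [x1 z hz]
  · have hi' := hi.comp (φ := fun t => t ^ p) (ψ := fun t => t ^ p) (by fun_prop) (by fun_prop)
    have i3 : Integrable (fun w => T w ^ p * XX F θ tf τ z w ^ p) (gam _) :=
      hi'.integrable_mul (i1 p) (i2 p)
    have e3 : ∫ w, T w ^ p * XX F θ tf τ z w ^ p ∂gam _ = _ :=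
      hi'.integral_fun_mul_eq_mul_integral (i1 p).1 (i2 p).1
    refine (integral_mono (int_pow (l' (2 * p))) ((((i1 _).add (i2 _)).const_mul _).add
      (i3.const_mul _)) fun w => two_term hp hδ _ _).trans ?_
    simp only [Pi.add_apply]
    rw [integral_add (((i1 _).fun_add (i2 _)).const_mul _) (i3.const_mul _), integral_const_mul,
      integral_const_mul, integral_add (i1 _) (i2 _), e3]
    have d1 : (∫ w, T w ^ p ∂gam _) * ∫ w, XX F θ tf τ z w ^ p ∂gam _ ≤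
        (2 ^ (p - 1) * 2) ^ #(F.ch x) * a * a :=
      mul_le_mul (b1.trans (by gcongr)) (x1 z hz)
        (integral_nonneg fun w => hp.pow_nonneg _) (by positivity)
    have d2 : 0 ≤ M := le_trans (integral_nonneg fun w => (even_two_mul p).pow_nonneg _) (x2 z hz)
    have d3 := mul_le_mul_of_nonneg_left d1 (show 0 ≤ (4 / δ) ^ p by positivity)
    have d4 : 0 ≤ (4 / δ) ^ p * ((2 ^ (p - 1) * 2) ^ #(F.ch x) * a * a) := by positivity
    simp only [Function.comp_def]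
    generalize (4 / δ) ^ p * ((2 ^ (p - 1) * 2) ^ #(F.ch x) * a * a) = D at *
    rw [pow_succ, mul_comm _ ((1 + δ) ^ (2 * p)), mul_assoc]
    have d5 := mul_le_mul_of_nonneg_left (add_le_add b2 (x2 z hz)) (zero_le_one.trans c2)
    generalize (1 + δ) ^ (2 * p) = r at *
    push_cast
    nlinarith [mul_le_mul_of_nonneg_right c3 d2, mul_le_mul_of_nonneg_right c3 d4,
      mul_le_mul_of_nonneg_right c2 d4]

end Crest.Agent.R160.E2
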