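import Crest.Agent.R160.Approx

/-! Row 160, sub-task J: passage to the limit. -/

set_option autoImplicit false

namespace Crest.Agent.R160

open MeasureTheory Finset

namespace J

open Filter Topology Crest.ProbabilityR.TreeIsing

variable {V : Type*} [DecidableEq V]

/-! ### equivariance -/

omit [DecidableEq V] in
theorem ising_map {G : SimpleGraph V} (g : G ≃g G) (θ : ℝ) {Λ Λ' : Finset V}
    (h : ∀ x, x ∈ Λ ↔ g x ∈ Λ') (η : V → Bool) :
    isingWeight G θ Λ (η ∘ g) = isingWeight G θ Λ' η := by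
  unfold isingWeight
  congr 1
  refine prod_nbij' (Sym2.map g) (Sym2.map g.symm) ?_ ?_ ?_ ?_ ?_
  · intro e
    induction e using Sym2.ind with
    | _ a b => simp [← h, g.map_rel_iff]
  · intro e
    induction e using Sym2.ind with
    | _ a b => simp [h, g.symm.map_rel_iff]
  · intro e _
    induction e using Sym2.ind with
    | _ a b => simp
  · intro e _
    induction e using Sym2.ind with
    | _ a b => simp
  · intro e _
    rw [Sym2.map_map]

omit [DecidableEq V] in
theorem ising_congr (G : SimpleGraph V) (θ : ℝ) {S : Finset V} {η η' : V → Bool}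
    (h : ∀ v ∈ S, η v = η' v) : isingWeight G θ S η = isingWeight G θ S η' := by
  unfold isingWeight
  congr 1
  refine prod_congr rfl fun e he => ?_
  induction e using Sym2.ind with
  | _ a b =>
    simp only [mem_filter, mk_mem_sym2_iff] at he
    have : Sym2.map η s(a, b) = Sym2.map η' s(a, b) := by
      simp only [Sym2.map_mk, h a he.1.1, h b he.1.2]
    rw [this]

theorem mg_map (e : V ≃ V) {Λ Λ' : Finset V} {μ μ' : Finset V → ℝ} (h : ∀ x, x ∈ Λ ↔ e x ∈ Λ')
    (hμ : ∀ A, μ A = μ' (A.map e.toEmbedding)) (y : V → ℝ) (u : V) :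
    mg Λ μ (y ∘ e) u = mg Λ' μ' y (e u) := by
  have h1 : ∀ A : Finset V, A ∈ Λ.powerset ↔ e.finsetCongr A ∈ Λ'.powerset := fun A => by
    simp only [mem_powerset, Equiv.finsetCongr_apply, map_subset_iff_subset_preimage]
    refine forall₂_congr fun x _ => ?_
    simp [h]
  have h2 : ∀ (A : Finset V) (x : V), sp A x = sp (e.finsetCongr A) (e x) := fun A x => by
    simp [sp]
  have h3 : ∀ A, wt Λ μ (y ∘ e) A = wt Λ' μ' y (e.finsetCongr A) := fun A => by
    unfold wt
    rw [hμ, sum_equiv e h (g := fun v => y v * sp (e.finsetCongr A) v) fun x _ => by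
      rw [← h2]; rfl]
    rfl
  unfold mg Ex
  rw [sum_equiv e.finsetCongr h1 (g := fun A => wt Λ' μ' y A * sp A (e u)) fun A _ => by
      rw [h3, ← h2],
    sum_equiv e.finsetCongr h1 (g := fun A => wt Λ' μ' y A) fun A _ => h3 A]

theorem eul_map (e : V ≃ V) {Λ Λ' : Finset V} {μ μ' : Finset V → ℝ} (h : ∀ x, x ∈ Λ ↔ e x ∈ Λ')
    (hμ : ∀ A, μ A = μ' (A.map e.toEmbedding)) (δ : ℝ) (z : V × ℕ → ℝ) (k : ℕ) :
    eul Λ μ δ (fun i => z (e i.1, i.2)) k = eul Λ' μ' δ z k ∘ e := by
  induction k with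
  | zero => rfl
  | succ k ih =>
    funext v
    simp only [eul, ih, mg_map e h hμ, Function.comp]

theorem ball_map {G : SimpleGraph V} [G.LocallyFinite] (g : G ≃g G) (v : V) (R : ℕ) :
    ∀ x, x ∈ ball G v R ↔ g x ∈ ball G (g v) R := by
  induction R with
  | zero => simp [ball]
  | succ R ih =>
    intro x
    simp only [ball, mem_union, mem_biUnion, SimpleGraph.mem_neighborFinset, ih]
    refine or_congr Iff.rfl ⟨?_, ?_⟩
    · rintro ⟨a, h1, h2⟩
      exact ⟨g a, h1, g.map_rel_iff.2 h2⟩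
    · rintro ⟨a, h1, h2⟩
      obtain ⟨b, rfl⟩ := g.surjective a
      exact ⟨b, h1, g.map_rel_iff.1 h2⟩

theorem FF_map {G : SimpleGraph V} [G.LocallyFinite] (g : G ≃g G) (θ : ℝ) (T R n : ℕ) (v : V)
    (z : V × ℕ → ℝ) :
    FF G θ T R n v (fun i => z (g i.1, i.2)) = FF G θ T R n (g v) z := by
  unfold FF
  have := eul_map g.toEquiv (μ := mu G θ (ball G v R)) (μ' := mu G θ (ball G (g v) R))
    (ball_map g v R) (fun A => by
      unfold mu
      rw [← ising_map g θ (ball_map g v R)]
      congr 1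
      funext x
      exact decide_eq_decide.2 (mem_map' g.toEquiv.toEmbedding).symm) (1 / 2 ^ n) z (T * 2 ^ n)
  exact congrArg (fun y => Real.tanh (y v)) this

/-! ### transfer from the Gaussian law to the true law -/

theorem transfer {Λ : Finset V} {μ : Finset V → ℝ} (h : Prior Λ μ) (T : ℕ) {ε : ℝ} (hε : 0 < ε) :
    ∀ᶠ N in atTop, ∀ W : Set (V × ℕ → ℝ), MeasurableSet W →
      DependsOn (fun z => z ∈ W) (past Λ (T * 2 ^ N)) →
      ∀ (c : Finset V → ℝ) (B : Finset V → (V × ℕ → ℝ) → ℝ), (∀ A, BM (B A)) →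
      (∀ A z, |W.indicator 1 z - c A| ≤ B A z) →
      |(gam _).real W - ∑ A ∈ Λ.powerset, μ A * c A| ≤
        EE Λ μ (1 / 2 ^ N) (fun A p => B A (inn Λ μ (1 / 2 ^ N) p)) + ε := by
  obtain ⟨n0, h0⟩ := H.tv' Λ T 1 hε
  filter_upwards [eventually_ge_atTop n0] with N hN W hW hd c B hB hc
  have b1 : ∀ z, |W.indicator (1 : (V × ℕ → ℝ) → ℝ) z| ≤ 1 := fun z => by
    by_cases hz : z ∈ W <;> simp [hz]
  have b2 : BM (W.indicator (1 : (V × ℕ → ℝ) → ℝ)) := ⟨measurable_one.indicator hW, 1, b1⟩
  have k := h0 μ h N hN _ (H.pow_eq'' T N).le _ b2.1 b1 fun z z' hz => by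
    have := hd hz
    simp only [eq_iff_iff] at this
    by_cases h1 : z ∈ W
    · simp [h1, this.1 h1]
    · simp [h1, mt this.2 h1]
  rw [integral_indicator_one hW] at k
  set δ : ℝ := 1 / 2 ^ N
  have b3 := b2.comp (measurable_inn (Λ := Λ) (μ := μ) δ)
  have b4 := fun A => (hB A).comp (measurable_inn (Λ := Λ) (μ := μ) δ)
  have e : EE Λ μ δ (fun A _ => c A) = ∑ A ∈ Λ.powerset, μ A * c A := by simp [EE]
  have k1 := h.EE_mono δ (fun _ => b3) (fun A => (BM.const (c A)).add (b4 A)) fun A p => by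
    linarith [(abs_le.1 (hc A (inn Λ μ δ p))).2]
  have k2 := h.EE_mono δ (fun A => BM.const (c A)) (fun A => b3.add (b4 A)) fun A p => by
    linarith [(abs_le.1 (hc A (inn Λ μ δ p))).1]
  rw [EE_add δ (fun A => BM.const (c A)) b4, e] at k1
  rw [EE_add δ (fun _ => b3) b4, e] at k2
  rw [abs_le] at k ⊢
  constructor <;> linarith [k.1, k.2]

theorem one_le_sq {A : Finset V} {v : V} {x : ℝ} (h : decide (0 < x) ≠ decide (v ∈ A)) :
    1 ≤ (x - sp A v) ^ 2 := by
  unfold sp
  by_cases h1 : v ∈ A <;> by_cases h2 : 0 < x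
  · simp [h1, h2] at h
  · rw [if_pos h1]; nlinarith
  · rw [if_neg h1]; nlinarith
  · simp [h1, h2] at h

omit [DecidableEq V] in
theorem lev_iter {lev : ℕ → (V → unitInterval) → (V × ℕ → ℝ)}
    (h : ∀ n x, agg (lev (n + 1) x) = lev n x) (x : V → unitInterval) (n m : ℕ) :
    agg^[m] (lev (n + m) x) = lev n x := by
  induction m with
  | zero => rfl
  | succ m ih => rw [Function.iterate_succ_apply, ← add_assoc, h, ih]

/-- the approximation property, in terms of the fine level -/
def Ap (G : SimpleGraph V) [G.LocallyFinite] (θ ε : ℝ) (T R n : ℕ) (v : V) : Prop :=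
  ∀ Λ : Finset V, Cvx G Λ → ball G v R ⊆ Λ → ∀ᶠ N in atTop,
    EE Λ (mu G θ Λ) (1 / 2 ^ N) (fun A p =>
      (FF G θ T R n v (agg^[N - n] (inn Λ (mu G θ Λ) (1 / 2 ^ N) p)) - sp A v) ^ 2) ≤ ε

theorem exists_Ap {G : SimpleGraph V} (hT : G.IsTree) [G.LocallyFinite] {d : ℕ} (hd : 3 ≤ d)
    (hreg : G.IsRegularOfDegree d) {θ : ℝ} (h0 : 0 ≤ θ) (hθ : ((d : ℝ) - 1) * θ ^ 2 ≤ 1)
    {ε : ℝ} (hε : 0 < ε) (U : Finset V) : ∃ T R n : ℕ, ∀ v ∈ U, Ap G θ ε T R n v := by
  obtain ⟨T, h⟩ := approx hT hd hreg h0 hθ hε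
  choose R0 h using h
  choose n0 h using fun v : U => h v (U.sup R0) (le_sup v.2)
  refine ⟨T, U.sup R0, U.attach.sup n0, fun v hv Λ h1 h2 => ?_⟩
  obtain ⟨m0, h⟩ := h ⟨v, hv⟩ _ (le_sup (mem_attach _ _)) Λ h1 h2
  filter_upwards [eventually_ge_atTop (U.attach.sup n0 + m0)] with N hN
  have := h (N - U.attach.sup n0) (by omega)
  rwa [Nat.add_sub_cancel' (by omega)] at this

theorem bm_FF (G : SimpleGraph V) [G.LocallyFinite] (θ : ℝ) (T R n m : ℕ) (v : V) (c : ℝ) :
    BM fun z => (FF G θ T R n v (agg^[m] z) - c) ^ 2 :=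
  ((BM.comp ⟨measurable_FF G θ T R n v, 1, fun _ => (Real.abs_tanh_lt_one _).le⟩
    (H.iter_mp m).measurable).sub (BM.const c)).pow 2

theorem FF_dep' (G : SimpleGraph V) [G.LocallyFinite] (θ : ℝ) {T T' R n N : ℕ} {v : V}
    {Λ : Finset V} (hΛ : ball G v R ⊆ Λ) (hT : T ≤ T') (hN : n ≤ N) {z z' : V × ℕ → ℝ}
    (hz : ∀ i ∈ past Λ (T' * 2 ^ N), z i = z' i) :
    FF G θ T R n v (agg^[N - n] z) = FF G θ T R n v (agg^[N - n] z') := by
  refine (FF_dep G θ T R n (N - n) v).mono (H.past_mono hΛ ?_) hz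
  rw [Nat.add_sub_cancel' hN]
  exact Nat.mul_le_mul_right _ hT

theorem meas_dec {α : Type*} [MeasurableSpace α] {f : α → ℝ} (hf : Measurable f) :
    Measurable fun x => decide (0 < f x) := by
  refine measurable_to_bool ?_
  have : (fun x => decide (0 < f x)) ⁻¹' {true} = {x | 0 < f x} := by ext x; simp
  rw [this]
  exact measurableSet_lt measurable_const hf

end J

open Filter Topology J in
theorem final {V : Type*} {G : SimpleGraph V} (hT : G.IsTree) [G.LocallyFinite] {d : ℕ}
    (hd : 3 ≤ d) (hreg : G.IsRegularOfDegree d) {θ : ℝ} (h0 : 0 ≤ θ)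
    (hθ : ((d : ℝ) - 1) * θ ^ 2 ≤ 1) :
    ∃ Φ : (V → unitInterval) → (V → Bool),
      Measurable Φ ∧
      (∀ (g : G ≃g G) (x : V → unitInterval), Φ (x ∘ ⇑g) = Φ x ∘ ⇑g) ∧
      ∀ (S : Finset V) (η : V → Bool), (G.induce (S : Set V)).Connected →
        (Crest.ProbabilityR.Labels.labelMeasure V).map Φ {σ | ∀ v ∈ S, σ v = η v} =
          ENNReal.ofReal (Crest.ProbabilityR.TreeIsing.isingWeight G θ S η) := by
  classical
  have hθ1 : θ < 1 := by
    have : (3 : ℝ) ≤ d := by exact_mod_cast hd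
    nlinarith [sq_nonneg θ]
  obtain ⟨o⟩ := hT.connected.nonempty
  obtain ⟨lev, l1, l2, l3⟩ := exists_noise V
  set P := Crest.ProbabilityR.Labels.labelMeasure V with hP
  have : IsProbabilityMeasure P := by
    rw [hP, Crest.ProbabilityR.Labels.labelMeasure]; infer_instance
  have hε : ∀ j : ℕ, (0 : ℝ) < (1 / 2) ^ j := fun j => by positivity
  choose T R n hA using fun j : ℕ => exists_Ap hT hd hreg h0 hθ (hε j) (ball G o j)
  let s : ℕ → V → (V → unitInterval) → Bool :=
    fun j v x => decide (0 < FF G θ (T j) (R j) (n j) v (lev (n j) x))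
  have ms : ∀ j v, Measurable (s j v) := fun j v =>
    meas_dec ((measurable_FF _ _ _ _ _ _).comp (l1 _).measurable)
  let σ : ℕ → ℕ → V → (V × ℕ → ℝ) → Bool :=
    fun N j v z => decide (0 < FF G θ (T j) (R j) (n j) v (agg^[N - n j] z))
  have mσ : ∀ N j v, Measurable (σ N j v) := fun N j v =>
    meas_dec ((measurable_FF _ _ _ _ _ _).comp (H.iter_mp _).measurable)
  have hσ : ∀ N j v x, n j ≤ N → σ N j v (lev N x) = s j v x := fun N j v x hN => by
    obtain ⟨m, rfl⟩ := Nat.exists_eq_add_of_le hN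
    simp only [σ, s, Nat.add_sub_cancel_left, lev_iter l2]
  have hball : ∀ (v : V) (a b : ℕ), a ≤ b → ball G v a ⊆ ball G v b := fun v a b hab x hx =>
    (mem_ball hT).2 (((mem_ball hT).1 hx).trans hab)
  let Φ : (V → unitInterval) → V → Bool := fun x v => decide (∀ᶠ j in atTop, s j v x = true)
  have mΦ : Measurable Φ := by
    refine measurable_pi_lambda _ fun v => measurable_to_bool ?_
    have : (fun x => Φ x v) ⁻¹' {true} = ⋃ a, ⋂ b, ⋂ (_ : b ≥ a), s b v ⁻¹' {true} := by
      ext x; simp [Φ, eventually_atTop]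
    rw [this]
    exact MeasurableSet.iUnion fun a => MeasurableSet.iInter fun b => MeasurableSet.iInter
      fun _ => ms b v (measurableSet_singleton _)
  -- consecutive approximations rarely disagree
  have key1 : ∀ j, ∀ v ∈ ball G o j, P.real {x | s j v x ≠ s (j + 1) v x} ≤ 3 * (1 / 2) ^ j := by
    intro j v hv
    set Λ := ball G v (max (R j) (R (j + 1)))
    have cΛ : Cvx G Λ := cvx_ball hT _ _
    have pΛ := prior_mu hT cΛ ⟨v, H.self_mem_ball G v _⟩ h0 hθ1
    have s1 := hball v _ _ (le_max_left (R j) (R (j + 1)))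
    have s2 := hball v _ _ (le_max_right (R j) (R (j + 1)))
    obtain ⟨N, ⟨⟨a1, a2⟩, a3, a4⟩, a5⟩ := ((((hA j v hv Λ cΛ s1).and
      (hA (j + 1) v (hball o _ _ (Nat.le_succ j) hv) Λ cΛ s2)).and
      ((eventually_ge_atTop (n j)).and (eventually_ge_atTop (n (j + 1))))).and
      (transfer pΛ (max (T j) (T (j + 1))) (hε j))).exists
    have mW : MeasurableSet {z | σ N j v z ≠ σ N (j + 1) v z} :=
      (measurableSet_eq_fun (mσ N j v) (mσ N (j + 1) v)).compl
    have k := a5 _ mW (fun z z' hz => by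
        simp only [Set.mem_ofPred_eq, σ, FF_dep' G θ s1 (le_max_left _ _) a3 hz,
          FF_dep' G θ s2 (le_max_right _ _) a4 hz]) (fun _ => 0)
      (fun A z => (FF G θ (T j) (R j) (n j) v (agg^[N - n j] z) - sp A v) ^ 2 +
        (FF G θ (T (j + 1)) (R (j + 1)) (n (j + 1)) v (agg^[N - n (j + 1)] z) - sp A v) ^ 2)
      (fun A => (bm_FF ..).add (bm_FF ..)) fun A z => by
        by_cases hz : z ∈ {z | σ N j v z ≠ σ N (j + 1) v z}
        · simp only [Set.indicator_of_mem hz, Pi.one_apply, sub_zero, abs_one]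
          by_cases h1 : σ N j v z = decide (v ∈ A)
          · have := one_le_sq (fun h2 : σ N (j + 1) v z = _ => hz (h1.trans h2.symm))
            exact this.trans (le_add_of_nonneg_left (sq_nonneg _))
          · exact (one_le_sq h1).trans (le_add_of_nonneg_right (sq_nonneg _))
        · simp only [Set.indicator_of_notMem hz, sub_zero, abs_zero]
          positivity
    rw [EE_add _ (fun A => (bm_FF ..).comp (measurable_inn _))
      (fun A => (bm_FF ..).comp (measurable_inn _))] at k
    have e : {x | s j v x ≠ s (j + 1) v x} = lev N ⁻¹' {z | σ N j v z ≠ σ N (j + 1) v z} := by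
      ext x; simp only [Set.mem_ofPred_eq, Set.mem_preimage, hσ _ _ _ _ a3, hσ _ _ _ _ a4]
    rw [e, (l1 N).measureReal_preimage mW.nullMeasurableSet]
    simp only [mul_zero, sum_const_zero, sub_zero] at k
    have := le_abs_self ((gam (V × ℕ)).real {z | σ N j v z ≠ σ N (j + 1) v z})
    rw [pow_succ] at a2
    linarith [hε j]
  have key2 : ∀ v, ∀ᵐ x ∂P, ∀ᶠ j in atTop, s j v x = Φ x v := by
    intro v
    set i0 := G.dist v o
    have h1 : ∑' i, P {x | s (i + i0) v x ≠ s (i + i0 + 1) v x} ≠ ⊤ := by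
      refine ne_top_of_le_ne_top
        ((summable_geometric_two.mul_left 3).tsum_ofReal_ne_top) (ENNReal.tsum_le_tsum fun i => ?_)
      rw [← ofReal_measureReal]
      refine ENNReal.ofReal_le_ofReal ((key1 _ v ((mem_ball hT).2 (by omega))).trans ?_)
      exact mul_le_mul_of_nonneg_left
        (pow_le_pow_of_le_one (by norm_num) (by norm_num) (by omega)) (by norm_num)
    filter_upwards [ae_eventually_notMem h1] with x hx
    obtain ⟨a, ha⟩ := eventually_atTop.1 hx
    have h2 : ∀ j, a + i0 ≤ j → s j v x = s (a + i0) v x := by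
      intro j hj
      induction j, hj using Nat.le_induction with
      | base => rfl
      | succ j hj ih =>
        have := ha (j - i0) (by omega)
        rw [Nat.sub_add_cancel (by omega)] at this
        rw [← ih]; exact (not_not.1 this).symm
    have h3 : ∀ᶠ j in atTop, s j v x = s (a + i0) v x := eventually_atTop.2 ⟨_, h2⟩
    have h4 : s (a + i0) v x = Φ x v := by
      rw [Bool.eq_iff_iff]
      simp only [Φ, decide_eq_true_eq]
      constructor
      · intro h; exact h3.mono fun j hj => hj.trans h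
      · intro h
        obtain ⟨j, h5, h6⟩ := (h3.and h).exists
        exact h5.symm.trans h6
    exact h4 ▸ h3
  refine ⟨Φ, mΦ, fun g x => ?_, fun S η hS => ?_⟩
  · funext v
    have : ∀ j, s j v (x ∘ g) = s j (g v) x := fun j => by
      have e : lev (n j) (x ∘ g) = fun i => lev (n j) x (g i.1, i.2) :=
        funext fun i => l3 _ g x i.1 i.2
      simp only [s, e, FF_map]
    simp only [Φ, this, Function.comp]
  have cS := cvx_of_connected hT hS
  have nS : S.Nonempty := by
    obtain ⟨x⟩ := hS.nonempty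
    exact ⟨x.1, x.2⟩
  set w := Crest.ProbabilityR.TreeIsing.isingWeight G θ S η with hw
  have mE : ∀ {α : Type _} [MeasurableSpace α] {f : V → α → Bool}, (∀ v, Measurable (f v)) →
      MeasurableSet {x | ∀ v ∈ S, f v x = η v} := fun {α} _ {f} hf => by
    have : {x | ∀ v ∈ S, f v x = η v} = ⋂ v ∈ S, f v ⁻¹' {η v} := by ext x; simp
    rw [this]
    exact S.measurableSet_biInter fun v _ => hf v (measurableSet_singleton _)
  have key3 : ∀ j, S ⊆ ball G o j →
      |P.real {x | ∀ v ∈ S, s j v x = η v} - w| ≤ (#S + 1) * (1 / 2) ^ j := by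
    intro j hj
    set Λ := ball G o (j + R j)
    have cΛ : Cvx G Λ := cvx_ball hT _ _
    have pΛ := prior_mu hT cΛ ⟨o, H.self_mem_ball G o _⟩ h0 hθ1
    have s1 : ∀ v ∈ S, ball G v (R j) ⊆ Λ := fun v hv x hx => by
      have t1 := tri hT x v o
      have t2 := (mem_ball hT).1 hx
      have t3 := (mem_ball hT).1 (hj hv)
      exact (mem_ball hT).2 (by omega)
    obtain ⟨N, ⟨a1, a3⟩, a5⟩ := ((((eventually_all_finset S).2 fun v hv =>
      hA j v (hj hv) Λ cΛ (s1 v hv)).and (eventually_ge_atTop (n j))).and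
      (transfer pΛ (T j) (hε j))).exists
    have mW : MeasurableSet {z | ∀ v ∈ S, σ N j v z = η v} := by
      have : {z | ∀ v ∈ S, σ N j v z = η v} = ⋂ v ∈ S, σ N j v ⁻¹' {η v} := by ext x; simp
      rw [this]
      exact S.measurableSet_biInter fun v _ => mσ N j v (measurableSet_singleton _)
    let c : Finset V → ℝ := fun A => if ∀ v ∈ S, decide (v ∈ A) = η v then 1 else 0
    have k := a5 _ mW (fun z z' hz => by
        simp only [Set.mem_ofPred_eq, eq_iff_iff]
        refine forall₂_congr fun v hv => ?_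
        simp only [σ, FF_dep' G θ (s1 v hv) le_rfl a3 hz]) c
      (fun A z => ∑ v ∈ S, (FF G θ (T j) (R j) (n j) v (agg^[N - n j] z) - sp A v) ^ 2)
      (fun A => BM.sum _ fun v _ => bm_FF ..) fun A z => by
        by_cases h1 : ∀ v ∈ S, σ N j v z = decide (v ∈ A)
        · have h2 : z ∈ {z | ∀ v ∈ S, σ N j v z = η v} ↔ ∀ v ∈ S, decide (v ∈ A) = η v :=
            forall₂_congr fun v hv => by rw [h1 v hv]
          refine le_trans (le_of_eq ?_) (sum_nonneg fun _ _ => sq_nonneg _)
          by_cases h3 : ∀ v ∈ S, decide (v ∈ A) = η v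
          · simp only [c, Set.indicator_of_mem (h2.2 h3), if_pos h3]; simp
          · simp only [c, Set.indicator_of_notMem (mt h2.1 h3), if_neg h3]; simp
        · simp only [not_forall] at h1
          obtain ⟨v, hv, h1⟩ := h1
          refine le_trans ?_ ((one_le_sq h1).trans (single_le_sum
            (f := fun v => (FF G θ (T j) (R j) (n j) v (agg^[N - n j] z) - sp A v) ^ 2)
            (fun _ _ => sq_nonneg _) hv))
          by_cases h2 : z ∈ {z | ∀ v ∈ S, σ N j v z = η v} <;>
            simp only [c, Set.indicator_of_mem, Set.indicator_of_notMem, h2, not_false_iff] <;>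
            split_ifs <;> simp
    rw [EE_sum S _ (Φ := fun v A p => (FF G θ (T j) (R j) (n j) v
      (agg^[N - n j] (inn Λ (mu G θ Λ) (1 / 2 ^ N) p)) - sp A v) ^ 2)
      (fun v _ A => (bm_FF ..).comp (measurable_inn _))] at k
    have e : {x | ∀ v ∈ S, s j v x = η v} = lev N ⁻¹' {z | ∀ v ∈ S, σ N j v z = η v} := by
      ext x; simp only [Set.mem_ofPred_eq, Set.mem_preimage, hσ _ _ _ _ a3]
    have e2 : ∑ A ∈ Λ.powerset, mu G θ Λ A * c A = w := by
      have e3 := mu_marg hT (θ := θ) cΛ cS (hj.trans (hball o _ _ (Nat.le_add_right _ _))) nS c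
      have e4 : ∀ A, c (A ∩ S) = c A := fun A => by
        refine if_congr (forall₂_congr fun v hv => ?_) rfl rfl
        simp [hv]
      simp only [e4] at e3
      rw [e3, sum_eq_single (S.filter fun v => η v = true)]
      · have e5 : ∀ v ∈ S, decide (v ∈ S.filter fun v => η v = true) = η v := fun v hv => by
          simp [hv]
        simp only [c, if_pos e5, mul_one, mu]
        exact ising_congr G θ e5
      · intro A hA hne
        simp only [c]
        rw [if_neg, mul_zero]
        intro h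
        refine hne (Finset.ext fun v => ?_)
        rw [mem_filter]
        constructor
        · intro hv
          have := mem_powerset.1 hA hv
          exact ⟨this, by rw [← h v this]; simpa using hv⟩
        · rintro ⟨h1, h2⟩
          rw [← h v h1] at h2
          simpa using h2
      · intro h
        exact absurd (mem_powerset.2 (filter_subset _ _)) h
    rw [e, (l1 N).measureReal_preimage mW.nullMeasurableSet, ← e2]
    refine k.trans ?_
    have := sum_le_card_nsmul S _ _ a1
    rw [nsmul_eq_mul] at this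
    linarith
  have mE1 : MeasurableSet {x | ∀ v ∈ S, Φ x v = η v} :=
    mE fun v => (measurable_pi_apply v).comp mΦ
  have t1 := tendsto_measure_of_ae_tendsto_indicator_of_isFiniteMeasure (μ := P) atTop mE1
    (As := fun j => {x | ∀ v ∈ S, s j v x = η v}) (fun j => mE fun v => ms j v) (by
      filter_upwards [(eventually_all_finset S).2 fun v _ => key2 v] with x hx
      filter_upwards [(eventually_all_finset S).2 hx] with j hj
      exact forall₂_congr fun v hv => by rw [hj v hv])
  have t2 : Tendsto (fun j => P.real {x | ∀ v ∈ S, s j v x = η v}) atTop (𝓝 w) := by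
    rw [tendsto_iff_norm_sub_tendsto_zero]
    have t3 : Tendsto (fun j : ℕ => ((#S : ℝ) + 1) * (1 / 2) ^ j) atTop (𝓝 0) := by
      simpa using (tendsto_pow_atTop_nhds_zero_of_lt_one (r := (1 / 2 : ℝ)) (by norm_num)
        (by norm_num)).const_mul ((#S : ℝ) + 1)
    refine squeeze_zero' (Eventually.of_forall fun _ => norm_nonneg _) ?_ t3
    filter_upwards [eventually_ge_atTop (S.sup fun v => G.dist v o)] with j hj
    exact key3 j fun v hv => (mem_ball hT).2 ((le_sup (f := fun v => G.dist v o) hv).trans hj)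
  have t4 := tendsto_nhds_unique ((ENNReal.tendsto_toReal (measure_ne_top _ _)).comp t1) t2
  have mE2 : MeasurableSet {σ : V → Bool | ∀ v ∈ S, σ v = η v} := by
    have : {σ : V → Bool | ∀ v ∈ S, σ v = η v} = ⋂ v ∈ S, (fun σ => σ v) ⁻¹' {η v} := by
      ext x; simp
    rw [this]
    exact S.measurableSet_biInter fun v _ => measurable_pi_apply v (measurableSet_singleton _)
  rw [Measure.map_apply mΦ mE2, ← t4, ENNReal.ofReal_toReal (measure_ne_top _ _)]
  rfl

end Crest.Agent.R160
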