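import Crest.Agent.R160.Gauge1
import Crest.Agent.R160.Env2

/-! Row 160, sub-task G: gauge transformation; the moment bounds on balls of the tree. -/

set_option autoImplicit false
set_option linter.unusedSectionVars false

namespace Crest.Agent.R160

open MeasureTheory ProbabilityTheory Finset

namespace Ga

theorem length_le_countP {α : Type*} (p : α → Bool) (l : List α) (D E : ℕ)
    (h : ∀ i (hi : i + E < l.length), D ≤ i → p (l[i]'(by omega)) = true) :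
    l.length ≤ l.countP p + D + E := by
  have h1 : ((l.drop D).take (l.length - D - E)).Sublist l :=
    (List.take_sublist _ _).trans (List.drop_sublist _ _)
  have h2 := h1.countP_le (p := p)
  rw [List.countP_eq_length.2, List.length_take, List.length_drop] at h2
  · omega
  · intro a ha
    obtain ⟨i, hi, rfl⟩ := List.mem_iff_getElem.1 ha
    rw [List.length_take, List.length_drop] at hi
    rw [List.getElem_take, List.getElem_drop]
    exact h _ (by omega) (by omega)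

theorem crude_to {θ b M : ℝ} (hb : 0 < b) (hθ : b * θ ^ 2 ≤ 1) (q n : ℕ) :
    (θ ^ 2 * Real.exp (-1 / M)) ^ (q * n) ≤
      (Real.exp 1 * (1 / b * Real.exp (-1 / M)) ^ n) ^ q := by
  rw [mul_comm q, pow_mul]
  refine pow_le_pow_left₀ (by positivity) ?_ q
  have h1 : θ ^ 2 ≤ 1 / b := by rw [le_div_iff₀ hb]; linarith
  calc (θ ^ 2 * Real.exp (-1 / M)) ^ n ≤ (1 / b * Real.exp (-1 / M)) ^ n := by gcongr
    _ ≤ _ := le_mul_of_one_le_left (by positivity) (Real.one_le_exp zero_le_one)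

theorem sharp_to {θ b M C C' x : ℝ} (hb : 0 < b) (hθ : b * θ ^ 2 = 1) {q n N D : ℕ} (hq : 1 ≤ q)
    (hC : 0 < C) (hC' : C ≤ C') (h5 : 5 ≤ C') (hx : 1 ≤ x) (hD : (D : ℝ) ≤ x + 1)
    (hn : n ≤ N + D + (D + 1)) (hM : C' * (x + q) ≤ M) :
    θ ^ (2 * q * n) * Real.exp (-(q * N / (C * (x + q)))) ≤
      (Real.exp 1 * (1 / b * Real.exp (-1 / M)) ^ n) ^ q := by
  have h1 : θ ^ 2 = 1 / b := by rw [eq_div_iff hb.ne']; linarith
  have hq' : (1 : ℝ) ≤ q := by exact_mod_cast hq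
  have hn' : (n : ℝ) ≤ N + D + (D + 1) := by exact_mod_cast hn
  have hK : 0 < C' * (x + q) := by positivity
  have e1 : (Real.exp 1 * (1 / b * Real.exp (-1 / M)) ^ n) ^ q =
      θ ^ (2 * q * n) * Real.exp (q * (1 - n / M)) := by
    rw [← h1, mul_pow, mul_pow, mul_pow, ← pow_mul, ← pow_mul, ← pow_mul, ← Real.exp_nat_mul,
      ← Real.exp_nat_mul, mul_left_comm, ← Real.exp_add]
    congr 1
    · congr 1; ring
    · congr 1; push_cast; ring
  rw [e1]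
  have h0 : 0 ≤ θ ^ (2 * q * n) := by rw [mul_assoc, pow_mul]; positivity
  refine mul_le_mul_of_nonneg_left (Real.exp_le_exp.2 ?_) h0
  have h2 : (n : ℝ) / M ≤ n / (C' * (x + q)) := by gcongr
  have h3 : (N : ℝ) / (C' * (x + q)) ≤ N / (C * (x + q)) := by gcongr
  have h4 : (n : ℝ) / (C' * (x + q)) ≤ 1 + N / (C' * (x + q)) := by
    rw [div_le_iff₀ hK, add_mul, div_mul_cancel₀ _ hK.ne']
    nlinarith
  rw [mul_div_assoc]
  nlinarith

variable {V : Type*} [DecidableEq V] {G : SimpleGraph V} (hT : G.IsTree)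
include hT

theorem not_mem_ch (Λ : Finset V) (c x : V) : c ∉ (tfo hT Λ c).ch x := fun h =>
  ((mem_ch hT).1 h).2.1 rfl

theorem full_of [G.LocallyFinite] {d : ℕ} (hreg : G.IsRegularOfDegree d) (o : V) (R : ℕ) (c : V) :
    ∀ (k : ℕ) (x : V), x ≠ c → G.dist x o + k ≤ R →
      (tfo hT (ball G o R) c).Full (d - 1) k x := by
  intro k
  induction k with
  | zero => intro _ _ _; trivial
  | succ k ih =>
    intro x hx hk
    obtain ⟨h3, h4⟩ := par_spec hT hx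
    refine ⟨?_, fun z hz => ?_⟩
    · have h2 : (G.neighborFinset x).card = d := hreg x
      rw [← h2, ← card_erase_of_mem ((G.mem_neighborFinset _ _).2 h3)]
      congr 1
      ext z
      rw [mem_ch hT, mem_erase, G.mem_neighborFinset, mem_ball hT]
      constructor
      · rintro ⟨-, h1, rfl⟩
        obtain ⟨h5, h6⟩ := par_spec hT h1
        exact ⟨fun h => by rw [← h] at h4; omega, h5.symm⟩
      · rintro ⟨h1, h5⟩
        have h6 := dist_of_ne_par hT (c := c) h5 h1.symm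
        have h7 := adj_dist hT o h5
        exact ⟨by omega, by rintro rfl; simp at h6, par_uniq hT h5.symm h6⟩
    · obtain ⟨-, h1, rfl⟩ := (mem_ch hT).1 hz
      have h7 := adj_dist hT o (par_spec hT h1).1
      exact ih z h1 (by omega)

theorem deep [G.LocallyFinite] {o : V} {R : ℕ} {c x z : V} {D : ℕ} (hc : c ∈ ball G o R)
    (hz : z ∈ ball G o R) (hb : Btw G z x c) (h1 : D ≤ G.dist x c) (h2 : D ≤ G.dist z x) :
    G.dist x o + D ≤ R := by
  rw [mem_ball hT] at hc hz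
  obtain ⟨m, m1, m2, m3⟩ := median hT c o _ z rfl
  have t := tri hT x m o
  rcases le_total (G.dist z x) (G.dist z m) with h | h
  · have := (btw_total hT _ z rfl hb m1 h).1
    unfold Btw at *
    omega
  · have := (btw_total hT _ z rfl m1 hb h).2
    have e1 := G.dist_comm (u := m) (v := x)
    have e2 := G.dist_comm (u := m) (v := c)
    unfold Btw at *
    omega

theorem chain_get {Λ : Finset V} {c : V} {l : List V} (hl : (tfo hT Λ c).Chain l) (i : ℕ) :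
    ∀ (j : ℕ) (h : i + j < l.length), Btw G l[i + j] (l[i]'(by omega)) c ∧
      G.dist l[i + j] c = G.dist (l[i]'(by omega)) c + j ∧ (1 ≤ j → l[i + j] ∈ Λ) := by
  intro j
  induction j with
  | zero => intro h; exact ⟨btw_left _ _, rfl, fun h => by omega⟩
  | succ j ih =>
    intro h
    obtain ⟨a1, a2, -⟩ := ih (by omega)
    obtain ⟨b1, b2, b3⟩ := (mem_ch hT).1 (List.isChain_iff_getElem.1 hl (i + j) h)
    obtain ⟨c1, c2⟩ := par_spec hT b2
    rw [b3] at c1 c2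
    have t1 := tri hT l[i + j + 1] l[i + j] (l[i]'(by omega))
    have t2 := tri hT l[i + j + 1] (l[i]'(by omega)) c
    have t3 := SimpleGraph.dist_eq_one_iff_adj.2 c1
    refine ⟨?_, ?_, fun _ => b1⟩
    · change Btw G l[i + j + 1] _ c
      unfold Btw at *
      omega
    · change G.dist l[i + j + 1] c = _
      omega

open Classical in
theorem chain_count [G.LocallyFinite] {d : ℕ} (hreg : G.IsRegularOfDegree d) {o : V} {R : ℕ}
    {c : V} (hc : c ∈ ball G o R) {l : List V} (hl : (tfo hT (ball G o R) c).Chain l)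
    (hcl : c ∉ l) (D : ℕ) :
    l.length ≤ l.countP (fun x => decide ((tfo hT (ball G o R) c).Full (d - 1) (D + 1) x)) +
      D + (D + 1) := by
  refine length_le_countP _ l D (D + 1) fun i hi hD => decide_eq_true ?_
  have hne : ∀ k (hk : k < l.length), l[k] ≠ c := fun k hk h => hcl (h ▸ List.getElem_mem hk)
  obtain ⟨a1, a2, a3⟩ := chain_get hT hl i (D + 1) hi
  obtain ⟨-, b2, -⟩ := chain_get hT hl 0 i (by omega)
  have b3 : G.dist (l[0]'(by omega)) c ≠ 0 := fun h => hne 0 _ ((dist_zero hT).1 h)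
  simp only [zero_add] at b2
  refine full_of hT hreg o R c _ _ (hne _ _) (deep hT hc (a3 (by omega)) a1 (by omega) ?_)
  unfold Btw at a1
  omega

theorem shift_eq (θ : ℝ) (Λ : Finset V) (c : V) (a : V → ℝ) (τ : ℝ) {Φ : (V → ℝ) → ℝ}
    (hΦ : Measurable Φ) :
    ∫ g, Φ (hr hT θ Λ (fun x => a x + √τ * g x) c) ∂gam V =
      ∫ w, Φ ((tfo hT Λ c).HH θ (fun _ => 1) a τ w) ∂gam _ := by
  have hm : Measurable fun g : V → ℝ => Φ (hr hT θ Λ (fun x => a x + √τ * g x) c) :=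
    hΦ.comp (measurable_H (tfo hT Λ c) θ measurable_const (by fun_prop))
  rw [← integral_mp (gam_inj (ι := fun z : V => (z, false)) fun a b h => (Prod.mk.inj h).1) hm]
  rfl

end Ga

variable {V : Type*} [DecidableEq V] {G : SimpleGraph V} (hT : G.IsTree)

theorem env [G.LocallyFinite] {d : ℕ} (hd : 3 ≤ d) (hreg : G.IsRegularOfDegree d) {θ B : ℝ}
    (h0 : 0 ≤ θ) (hθ : ((d : ℝ) - 1) * θ ^ 2 ≤ 1) (hB : B ^ 3 = (d : ℝ) - 1) :
    ∃ (C : ℝ) (Cm : ℕ → ℝ), 1 ≤ C ∧ (∀ i, 1 ≤ Cm i) ∧ ∀ (o : V) (R : ℕ) (Λ : Finset V),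
    Λ = ball G o R → ∀ c ∈ Λ, ∀ q : ℕ, 1 ≤ q → ∀ τ : ℝ, 0 < τ →
      (∀ i : ℕ, 1 ≤ i → 2 ^ i ≤ 2 * q → τ ≤ 1 →
        Sharp Λ (mu G θ Λ) τ (fun y => mg Λ (mu G θ Λ) y c ^ (2 * q)) ≤
          Cm i * τ ^ ((2 : ℝ) ^ i / 4)) ∧
      (τ ≤ 1 → Sharp Λ (mu G θ Λ) τ (fun y => LL hT θ Λ y c ^ q) ≤
        (C * (1 / √τ + Real.log (q + 1))) ^ q) ∧
      (∀ v ∈ Λ, ∀ M : ℝ, (C * (1 / √τ + q) ≤ M ∨ (1 ≤ q * τ ^ 4 ∧ C * q / Real.log (q + 1) ≤ M)) →
        Sharp Λ (mu G θ Λ) τ (fun y => rv hT θ Λ y c v ^ (2 * q)) ≤ rb B M (G.dist v c) ^ q) ∧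
      ∀ a : V → ℝ,
        (τ ≤ 1 → ∫ g, LL hT θ Λ (fun x => a x + √τ * g x) c ^ q ∂gam V ≤
          (C * (1 / τ + Real.log (q + 1))) ^ q) ∧
        ∀ v ∈ Λ, ∀ M : ℝ, (C * (1 / τ + q) ≤ M ∨ (1 ≤ q * τ ^ 4 ∧ C * q / Real.log (q + 1) ≤ M)) →
          ∫ g, rv hT θ Λ (fun x => a x + √τ * g x) c v ^ (2 * q) ∂gam V ≤
            rb B M (G.dist v c) ^ q := by
  classical
  have hb : 2 ≤ d - 1 := by omega
  have hbc : ((d - 1 : ℕ) : ℝ) = (d : ℝ) - 1 := by rw [Nat.cast_sub (by omega), Nat.cast_one]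
  have hb2 : (2 : ℝ) ≤ ((d - 1 : ℕ) : ℝ) := by exact_mod_cast hb
  rw [← hbc] at hθ hB
  have hθ2 : θ ^ 2 ≤ 1 / 2 := by nlinarith [sq_nonneg θ]
  have h1 : θ < 1 := by nlinarith
  obtain ⟨tf, htf⟩ := exists_sgn h0 h1
  obtain ⟨Cc, hCc, hcr⟩ := crude
  obtain ⟨Cs, hCs, hsh⟩ := sharp hb
  have hs0 : 0 ≤ 1 / (1 - ((d - 1 : ℕ) : ℝ) * θ ^ 2) := div_nonneg zero_le_one (by linarith)
  set C1 : ℝ := Cc + Cs + 5 + 1 / (1 - ((d - 1 : ℕ) : ℝ) * θ ^ 2) with hC1
  have hC1' : 1 ≤ C1 := by linarith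
  obtain ⟨C2, hC2, hlt⟩ := ltail hC1'
  have hC12 : C1 ≤ C2 * C1 := le_mul_of_one_le_left (by linarith) hC2
  have hmo : ∀ i : ℕ, ∃ C : ℝ, 1 ≤ C ∧ (1 ≤ i → ∀ (F : Fo V) (τ : ℝ), 0 < τ → τ ≤ 1 → ∀ c : V,
      (F.ch c).card ≤ d - 1 + 1 → (∀ x, x ≠ c → (F.ch x).card ≤ d - 1) → (∀ x, c ∉ F.ch x) →
      ∀ x, Integrable (fun w => F.HH θ tf (fun _ => τ) τ w x ^ 2 ^ i) (gam _) ∧
      ∫ w, F.HH θ tf (fun _ => τ) τ w x ^ 2 ^ i ∂gam _ ≤ C * τ ^ ((2 : ℝ) ^ i / 4)) := by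
    intro i
    by_cases hi : 1 ≤ i
    · obtain ⟨C, hC, h⟩ := moments hb hi
      exact ⟨C, hC, fun _ F => h V F θ h0 hθ tf htf⟩
    · exact ⟨1, le_rfl, fun h => absurd h hi⟩
  choose Cm hCm hmo using hmo
  refine ⟨C2 * C1, Cm, hC1'.trans hC12, hCm, ?_⟩
  rintro o R Λ rfl c hc q hq τ hτ
  set F := tfo hT (ball G o R) c with hF
  have hΛ := cvx_ball hT o R
  have k1 : (F.ch c).card ≤ d - 1 + 1 := ((ch_card hT hreg _ c c).1).trans (by omega)
  have k2 : ∀ x, x ≠ c → (F.ch x).card ≤ d - 1 := fun x => (ch_card hT hreg _ c x).2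
  have k3 : ∀ x, c ∉ F.ch x := Ga.not_mem_ch hT _ c
  have hτs : 0 < √τ := Real.sqrt_pos.2 hτ
  have hlog : ∀ q : ℕ, 1 ≤ q → 0 < Real.log ((q : ℝ) + 1) := fun q hq =>
    Real.log_pos (by have : (1 : ℝ) ≤ q := by exact_mod_cast hq
                     linarith)
  -- crude bound with the constant `C1`
  have cr : ∀ tf : ℝ → ℝ, Measurable tf → ∀ (a : V → ℝ) (q : ℕ), 1 ≤ q → ∀ l, F.Chain l → ∀ M : ℝ,
      (C1 * (1 / τ + q) ≤ M ∨ (1 ≤ q * τ ^ 4 ∧ C1 * q / Real.log (q + 1) ≤ M)) →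
      ∫ w, pg θ (F.HH θ tf a τ w) l ^ (2 * q) ∂gam _ ≤
        (Real.exp 1 * (1 / ((d - 1 : ℕ) : ℝ) * Real.exp (-1 / M)) ^ l.length) ^ q := by
    intro tf htf a q hq l hl M hM
    have hle : Cc ≤ C1 := by linarith
    refine (hcr V F θ h0 hθ2 tf htf a τ hτ q hq l hl M ?_).trans (Ga.crude_to (by linarith) hθ _ _)
    have := hlog q hq
    rcases hM with h | ⟨h, h'⟩
    · exact Or.inl (le_trans (by gcongr) h)
    · exact Or.inr ⟨h, le_trans (by gcongr) h'⟩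
  -- sharp bound with the constant `C1`
  have sh : τ ≤ 1 → ∀ q : ℕ, 1 ≤ q → ∀ l, F.Chain l → c ∉ l → ∀ M : ℝ, C1 * (1 / √τ + q) ≤ M →
      ∫ w, pg θ (F.HH θ tf (fun _ => τ) τ w) l ^ (2 * q) ∂gam _ ≤
        (Real.exp 1 * (1 / ((d - 1 : ℕ) : ℝ) * Real.exp (-1 / M)) ^ l.length) ^ q := by
    intro hτ1 q hq l hl hcl M hM
    have hx : 1 ≤ 1 / √τ := one_le_one_div hτs (Real.sqrt_le_one.2 hτ1)
    have hq' : (1 : ℝ) ≤ q := by exact_mod_cast hq
    rcases hθ.eq_or_lt with he | hlt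
    · have hD : 1 ≤ √τ * (⌈1 / √τ⌉₊ : ℕ) := by
        have := Nat.le_ceil (1 / √τ)
        rwa [div_le_iff₀' hτs] at this
      refine (hsh V F θ h0 he tf htf τ hτ hτ1 c k1 k2 k3 _ hD q hq l hl hcl).trans ?_
      exact Ga.sharp_to (by linarith) he hq (by linarith) (by linarith) (by linarith) hx
        (Nat.ceil_lt_add_one (by linarith)).le (Ga.chain_count hT hreg hc hl hcl _) hM
    · have hM1 : 1 / (1 - ((d - 1 : ℕ) : ℝ) * θ ^ 2) ≤ M := by nlinarith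
      have hpos : 0 < 1 - ((d - 1 : ℕ) : ℝ) * θ ^ 2 := by linarith
      have hM0 : 0 < M := lt_of_lt_of_le (by positivity) hM1
      have e1 : θ ^ 2 ≤ 1 / ((d - 1 : ℕ) : ℝ) * Real.exp (-1 / M) := by
        have a1 := Real.add_one_le_exp (-1 / M)
        have a2 : 1 / M ≤ 1 - ((d - 1 : ℕ) : ℝ) * θ ^ 2 := by
          rwa [div_le_comm₀ hM0 hpos]
        rw [neg_div] at a1 ⊢
        rw [one_div_mul_eq_div, le_div_iff₀ (by linarith)]
        linarith
      have hbm : BM fun w => pg θ (F.HH θ tf (fun _ => τ) τ w) l ^ (2 * q) :=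
        ((Ga.bm_pg h0 h1 l).pow _).comp (Ga.measurable_HH F θ htf.meas _ τ)
      refine (integral_mono (hbm.integrable _) (integrable_const _) fun w => ?_).trans
        (by rw [integral_const, probReal_univ, one_smul])
      obtain ⟨p1, p2⟩ := Ga.pg_mem h0 h1 (F.HH θ tf (fun _ => τ) τ w) l
      calc _ ≤ (θ ^ l.length) ^ (2 * q) := pow_le_pow_left₀ p1 p2 _
        _ = ((θ ^ 2) ^ l.length) ^ q := by rw [← pow_mul, ← pow_mul, ← pow_mul]; congr 1; ring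
        _ ≤ ((1 / ((d - 1 : ℕ) : ℝ) * Real.exp (-1 / M)) ^ l.length) ^ q := by gcongr
        _ ≤ _ := pow_le_pow_left₀ (by positivity)
          (le_mul_of_one_le_left (by positivity) (Real.one_le_exp zero_le_one)) _
  have fin : ∀ x : ℝ, 0 ≤ x → (C2 * (C1 * x + Real.log (q + 1))) ^ q ≤
      (C2 * C1 * (x + Real.log (q + 1))) ^ q := by
    intro x hx
    have := hlog q hq
    refine pow_le_pow_left₀ (by positivity) ?_ _
    rw [mul_assoc]
    refine mul_le_mul_of_nonneg_left ?_ (by linarith)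
    nlinarith
  have hLc : ∀ h h' : V → ℝ, (∀ x ∈ ball G o R, |h x| = |h' x|) →
      F.L θ h c ^ q = F.L θ h' c ^ q := fun h h' e => by
    rw [Ga.L_congr F θ fun x z hz => e z ((mem_ch hT).1 hz).1]
  have hl := hlog q hq
  refine ⟨fun i hi hiq hτ1 => ?_, fun hτ1 => ?_, fun v hv M hM => ?_,
    fun a => ⟨fun hτ1 => ?_, fun v hv M hM => ?_⟩⟩
  · have hbm : BM fun h : V → ℝ => Real.tanh (h c) ^ (2 * q) :=
      BM.pow ⟨Ga.measurable_tanh.comp (measurable_pi_apply c), 1,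
        fun h => (Real.abs_tanh_lt_one _).le⟩ _
    simp only [mg_eq hT hΛ h0 h1 _ hc]
    rw [gauge hT hΛ hc htf τ hbm fun h h' e => by
      rw [pow_mul, pow_mul, Ga.tanh_sq_congr (e c hc)]]
    obtain ⟨m1, m2⟩ := hmo i hi F τ hτ hτ1 c k1 k2 k3 c
    refine le_trans (integral_mono ((hbm.comp (Ga.measurable_HH F θ htf.meas _ τ)).integrable _)
      m1 fun w => ?_) m2
    obtain ⟨j, rfl⟩ : ∃ j, i = j + 1 := ⟨i - 1, by omega⟩
    have hj : 2 ^ j ≤ q := by rw [pow_succ] at hiq; omega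
    simp only [pow_succ' 2 j, pow_mul]
    exact (pow_le_pow_of_le_one (sq_nonneg _) (Real.tanh_sq_lt_one _).le hj).trans
      (pow_le_pow_left₀ (sq_nonneg _) (Ga.tanh_sq_le _) _)
  · have hx : 1 ≤ 1 / √τ := one_le_one_div hτs (Real.sqrt_le_one.2 hτ1)
    unfold LL
    rw [gauge hT hΛ hc htf τ ((bm_L F h0 h1 c).pow q) hLc]
    refine (hlt V F θ _ hb h0 hθ tf htf.meas _ τ c (C1 * (1 / √τ)) (by nlinarith) k1 k2 k3
      (fun q hq l hl hcl => sh hτ1 q hq l hl hcl _ (by rw [mul_add])) q hq).trans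
      (fin _ (by linarith))
  · obtain ⟨d1, d2, d3, d4⟩ := dn_spec hT hΛ hc hv
    unfold rv rb
    rw [gauge hT hΛ hc htf τ ((Ga.bm_pg h0 h1 _).pow (2 * q)) fun h h' e => by
      rw [Ga.pg_congr θ _ fun x hx => e x (d4 x hx)], hB]
    conv_rhs => rw [← d3]
    rcases hM with h | ⟨h, h'⟩
    · rcases le_total τ 1 with hτ1 | hτ1
      · exact sh hτ1 q hq _ d1 d2 M (le_trans (by gcongr) h)
      · refine cr tf htf.meas _ q hq _ d1 M (Or.inl (le_trans ?_ h))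
        have : √τ ≤ τ := Real.sqrt_le_iff.2 ⟨hτ.le, by nlinarith⟩
        gcongr
    · exact cr tf htf.meas _ q hq _ d1 M (Or.inr ⟨h, le_trans (by gcongr) h'⟩)
  · have hx : 1 ≤ 1 / τ := one_le_one_div hτ hτ1
    unfold LL
    rw [Ga.shift_eq hT θ _ c a τ ((bm_L F h0 h1 c).pow q).1]
    refine (hlt V F θ _ hb h0 hθ _ measurable_const _ τ c (C1 * (1 / τ)) (by nlinarith) k1 k2 k3
      (fun q hq l hl _ => cr _ measurable_const a q hq l hl _ (Or.inl (by rw [mul_add])))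
      q hq).trans (fin _ (by linarith))
  · obtain ⟨d1, d2, d3, d4⟩ := dn_spec hT hΛ hc hv
    unfold rv rb
    rw [Ga.shift_eq hT θ _ c a τ ((Ga.bm_pg h0 h1 _).pow (2 * q)).1, hB]
    conv_rhs => rw [← d3]
    refine cr _ measurable_const a q hq _ d1 M ?_
    rcases hM with h | ⟨h, h'⟩
    · exact Or.inl (le_trans (by gcongr) h)
    · exact Or.inr ⟨h, le_trans (by gcongr) h'⟩

end Crest.Agent.R160
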