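import Crest.Agent.R160.Defs

/-! Row 160, sub-task A: Gaussian toolkit. -/

set_option autoImplicit false

namespace Crest.Agent.R160

open MeasureTheory ProbabilityTheory Finset

namespace A

theorem indep {ι β : Type*} [MeasurableSpace β] {X : ι → ℝ → β} (hX : ∀ i, Measurable (X i)) :
    iIndepFun (fun i (z : ι → ℝ) => X i (z i)) (gam ι) :=
  iIndepFun_infinitePi (P := fun _ : ι => gaussianReal 0 1) hX

/-- the law of a finite linear combination -/
theorem lin_law {ι : Type*} (S : Finset ι) (a : ι → ℝ) :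
    (gam ι).map (fun z => ∑ i ∈ S, a i * z i) =
      gaussianReal 0 (NNReal.mk (∑ i ∈ S, a i ^ 2) (sum_nonneg fun _ _ => sq_nonneg _)) := by
  have : IsProbabilityMeasure ((gam ι).map (fun z => ∑ i ∈ S, a i * z i)) :=
    Measure.isProbabilityMeasure_map (Measurable.aemeasurable (by fun_prop))
  apply Measure.ext_of_charFun
  have hi := indep (ι := ι) (X := fun i x => a i * x) (by fun_prop)
  rw [iIndepFun.charFun_map_fun_finsetSum_eq_prod (X := fun i (z : ι → ℝ) => a i * z i)
    (fun i _ => Measurable.aemeasurable (by fun_prop)) (hi.restrict S)]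
  ext t
  have h1 : ∀ i, (gam ι).map (fun z => a i * z i) = gaussianReal 0 (NNReal.mk (a i ^ 2) (sq_nonneg _)) := by
    intro i
    have := gaussianReal_map_const_mul (μ := 0) (v := 1) (a i)
    rw [mul_zero, mul_one] at this
    rw [← this, ← (gam_eval i).map_eq, Measure.map_map (by fun_prop) (by fun_prop)]
    rfl
  simp only [Finset.prod_apply, h1, charFun_gaussianReal, ← Complex.exp_sum]
  congr 1
  simp only [NNReal.coe_mk]
  push_cast
  simp only [mul_zero, zero_mul, zero_sub, sum_neg_distrib, sum_mul, sum_div]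

theorem lin_mp {ι : Type*} (S : Finset ι) (a : ι → ℝ) :
    MeasurePreserving (fun z : ι → ℝ => ∑ i ∈ S, a i * z i) (gam ι)
      (gaussianReal 0 (NNReal.mk (∑ i ∈ S, a i ^ 2) (sum_nonneg fun _ _ => sq_nonneg _))) :=
  ⟨by fun_prop, lin_law S a⟩

theorem shift_one (m : ℝ) : gaussianReal m 1 = (gaussianReal 0 1).withDensity
    fun x => ENNReal.ofReal (Real.exp (m * x - m ^ 2 / 2)) := by
  rw [gaussianReal_of_var_ne_zero _ one_ne_zero, gaussianReal_of_var_ne_zero _ one_ne_zero,
    ← withDensity_mul _ (measurable_gaussianPDF _ _) (by fun_prop)]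
  congr 1
  funext x
  simp only [Pi.mul_apply, gaussianPDF]
  rw [← ENNReal.ofReal_mul (gaussianPDFReal_nonneg _ _ _)]
  congr 1
  simp only [gaussianPDFReal, NNReal.coe_one, mul_assoc, ← Real.exp_add]
  congr 2
  ring

theorem moment_four (v : NNReal) : ∫ x, x ^ 4 ∂gaussianReal 0 v = 3 * (v : ℝ) ^ 2 := by
  have h := iteratedDeriv_mgf_zero (X := fun x : ℝ => x) (μ := gaussianReal 0 v) (by simp) 4
  simp only [Pi.pow_apply] at h
  rw [← h, mgf_fun_id_gaussianReal]
  have e : ∀ t : ℝ, HasDerivAt (fun t : ℝ => Real.exp (0 * t + v * t ^ 2 / 2))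
      (v * t * Real.exp (0 * t + v * t ^ 2 / 2)) t := fun t => by
    have : HasDerivAt (fun t : ℝ => 0 * t + v * t ^ 2 / 2) (v * t) t := by
      refine (((hasDerivAt_id t).const_mul 0).add
        (((hasDerivAt_pow 2 t).const_mul (v : ℝ)).div_const 2)).congr_deriv ?_
      simp; ring
    refine this.exp.congr_deriv ?_
    ring
  set E := fun t : ℝ => Real.exp (0 * t + v * t ^ 2 / 2) with hE
  have d1 : deriv E = fun t => v * t * E t := funext fun t => (e t).deriv
  have d2 : deriv (fun t => v * t * E t) = fun t => (v + v ^ 2 * t ^ 2) * E t := funext fun t => by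
    refine HasDerivAt.deriv ?_
    refine (((hasDerivAt_id t).const_mul (v : ℝ)).mul (e t)).congr_deriv ?_
    simp only [id, hE]; ring
  have d3 : deriv (fun t => (v + v ^ 2 * t ^ 2) * E t) =
      fun t => (3 * v ^ 2 * t + v ^ 3 * t ^ 3) * E t := funext fun t => by
    refine HasDerivAt.deriv ?_
    refine ((((hasDerivAt_pow 2 t).const_mul ((v : ℝ) ^ 2)).const_add (v : ℝ)).mul
      (e t)).congr_deriv ?_
    simp only [hE]; push_cast; ring
  have d4 : HasDerivAt (fun t => (3 * v ^ 2 * t + v ^ 3 * t ^ 3) * E t) (3 * (v : ℝ) ^ 2) 0 := by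
    refine ((((hasDerivAt_id (0 : ℝ)).const_mul (3 * (v : ℝ) ^ 2)).add
      ((hasDerivAt_pow 3 (0 : ℝ)).const_mul ((v : ℝ) ^ 3))).mul (e 0)).congr_deriv ?_
    simp [hE]
  rw [iteratedDeriv_succ, iteratedDeriv_succ, iteratedDeriv_succ, iteratedDeriv_one, d1, d2, d3,
    d4.deriv]

theorem moment_two (v : NNReal) : ∫ x, x ^ 2 ∂gaussianReal 0 v = v := by
  have := variance_fun_id_gaussianReal (μ := 0) (v := v)
  rw [variance_eq_integral measurable_id'.aemeasurable] at this
  simpa using this

end A

/-- orthonormal finite linear combinations of independent Gaussians are independent Gaussians -/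
theorem gam_orth {ι κ : Type*} [DecidableEq κ] (S : κ → Finset ι) (a : κ → ι → ℝ)
    (hS : ∀ k, ∀ i ∉ S k, a k i = 0)
    (h : ∀ k k', ∑ i ∈ S k, a k i * a k' i = if k = k' then 1 else 0) :
    MeasurePreserving (fun (z : ι → ℝ) k => ∑ i ∈ S k, a k i * z i) (gam ι) (gam κ) := by
  classical
  have h1 : ∀ k, (gam ι).map (fun z => ∑ i ∈ S k, a k i * z i) = gaussianReal 0 1 := fun k => by
    rw [A.lin_law]
    congr 1
    ext
    have := h k k
    simp only [if_true] at this
    simp only [NNReal.coe_mk, NNReal.coe_one, sq, this]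
  have hi : iIndepFun (fun k (z : ι → ℝ) => ∑ i ∈ S k, a k i * z i) (gam ι) := by
    rw [iIndepFun_iff_finset]
    intro s
    rw [iIndepFun_iff_charFun_pi (fun k => by
      simp only [Finset.restrict]; exact Measurable.aemeasurable (by fun_prop))]
    intro t
    let U := s.biUnion S
    have hU : ∀ k : s, ∀ z : ι → ℝ, ∑ i ∈ S k, a k i * z i = ∑ i ∈ U, a k i * z i := fun k z =>
      sum_subset (subset_biUnion_of_mem S k.2) fun i _ hi => by rw [hS _ _ hi, zero_mul]
    have e1 : ∑ i ∈ U, (∑ k : s, t k * a k i) ^ 2 = ∑ k : s, t k ^ 2 := by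
      simp only [sq, sum_mul_sum]
      rw [sum_comm]
      refine sum_congr rfl fun k _ => ?_
      rw [sum_comm]
      have : ∀ k' : s, ∑ i ∈ U, t k * a k i * (t k' * a k' i) =
          if k = k' then t k * t k' else 0 := fun k' => by
        have e := h k k'
        rw [hU k] at e
        calc _ = t k * t k' * ∑ i ∈ U, a k i * a k' i := by
              rw [mul_sum]; exact sum_congr rfl fun i _ => by ring
          _ = _ := by
              rw [e]
              by_cases hk : k = k'
              · rw [if_pos hk, if_pos (by rw [hk]), mul_one]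
              · rw [if_neg hk, if_neg (fun h' => hk (Subtype.ext h')), mul_zero]
      simp [this]
    have e2 := congrArg (fun μ => charFun μ 1) (A.lin_law U fun i => ∑ k : s, t k * a k i)
    simp only [charFun_gaussianReal, NNReal.coe_mk, e1] at e2
    simp only [Finset.restrict, h1, charFun_gaussianReal, ← Complex.exp_sum]
    rw [charFun_apply_real, integral_map (Measurable.aemeasurable (by fun_prop)) (by fun_prop)]
      at e2
    rw [charFun_apply, integral_map (Measurable.aemeasurable (by fun_prop)) (by fun_prop)]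
    convert e2 using 3 with z
    · congr 1
      simp only [PiLp.inner_apply, hU, Complex.ofReal_one, one_mul, sum_mul]
      rw [sum_comm]
      congr 2
      refine sum_congr rfl fun k _ => ?_
      simp only [RCLike.inner_apply, conj_trivial, mul_sum]
      exact sum_congr rfl fun i _ => by ring
    · push_cast
      simp [sum_div]
  refine ⟨by fun_prop, ?_⟩
  rw [hi.map_fun_eq_infinitePi_map (by fun_prop)]
  simp only [h1]
  rfl

/-- Cameron-Martin -/
theorem gam_shift {ι : Type*} [DecidableEq ι] (S : Finset ι) (a : ι → ℝ) :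
    (gam ι).map (fun z i => z i + if i ∈ S then a i else 0) = (gam ι).withDensity
      (fun z => ENNReal.ofReal (Real.exp (∑ i ∈ S, (a i * z i - a i ^ 2 / 2)))) := by
  let m : ι → ℝ := fun i => if i ∈ S then a i else 0
  have h1 : (gam ι).map (fun z i => z i + m i) =
      Measure.infinitePi fun i => gaussianReal (m i) 1 := by
    rw [gam, Measure.infinitePi_map_pi _ (f := fun i x => x + m i) (by fun_prop)]
    simp only [gaussianReal_map_add_const, zero_add]
  rw [h1]
  refine (Measure.eq_infinitePi _ fun s t ht => ?_).symm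
  have hm : MeasurableSet (Set.pi s t) := MeasurableSet.pi s.countable_toSet fun j _ => ht j
  let X : ι → ℝ → ENNReal := fun i => (if i ∈ s then t i else Set.univ).indicator
    fun x => ENNReal.ofReal (Real.exp (m i * x - m i ^ 2 / 2))
  have ht' : ∀ i, MeasurableSet (if i ∈ s then t i else Set.univ) := fun i => by
    split_ifs
    exacts [ht i, MeasurableSet.univ]
  have hX : ∀ i, Measurable (X i) := fun i => Measurable.indicator (by fun_prop) (ht' i)
  have e : ∀ i, ∫⁻ z, X i (z i) ∂gam ι = gaussianReal (m i) 1 (if i ∈ s then t i else Set.univ) :=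
    fun i => by
      rw [(gam_eval i).lintegral_comp (hX i), A.shift_one (m i), withDensity_apply _ (ht' i),
        lintegral_indicator (ht' i)]
  rw [withDensity_apply _ hm, ← lintegral_indicator hm]
  have e2 : ∀ z : ι → ℝ, (Set.pi s t).indicator
      (fun z => ENNReal.ofReal (Real.exp (∑ i ∈ S, (a i * z i - a i ^ 2 / 2)))) z =
      ∏ i ∈ s ∪ S, X i (z i) := fun z => by
    by_cases hz : z ∈ Set.pi s t
    · rw [Set.indicator_of_mem hz]
      have : ∀ i, X i (z i) = ENNReal.ofReal (Real.exp (m i * z i - m i ^ 2 / 2)) := fun i => by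
        apply Set.indicator_of_mem
        split_ifs with hi
        exacts [hz i hi, Set.mem_univ _]
      simp only [this]
      rw [← ENNReal.ofReal_prod_of_nonneg fun _ _ => (Real.exp_pos _).le, ← Real.exp_sum,
        ← sum_subset (subset_union_right (s₁ := s) (s₂ := S)) fun i _ hi => by simp [m, hi]]
      congr 2
      exact sum_congr rfl fun i hi => by simp [m, hi]
    · rw [Set.indicator_of_notMem hz]
      simp only [Set.mem_pi, mem_coe, not_forall] at hz
      obtain ⟨i, hi, hz⟩ := hz
      refine (prod_eq_zero (mem_union_left S hi) ?_).symm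
      apply Set.indicator_of_notMem
      rwa [if_pos hi]
  simp only [e2]
  rw [lintegral_prod_eq_prod_lintegral_of_indepFun _ _ (A.indep hX)
    (fun i => (hX i).comp (measurable_pi_apply i))]
  simp only [e]
  rw [← prod_subset (subset_union_left (s₁ := s) (s₂ := S)) fun i _ hi => by simp [hi]]
  exact prod_congr rfl fun i hi => by rw [if_pos hi]

theorem integral_shift {ι : Type*} [DecidableEq ι] (S : Finset ι) (a : ι → ℝ)
    {f : (ι → ℝ) → ℝ} (hf : Measurable f) :
    ∫ z, f (fun i => z i + if i ∈ S then a i else 0) ∂gam ι =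
      ∫ z, Real.exp (∑ i ∈ S, (a i * z i - a i ^ 2 / 2)) * f z ∂gam ι := by
  rw [← integral_map (φ := fun (z : ι → ℝ) i => z i + if i ∈ S then a i else 0)
    (Measurable.aemeasurable (by fun_prop)) hf.aestronglyMeasurable, gam_shift, integral_withDensity_eq_integral_toReal_smul (by fun_prop)
    (ae_of_all _ fun _ => ENNReal.ofReal_lt_top)]
  simp only [ENNReal.toReal_ofReal (Real.exp_pos _).le, smul_eq_mul]

theorem integrable_exp_lin {ι : Type*} (S : Finset ι) (a : ι → ℝ) :
    Integrable (fun z : ι → ℝ => Real.exp (∑ i ∈ S, a i * z i)) (gam ι) := by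
  have := (A.lin_mp S a).integrable_comp_of_integrable (integrable_exp_mul_gaussianReal 1)
  simpa [Function.comp_def] using this

theorem integral_exp_lin {ι : Type*} (S : Finset ι) (a : ι → ℝ) :
    ∫ z, Real.exp (∑ i ∈ S, a i * z i) ∂gam ι = Real.exp ((∑ i ∈ S, a i ^ 2) / 2) := by
  have := mgf_gaussianReal (A.lin_law S a) 1
  simpa [mgf] using this

theorem integrable_lin_pow {ι : Type*} (S : Finset ι) (a : ι → ℝ) (n : ℕ) :
    Integrable (fun z : ι → ℝ => (∑ i ∈ S, a i * z i) ^ n) (gam ι) := by
  have h : ∀ v : NNReal, Integrable (fun x : ℝ => x ^ n) (gaussianReal 0 v) := fun v =>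
    integrable_pow_of_mem_interior_integrableExpSet (X := fun x : ℝ => x) (by simp) n
  exact (A.lin_mp S a).integrable_comp_of_integrable (h _)

theorem integral_lin {ι : Type*} (S : Finset ι) (a : ι → ℝ) :
    ∫ z, ∑ i ∈ S, a i * z i ∂gam ι = 0 := by
  rw [integral_mp (A.lin_mp S a) (f := fun x => x) measurable_id, integral_id_gaussianReal]

theorem integral_lin_sq {ι : Type*} (S : Finset ι) (a : ι → ℝ) :
    ∫ z, (∑ i ∈ S, a i * z i) ^ 2 ∂gam ι = ∑ i ∈ S, a i ^ 2 := by
  rw [integral_mp (A.lin_mp S a) (f := fun x => x ^ 2) (by fun_prop), A.moment_two]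
  rfl

theorem integral_lin_four {ι : Type*} (S : Finset ι) (a : ι → ℝ) :
    ∫ z, (∑ i ∈ S, a i * z i) ^ 4 ∂gam ι = 3 * (∑ i ∈ S, a i ^ 2) ^ 2 := by
  rw [integral_mp (A.lin_mp S a) (f := fun x => x ^ 4) (by fun_prop), A.moment_four]
  rfl

end Crest.Agent.R160
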