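import Crest.Agent.R160.Tree
import Crest.Agent.R160.Gauss

/-! Row 160, sub-task G, part 1: the gauge transformation. -/

set_option autoImplicit false
set_option linter.unusedSectionVars false

namespace Crest.Agent.R160

open MeasureTheory ProbabilityTheory Finset

namespace Ga

theorem measurable_tanh : Measurable Real.tanh := by
  have : Real.tanh = fun x => Real.sinh x / Real.cosh x := funext Real.tanh_eq_sinh_div_cosh
  rw [this]
  fun_prop

theorem measurable_Ath (θ : ℝ) : Measurable (Ath θ) := by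
  unfold Ath
  have := measurable_tanh
  fun_prop

theorem Ath_neg (θ h : ℝ) : Ath θ (-h) = - Ath θ h := by
  unfold Ath
  rw [Real.tanh_neg, ← neg_div, ← Real.log_inv, inv_div]
  congr 3 <;> ring

theorem Ath_sgn (θ h : ℝ) {s : ℝ} (hs : s = 1 ∨ s = -1) : Ath θ (s * h) = s * Ath θ h := by
  rcases hs with rfl | rfl <;> simp [Ath_neg]

theorem tanh_sq_abs (h : ℝ) : Real.tanh |h| ^ 2 = Real.tanh h ^ 2 := by
  rcases abs_choice h with e | e <;> rw [e]
  rw [Real.tanh_neg, neg_sq]

theorem tanh_sq_congr {h h' : ℝ} (e : |h| = |h'|) : Real.tanh h ^ 2 = Real.tanh h' ^ 2 := by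
  rw [← tanh_sq_abs h, e, tanh_sq_abs]

theorem gg_congr (θ : ℝ) {h h' : ℝ} (e : |h| = |h'|) : gg θ h = gg θ h' := by
  unfold gg; rw [tanh_sq_congr e]

theorem sinh_le (x : ℝ) (hx : 0 ≤ x) : Real.sinh x ≤ x * Real.cosh x := by
  have hd : ∀ y, HasDerivAt (fun y => y * Real.cosh y - Real.sinh y) (y * Real.sinh y) y := by
    intro y
    have := ((hasDerivAt_id' y).mul (Real.hasDerivAt_cosh y)).sub (Real.hasDerivAt_sinh y)
    exact this.congr_deriv (by ring)
  have hm : MonotoneOn (fun y => y * Real.cosh y - Real.sinh y) (Set.Ici 0) := by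
    refine monotoneOn_of_deriv_nonneg (convex_Ici 0) (by fun_prop)
      (fun y _ => (hd y).differentiableAt.differentiableWithinAt) fun y hy => ?_
    rw [(hd y).deriv]
    have : 0 < y := by simpa using hy
    exact mul_nonneg this.le (Real.sinh_nonneg_iff.2 this.le)
  have := hm (Set.mem_Ici.2 le_rfl) (Set.mem_Ici.2 hx) hx
  simp only [zero_mul, Real.sinh_zero, sub_zero] at this
  linarith

theorem tanh_sq_le (h : ℝ) : Real.tanh h ^ 2 ≤ h ^ 2 := by
  rw [← tanh_sq_abs, ← sq_abs h]
  have h1 : 0 ≤ Real.tanh |h| := by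
    rw [Real.tanh_eq_sinh_div_cosh]
    exact div_nonneg (Real.sinh_nonneg_iff.2 (abs_nonneg _)) (Real.cosh_pos _).le
  have h2 : Real.tanh |h| ≤ |h| := by
    rw [Real.tanh_eq_sinh_div_cosh, div_le_iff₀ (Real.cosh_pos _)]
    exact sinh_le _ (abs_nonneg _)
  exact pow_le_pow_left₀ h1 h2 2

theorem measurable_H {V α : Type*} [MeasurableSpace α] (F : Fo V) (θ : ℝ) {t y : α → V → ℝ}
    (ht : Measurable t) (hy : Measurable y) : Measurable fun a => F.H θ (t a) (y a) := by
  refine measurable_pi_lambda _ fun x => ?_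
  induction x using F.ind with
  | h x ih =>
    simp only [F.H_eq θ _ _ x]
    refine ((measurable_pi_apply x).comp hy).add (Finset.measurable_sum _ fun z hz => ?_)
    exact ((measurable_pi_apply z).comp ht).mul ((measurable_Ath θ).comp (ih z hz))

theorem measurable_HH {V : Type*} (F : Fo V) (θ : ℝ) {tf : ℝ → ℝ} (htf : Measurable tf)
    (a : V → ℝ) (τ : ℝ) : Measurable (F.HH θ tf a τ) :=
  measurable_H F θ (measurable_pi_lambda _ fun z => htf.comp (measurable_pi_apply _))
    (by fun_prop)

theorem H_congr {V : Type*} (F : Fo V) (θ : ℝ) {t t' : V → ℝ} (y : V → ℝ)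
    (h : ∀ x, ∀ z ∈ F.ch x, t z = t' z) : F.H θ t y = F.H θ t' y := by
  funext x
  induction x using F.ind with
  | h x ih =>
    rw [F.H_eq θ t, F.H_eq θ t']
    exact congrArg _ (sum_congr rfl fun z hz => by rw [h x z hz, ih z hz])

theorem L_congr {V : Type*} (F : Fo V) (θ : ℝ) {h h' : V → ℝ}
    (e : ∀ x, ∀ z ∈ F.ch x, |h z| = |h' z|) (x : V) : F.L θ h x = F.L θ h' x := by
  induction x using F.ind with
  | h x ih =>
    rw [F.L_eq θ h, F.L_eq θ h']
    exact congrArg _ (sum_congr rfl fun z hz => by rw [gg_congr θ (e x z hz), ih z hz])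

theorem pg_congr {V : Type*} (θ : ℝ) {h h' : V → ℝ} (l : List V)
    (e : ∀ x ∈ l, |h x| = |h' x|) : pg θ h l = pg θ h' l := by
  unfold pg
  rw [List.map_congr_left fun x hx => gg_congr θ (e x hx)]

theorem measurable_gg (θ : ℝ) : Measurable (gg θ) := by
  unfold gg
  have := measurable_tanh
  fun_prop

theorem pg_mem {V : Type*} {θ : ℝ} (h0 : 0 ≤ θ) (h1 : θ < 1) (h : V → ℝ) (l : List V) :
    0 ≤ pg θ h l ∧ pg θ h l ≤ θ ^ l.length := by
  induction l with
  | nil => simp [pg]
  | cons x l ih =>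
    have := gg_mem h0 h1 (h x)
    unfold pg at *
    simp only [List.map_cons, List.prod_cons, List.length_cons, pow_succ']
    exact ⟨mul_nonneg this.1 ih.1, mul_le_mul this.2 ih.2 ih.1 h0⟩

theorem bm_pg {V : Type*} {θ : ℝ} (h0 : 0 ≤ θ) (h1 : θ < 1) (l : List V) :
    BM fun h : V → ℝ => pg θ h l := by
  refine ⟨?_, θ ^ l.length, fun h => by
    rw [abs_of_nonneg (pg_mem h0 h1 h l).1]; exact (pg_mem h0 h1 h l).2⟩
  induction l with
  | nil => simp [pg]
  | cons x l ih =>
    unfold pg at *
    simp only [List.map_cons, List.prod_cons]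
    exact ((measurable_gg θ).comp (measurable_pi_apply x)).mul ih

theorem sp_pm {V : Type*} [DecidableEq V] (A : Finset V) (v : V) : sp A v = 1 ∨ sp A v = -1 := by
  unfold sp; split_ifs <;> simp

theorem sp_mul_self {V : Type*} [DecidableEq V] (A : Finset V) (v : V) : sp A v * sp A v = 1 := by
  rw [← sq, sp_sq]

theorem gam_sign {V : Type*} [DecidableEq V] (A : Finset V) :
    MeasurePreserving (fun (g : V → ℝ) v => sp A v * g v) (gam V) (gam V) := by
  have := gam_orth (ι := V) (κ := V) (fun k => {k}) (fun k i => if i = k then sp A k else 0)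
    (fun k i hi => if_neg (by simpa using hi)) (fun k k' => by
      rw [sum_singleton, if_pos rfl]
      split_ifs with h
      · rw [← h, sp_mul_self]
      · rw [mul_zero])
  simpa using this

/-- the law of the signs -/
theorem sign_law {V J : Type*} [DecidableEq V] {θ : ℝ} {tf : ℝ → ℝ} (htf : Sgn θ tf)
    (S : Finset V) {ι : V → J} (hι : Function.Injective ι) (Ψ : (V → ℝ) → ℝ)
    (hΨ : ∀ t t', (∀ x ∈ S, t x = t' x) → Ψ t = Ψ t') :
    ∫ w, Ψ (fun z => tf (w (ι z))) ∂gam J =
      ∑ T ∈ S.powerset, (∏ x ∈ S, (1 + θ * sp T x) / 2) * Ψ (sp T) := by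
  set P : Finset V → Set (V → ℝ) := fun T => Set.pi S fun x => {r | tf r = sp T x} with hP
  have hm : ∀ s : ℝ, MeasurableSet {r | tf r = s} := fun s =>
    htf.meas (measurableSet_singleton s)
  have hPm : ∀ T, MeasurableSet (P T) := fun T =>
    MeasurableSet.pi S.countable_toSet fun x _ => hm _
  have h1 : ∀ u : V → ℝ, Ψ (fun z => tf (u z)) =
      ∑ T ∈ S.powerset, (P T).indicator (fun _ => Ψ (sp T)) u := by
    intro u
    classical
    have key : ∀ x ∈ S, tf (u x) = sp (S.filter fun x => tf (u x) = 1) x := by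
      intro x hx
      unfold sp
      split_ifs with h
      · exact (mem_filter.1 h).2
      · exact (htf.pm _).resolve_left fun h' => h (mem_filter.2 ⟨hx, h'⟩)
    rw [sum_eq_single (S.filter fun x => tf (u x) = 1)]
    · rw [Set.indicator_of_mem (show u ∈ P _ from fun x hx => key x hx)]
      exact hΨ _ _ key
    · intro T hT hne
      refine Set.indicator_of_notMem (fun hu => hne ?_) _
      ext x
      rw [mem_filter]
      constructor
      · intro hx
        have hxS := mem_powerset.1 hT hx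
        refine ⟨hxS, ?_⟩
        have := hu x hxS
        simpa [sp, hx] using this
      · rintro ⟨hxS, hx⟩
        by_contra hxT
        have := hu x hxS
        simp only [Set.mem_ofPred_eq, sp, hxT, if_false] at this
        rw [hx] at this
        norm_num at this
    · intro h
      exact absurd (mem_powerset.2 (filter_subset _ _)) h
  have hreal : ∀ (T : Finset V) (x : V),
      (gaussianReal 0 1).real {r | tf r = sp T x} = (1 + θ * sp T x) / 2 := by
    intro T x
    rcases sp_pm T x with e | e <;> rw [e]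
    · rw [htf.law, mul_one]
    · have : {r | tf r = -1} = {r | tf r = 1}ᶜ := by
        ext r
        simp only [Set.mem_ofPred_eq, Set.mem_compl_iff]
        rcases htf.pm r with e | e <;> rw [e] <;> norm_num
      rw [this, probReal_compl_eq_one_sub (hm 1), htf.law]
      ring
  have h2 : (fun u : V → ℝ => Ψ (fun z => tf (u z))) =
      fun u => ∑ T ∈ S.powerset, (P T).indicator (fun _ => Ψ (sp T)) u := funext h1
  have h3 : Measurable fun u : V → ℝ => Ψ (fun z => tf (u z)) := by
    rw [h2]
    exact Finset.measurable_sum _ fun T _ => measurable_const.indicator (hPm T)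
  rw [integral_mp (gam_inj hι) h3, h2, integral_finsetSum _ fun T _ =>
    (integrable_const _).indicator (hPm T)]
  refine sum_congr rfl fun T _ => ?_
  rw [integral_indicator_const _ (hPm T), smul_eq_mul]
  congr 1
  rw [measureReal_def, hP, gam, Measure.infinitePi_pi _ (fun x _ => hm _), ENNReal.toReal_prod]
  exact prod_congr rfl fun x _ => hreal T x

variable {V : Type*} [DecidableEq V] {G : SimpleGraph V} (hT : G.IsTree)
include hT

/-- the law of the edge signs under the prior -/
theorem prior_law {θ : ℝ} {Λ : Finset V} (hΛ : Cvx G Λ) {c : V} (hc : c ∈ Λ)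
    (Ψ : (V → ℝ) → ℝ) (hΨ : ∀ t t', (∀ x ∈ Λ.erase c, t x = t' x) → Ψ t = Ψ t') :
    ∑ A ∈ Λ.powerset, mu G θ Λ A * Ψ (fun z => sp A z * sp A (par G c z)) =
      ∑ T ∈ (Λ.erase c).powerset, (∏ x ∈ Λ.erase c, (1 + θ * sp T x) / 2) * Ψ (sp T) := by
  classical
  set e : Finset V → Finset V := fun A =>
    Λ.filter fun x => if x = c then c ∈ A else sp A x * sp A (par G c x) = 1 with he
  have h1 : ∀ A, ∀ x ∈ Λ.erase c, sp A x * sp A (par G c x) = sp (e A) x := by
    intro A x hx
    obtain ⟨hx1, hx2⟩ := mem_erase.1 hx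
    by_cases h : sp A x * sp A (par G c x) = 1
    · rw [h, sp, if_pos (mem_filter.2 ⟨hx2, by rw [if_neg hx1]; exact h⟩)]
    · have h' : x ∉ e A := fun h' => h (by simpa [hx1] using (mem_filter.1 h').2)
      rw [show sp (e A) x = -1 from if_neg h']
      rcases sp_pm A x with a | a <;> rcases sp_pm A (par G c x) with b | b <;>
        rw [a, b] at h ⊢ <;> simp_all
  have hmaps : Set.MapsTo e Λ.powerset Λ.powerset := fun A _ =>
    mem_coe.2 (mem_powerset.2 (filter_subset _ _))
  have hinj : Set.InjOn e Λ.powerset := by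
    intro A hA A' hA' hAA
    have key : ∀ n, ∀ x ∈ Λ, G.dist x c = n → sp A x = sp A' x := by
      intro n
      induction n with
      | zero =>
        intro x hx hn
        obtain rfl := (dist_zero hT).1 hn
        have : x ∈ e A ↔ x ∈ e A' := by rw [hAA]
        simp only [he, mem_filter, hx, true_and, if_true] at this
        simp only [sp, this]
      | succ n ih =>
        intro x hx hn
        have hxc : x ≠ c := by rintro rfl; simp at hn
        have h2 := ih _ (hΛ c hc x hx) (by have := (par_spec hT hxc).2; omega)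
        have h3 := h1 A x (mem_erase.2 ⟨hxc, hx⟩)
        rw [hAA, ← h1 A' x (mem_erase.2 ⟨hxc, hx⟩), h2] at h3
        refine mul_right_cancel₀ ?_ h3
        rcases sp_pm A' (par G c x) with b | b <;> rw [b] <;> norm_num
    ext x
    constructor
    · intro hx
      have := key _ x (mem_powerset.1 hA hx) rfl
      by_contra h
      simp only [sp, hx, h, if_true, if_false] at this
      norm_num at this
    · intro hx
      have := key _ x (mem_powerset.1 hA' hx) rfl
      by_contra h
      simp only [sp, hx, h, if_true, if_false] at this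
      norm_num at this
  have hsurj := surjOn_of_injOn_of_card_le e hmaps hinj le_rfl
  set f : Finset V → ℝ := fun T => (∏ x ∈ Λ.erase c, (1 + θ * sp T x) / 2) * Ψ (sp T) with hf
  have h2 : ∑ A ∈ Λ.powerset, mu G θ Λ A * Ψ (fun z => sp A z * sp A (par G c z)) =
      ∑ T ∈ Λ.powerset, 1 / 2 * f T := by
    refine sum_nbij e (fun A hA => hmaps hA) hinj hsurj fun A _ => ?_
    rw [mu_eq hT hΛ hc, hf, mul_assoc, hΨ _ _ (h1 A), prod_congr rfl fun x hx => by rw [h1 A x hx]]
  have h3 : ∀ T, f (insert c T) = f T := by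
    intro T
    have : ∀ x ∈ Λ.erase c, sp (insert c T) x = sp T x := fun x hx => by
      simp [sp, (mem_erase.1 hx).1]
    simp only [hf]
    rw [hΨ _ _ this, prod_congr rfl fun x hx => by rw [this x hx]]
  rw [h2]
  conv_lhs => rw [← insert_erase hc]
  rw [sum_powerset_insert (notMem_erase c Λ), ← sum_add_distrib]
  exact sum_congr rfl fun T _ => by rw [h3]; ring

theorem hr_gauge (θ : ℝ) (Λ : Finset V) (c : V) (A : Finset V) (y : V → ℝ) (x : V) :
    (tfo hT Λ c).H θ (fun z => sp A z * sp A (par G c z)) (fun z => sp A z * y z) x =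
      sp A x * hr hT θ Λ y c x := by
  unfold hr
  induction x using (tfo hT Λ c).ind with
  | h x ih =>
    rw [Fo.H_eq _ θ _ _ x, Fo.H_eq _ θ (fun _ => 1) _ x, mul_add, mul_sum]
    refine congrArg _ (sum_congr rfl fun z hz => ?_)
    rw [ih z hz, Ath_sgn _ _ (sp_pm A z), ((mem_ch hT).1 hz).2.2]
    have := sp_mul_self A z
    linear_combination (sp A x * Ath θ ((tfo hT Λ c).H θ (fun _ => 1) y z)) * this

end Ga

theorem exists_sgn {θ : ℝ} (h0 : 0 ≤ θ) (h1 : θ < 1) : ∃ tf, Sgn θ tf := by
  have hc : Continuous (cdf (gaussianReal 0 1)) := by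
    refine continuous_iff_continuousAt.2 fun x => ?_
    rw [(monotone_cdf _).continuousAt_iff_leftLim_eq_rightLim, StieltjesFunction.rightLim_eq]
    have h2 := (cdf (gaussianReal 0 1)).measure_singleton x
    have : NullSingletonClass (gaussianReal 0 1) := nullSingletonClass_gaussianReal one_ne_zero
    rw [measure_cdf, measure_singleton, eq_comm, ENNReal.ofReal_eq_zero] at h2
    exact le_antisymm ((monotone_cdf _).leftLim_le le_rfl) (by linarith)
  obtain ⟨t, ht⟩ : (1 + θ) / 2 ∈ Set.range (cdf (gaussianReal 0 1)) := by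
    have := isPreconnected_univ.intermediate_value_Ioo (l₁ := Filter.atBot) (l₂ := Filter.atTop)
      (by simp) (by simp) hc.continuousOn (tendsto_cdf_atBot _) (tendsto_cdf_atTop _)
    rw [Set.image_univ] at this
    exact this ⟨by linarith, by linarith⟩
  refine ⟨fun x => if x ≤ t then 1 else -1, Measurable.ite measurableSet_Iic measurable_const
    measurable_const, fun x => by split_ifs <;> simp, ?_⟩
  rw [← ht, cdf_eq_real]
  congr 1
  ext x
  simp only [Set.mem_ofPred_eq, Set.mem_Iic]
  split_ifs with h <;> norm_num [h]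

variable {V : Type*} [DecidableEq V] {G : SimpleGraph V} (hT : G.IsTree)

theorem gauge {θ : ℝ} {Λ : Finset V} (hΛ : Cvx G Λ) {c : V} (hc : c ∈ Λ) {tf : ℝ → ℝ}
    (htf : Sgn θ tf) (τ : ℝ) {Φ : (V → ℝ) → ℝ} (hΦ : BM Φ)
    (habs : ∀ h h', (∀ x ∈ Λ, |h x| = |h' x|) → Φ h = Φ h') :
    Sharp Λ (mu G θ Λ) τ (fun y => Φ (hr hT θ Λ y c)) =
      ∫ w, Φ ((tfo hT Λ c).HH θ tf (fun _ => τ) τ w) ∂gam _ := by
  set Ψ : (V → ℝ) → ℝ := fun t =>
    ∫ g, Φ ((tfo hT Λ c).H θ t (fun z => τ + √τ * g z)) ∂gam V with hΨ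
  have hm : ∀ t, Measurable fun g : V → ℝ => Φ ((tfo hT Λ c).H θ t (fun z => τ + √τ * g z)) :=
    fun t => hΦ.1.comp (Ga.measurable_H _ θ measurable_const (by fun_prop))
  have hdep : ∀ t t', (∀ x ∈ Λ.erase c, t x = t' x) → Ψ t = Ψ t' := by
    intro t t' h
    simp only [hΨ]
    congr 1
    funext g
    rw [Ga.H_congr _ θ _ fun x z hz => h z
      (mem_erase.2 ⟨((mem_ch hT).1 hz).2.1, ((mem_ch hT).1 hz).1⟩)]
  have h1 : Sharp Λ (mu G θ Λ) τ (fun y => Φ (hr hT θ Λ y c)) =
      ∑ A ∈ Λ.powerset, mu G θ Λ A * Ψ (fun z => sp A z * sp A (par G c z)) := by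
    refine sum_congr rfl fun A _ => congrArg _ ?_
    simp only [hΨ]
    rw [← integral_mp (Ga.gam_sign A) (hm _)]
    congr 1
    funext g
    refine habs _ _ fun x _ => ?_
    have : (fun z => τ + √τ * (sp A z * g z)) = fun z => sp A z * (τ * sp A z + √τ * g z) := by
      funext z
      have := Ga.sp_mul_self A z
      linear_combination (-τ) * this
    rw [this, Ga.hr_gauge, abs_mul, abs_sp, one_mul]
  rw [h1, Ga.prior_law hT hΛ hc Ψ hdep, ← Ga.sign_law htf (Λ.erase c) (ι := fun z => (z, true))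
    (fun a b h => (Prod.mk.inj h).1) Ψ hdep,
    integral_merge (fun j : V × Bool => j.2 = true) (hΦ.comp (Ga.measurable_HH _ θ htf.meas _ τ))]
  congr 1
  funext w
  simp only [hΨ]
  rw [← integral_mp (gam_inj (ι := fun z : V => (z, false)) fun a b h => (Prod.mk.inj h).1) (hm _)]
  simp [Fo.HH]

end Crest.Agent.R160
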