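import Crest.Agent.R160.TreeDefs

/-! Row 160: the jump kernel, its weights and the parameters. -/

set_option autoImplicit false
set_option linter.unusedSectionVars false

namespace Crest.Agent.R160

open MeasureTheory Finset

/-- a positive normalised linear functional on bounded measurable functions -/
structure PF {α : Type*} [MeasurableSpace α] (E : (α → ℝ) → ℝ) : Prop where
  mono : ∀ f g, BM f → BM g → (∀ y, f y ≤ g y) → E f ≤ E g
  add : ∀ f g, BM f → BM g → E (fun y => f y + g y) = E f + E g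
  mul : ∀ (c : ℝ) f, E (fun y => c * f y) = c * E f
  const : ∀ c : ℝ, E (fun _ => c) = c

theorem PF.sum {α ι : Type*} [MeasurableSpace α] {E : (α → ℝ) → ℝ} (h : PF E) (s : Finset ι)
    {f : ι → α → ℝ} (hf : ∀ i ∈ s, BM (f i)) :
    E (fun y => ∑ i ∈ s, f i y) = ∑ i ∈ s, E (f i) := by
  classical
  induction s using Finset.induction_on with
  | empty => simpa using h.const 0
  | insert a s ha ih =>
    simp only [sum_insert ha]
    rw [h.add _ _ (hf a (mem_insert_self _ _)) (BM.sum _ fun i hi => hf i (mem_insert_of_mem hi)),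
      ih fun i hi => hf i (mem_insert_of_mem hi)]

theorem pf_integral {α β : Type*} [MeasurableSpace α] [MeasurableSpace β] (ν : Measure β)
    [IsProbabilityMeasure ν] {e : β → α} (he : Measurable e) :
    PF (fun f : α → ℝ => ∫ g, f (e g) ∂ν) where
  mono _ _ hf hg h := integral_mono ((hf.comp he).integrable _) ((hg.comp he).integrable _)
    fun _ => h _
  add _ _ hf hg := integral_add ((hf.comp he).integrable _) ((hg.comp he).integrable _)
  mul _ _ := integral_const_mul _ _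
  const c := by simp

theorem Prior.pf_Sharp {V : Type*} [DecidableEq V] {Λ : Finset V} {μ : Finset V → ℝ}
    (h : Prior Λ μ) (τ : ℝ) : PF (Sharp Λ μ τ) := by
  have key : ∀ A : Finset V, PF (fun f : (V → ℝ) → ℝ =>
      ∫ g, f (fun v => τ * sp A v + √τ * g v) ∂gam V) := fun A => pf_integral _ (by fun_prop)
  refine ⟨fun f g hf hg hle => sum_le_sum fun A _ =>
    mul_le_mul_of_nonneg_left ((key A).mono f g hf hg hle) (h.pos A).le, fun f g hf hg => ?_,
    fun c f => ?_, fun c => ?_⟩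
  · unfold Sharp
    rw [← sum_add_distrib]
    exact sum_congr rfl fun A _ => by rw [← mul_add, ← (key A).add f g hf hg]
  · simp only [Sharp, integral_const_mul, mul_sum, mul_left_comm c]
  · simp only [Sharp, integral_const, probReal_univ, smul_eq_mul, one_mul, ← sum_mul, h.sum]

section
variable {V : Type*} [DecidableEq V] {G : SimpleGraph V} (hT : G.IsTree)

/-- bound for the sum of the squared regression coefficients on the spin at `c` -/
noncomputable def LL (θ : ℝ) (Λ : Finset V) (y : V → ℝ) (c : V) : ℝ :=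
  (tfo hT Λ c).L θ (hr hT θ Λ y c) c

/-- the jump kernel -/
noncomputable def kap (θ B : ℝ) (Λ : Finset V) (u : V) (y : V → ℝ) (c v : V) : ℝ :=
  if c ∈ Λ ∧ v ∈ Λ then 4 * mg Λ (mu G θ Λ) y c ^ 2 *
    ∑ c' ∈ Λ, B ^ ((G.dist c u : ℤ) - G.dist c' u - 3 * G.dist c c') *
      (rv hT θ Λ y c v ^ 2 * LL hT θ Λ y c' + LL hT θ Λ y c * rv hT θ Λ y c' v ^ 2)
  else 0

variable (G)

noncomputable def om (B : ℝ) (o u c : V) : ℝ :=
  B ^ ((G.dist c u : ℤ) - 2 * G.dist c o - G.dist u o)

noncomputable def Psi (B : ℝ) (o : V) (ε : ℝ) (c : V) : ℝ :=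
  B ^ (-3 * (G.dist c o : ℤ)) * (1 + (G.dist c o : ℝ)) ^ ε

/-- bound for the moments of `rv ^ 2` -/
noncomputable def rb (B M : ℝ) (n : ℕ) : ℝ := Real.exp 1 * (1 / B ^ 3 * Real.exp (-1 / M)) ^ n

noncomputable def k3b (B M : ℝ) (o c v : V) : ℝ :=
  rb B M (G.dist v c) * B ^ ((G.dist c v : ℤ) + 2 * G.dist c o - 2 * G.dist v o)

noncomputable def k2 (B : ℝ) (o c c' : V) : ℝ :=
  B ^ (2 * (G.dist c o : ℤ) - 2 * G.dist c' o - 3 * G.dist c c')

noncomputable def Kb (B CW : ℝ) (Λ : Finset V) (o : V) (mm l M : ℝ) (c v : V) : ℝ :=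
  4 * mm * l * (CW * k3b G B M o c v + ∑ c' ∈ Λ, k2 G B o c c' * k3b G B M o c' v)

end

/-! ### parameters at the step `k` (`D` steps per slice) -/

noncomputable def pmm (Cm : ℕ → ℝ) (i Q : ℕ) (δ : ℝ) (D k : ℕ) : ℝ :=
  if k < 2 * D then (Cm i * ((k : ℝ) * δ) ^ ((2 : ℝ) ^ i / 4)) ^ (1 / (Q : ℝ)) else 1

noncomputable def px (δ : ℝ) (D k : ℕ) : ℝ := if k < 2 * D then 1 / √(k * δ) else 1 / (D * δ)

noncomputable def pt (δ : ℝ) (D k : ℕ) : ℝ := if k < 2 * D then k * δ else D * δ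

noncomputable def pl (C : ℝ) (Q : ℕ) (δ : ℝ) (D k : ℕ) : ℝ := C * (px δ D k + Real.log (Q + 1))

noncomputable def pM (C : ℝ) (Q : ℕ) (δ : ℝ) (D k : ℕ) : ℝ :=
  if 1 ≤ Q * pt δ D k ^ 4 then C * Q / Real.log (Q + 1) else C * (px δ D k + Q)

end Crest.Agent.R160
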