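import Crest.Agent.R160.Gauss

/-! Row 160, sub-task C, part 1: mixtures, Taylor expansion of tilted expectations. -/

set_option autoImplicit false
set_option linter.unusedSectionVars false

namespace Crest.Agent.R160.C

open MeasureTheory ProbabilityTheory Finset

section Mx
variable {ι Ω : Type*} [MeasurableSpace Ω] (S : Finset ι) (w : ι → ℝ) (ν : Measure Ω)

/-- a finite mixture of integrals -/
noncomputable def Mx (F : ι → Ω → ℝ) : ℝ := ∑ A ∈ S, w A * ∫ z, F A z ∂ν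

variable {S w ν}

theorem Mx_mono (hw : ∀ A, 0 ≤ w A) {F G : ι → Ω → ℝ} (hF : ∀ A, Integrable (F A) ν)
    (hG : ∀ A, Integrable (G A) ν) (h : ∀ A ∈ S, ∀ z, F A z ≤ G A z) :
    Mx S w ν F ≤ Mx S w ν G :=
  sum_le_sum fun A hA => mul_le_mul_of_nonneg_left (integral_mono (hF A) (hG A) (h A hA)) (hw A)

theorem Mx_add {F G : ι → Ω → ℝ} (hF : ∀ A, Integrable (F A) ν) (hG : ∀ A, Integrable (G A) ν) :
    Mx S w ν (fun A z => F A z + G A z) = Mx S w ν F + Mx S w ν G := by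
  unfold Mx
  rw [← sum_add_distrib]
  exact sum_congr rfl fun A _ => by rw [integral_add (hF A) (hG A), mul_add]

theorem Mx_mul (c : ℝ) (F : ι → Ω → ℝ) :
    Mx S w ν (fun A z => c * F A z) = c * Mx S w ν F := by
  simp only [Mx, integral_const_mul, mul_sum, mul_left_comm c]

theorem Mx_lin3 {F G H : ι → Ω → ℝ} (hF : ∀ A, Integrable (F A) ν) (hG : ∀ A, Integrable (G A) ν)
    (hH : ∀ A, Integrable (H A) ν) (a b c : ℝ) :
    Mx S w ν (fun A z => a * F A z + (b * G A z + c * H A z)) =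
      a * Mx S w ν F + (b * Mx S w ν G + c * Mx S w ν H) := by
  rw [Mx_add (F := fun A z => a * F A z) (G := fun A z => b * G A z + c * H A z)
    (fun A => (hF A).const_mul _) (fun A => ((hG A).const_mul _).add ((hH A).const_mul _)),
    Mx_add (F := fun A z => b * G A z) (G := fun A z => c * H A z)
    (fun A => (hG A).const_mul _) (fun A => (hH A).const_mul _), Mx_mul, Mx_mul, Mx_mul]

theorem Mx_nonneg (hw : ∀ A, 0 ≤ w A) {F : ι → Ω → ℝ} (h : ∀ A z, 0 ≤ F A z) :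
    0 ≤ Mx S w ν F :=
  sum_nonneg fun A _ => mul_nonneg (hw A) (integral_nonneg (h A))

variable [IsProbabilityMeasure ν]

theorem Mx_const (h1 : ∑ A ∈ S, w A = 1) (c : ℝ) : Mx S w ν (fun _ _ => c) = c := by
  simp only [Mx, integral_const, probReal_univ, smul_eq_mul, one_mul, ← sum_mul, h1]

theorem Mx_same (h1 : ∑ A ∈ S, w A = 1) (f : Ω → ℝ) : Mx S w ν (fun _ z => f z) = ∫ z, f z ∂ν := by
  simp only [Mx, ← sum_mul, h1, one_mul]

theorem Mx_cs (hw : ∀ A, 0 ≤ w A) {F G : ι → Ω → ℝ} (hF : ∀ A, BM (F A)) (hG : ∀ A, BM (G A)) :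
    Mx S w ν (fun A z => F A z * G A z) ≤
      √(Mx S w ν fun A z => F A z ^ 2) * √(Mx S w ν fun A z => G A z ^ 2) := by
  have h : ∀ x : ℝ, 0 ≤ (Mx S w ν fun A z => F A z ^ 2) * (x * x) +
      (-2 * Mx S w ν (fun A z => F A z * G A z)) * x + Mx S w ν fun A z => G A z ^ 2 := by
    intro x
    have h0 : 0 ≤ Mx S w ν fun A z => (x * x) * F A z ^ 2 + ((-2 * x) * (F A z * G A z) +
        1 * G A z ^ 2) := Mx_nonneg hw fun A z => by nlinarith [sq_nonneg (x * F A z - G A z)]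
    rw [Mx_lin3 (fun A => ((hF A).pow 2).integrable ν) (fun A => ((hF A).mul (hG A)).integrable ν)
      (fun A => ((hG A).pow 2).integrable ν)] at h0
    linarith
  have h2 := discrim_le_zero h
  rw [← Real.sqrt_mul (Mx_nonneg hw fun A z => sq_nonneg _)]
  refine (le_abs_self _).trans (Real.abs_le_sqrt ?_)
  unfold discrim at h2
  nlinarith

/-- fourth moment of an almost Gaussian variable -/
theorem Mx_four (hw : ∀ A, 0 ≤ w A) (h1 : ∑ A ∈ S, w A = 1) {Z : ι → Ω → ℝ} (hZ : ∀ A, BM (Z A))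
    {L W : Ω → ℝ} {τ ρ M : ℝ} (hτ : 0 ≤ τ) (hρ : 0 < ρ) (hL : Integrable (fun z => L z ^ 4) ν)
    (hL4 : ∫ z, L z ^ 4 ∂ν = 3 * τ ^ 2) (hW : Integrable (fun z => W z ^ 8) ν)
    (hM : ∫ z, W z ^ 8 ∂ν = M)
    (hb : ∀ A ∈ S, ∀ z, |Z A z - Mx S w ν Z - L z| ≤ ρ * W z ^ 2) :
    Mx S w ν (fun A z => Z A z ^ 4) ≤ (Mx S w ν Z ^ 2 + 20 * τ + 4 * ρ ^ 2 * (8 * M + 1)) ^ 2 := by
  set a := Mx S w ν Z with ha
  have hM0 : 0 ≤ M := hM ▸ integral_nonneg fun z => by positivity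
  set n := 5 * τ + ρ ^ 2 * (8 * M + 1) with hn
  have hn0 : 0 < n := by positivity
  have hD : ∀ A, BM fun z => Z A z - a := fun A => (hZ A).sub (BM.const a)
  have hD0 : Mx S w ν (fun A z => Z A z - a) = 0 := by
    have := Mx_add (S := S) (w := w) (ν := ν) (F := fun A z => Z A z - a) (G := fun _ _ => a)
      (fun A => (hD A).integrable ν) (fun _ => integrable_const _)
    simp only [sub_add_cancel, Mx_const h1] at this
    linarith
  have hD4 : Mx S w ν (fun A z => (Z A z - a) ^ 4) ≤ n ^ 2 := by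
    have h2 : Mx S w ν (fun A z => (Z A z - a) ^ 4) ≤
        Mx S w ν (fun _ z => 8 * L z ^ 4 + 8 * ρ ^ 4 * W z ^ 8) := by
      refine Mx_mono hw (fun A => ((hD A).pow 4).integrable ν)
        (fun _ => (hL.const_mul _).add (hW.const_mul _)) fun A hA z => ?_
      have h3 : (Z A z - a - L z) ^ 4 ≤ (ρ * W z ^ 2) ^ 4 := by
        rw [← Even.pow_abs (by decide : Even 4)]
        exact pow_le_pow_left₀ (abs_nonneg _) (hb A hA z) 4
      have h4 : ∀ x y : ℝ, (x + y) ^ 4 ≤ 8 * x ^ 4 + 8 * y ^ 4 := fun x y => by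
        have e1 : (x + y) ^ 2 ≤ 2 * (x ^ 2 + y ^ 2) := by nlinarith [sq_nonneg (x - y)]
        have e2 : ((x + y) ^ 2) ^ 2 ≤ (2 * (x ^ 2 + y ^ 2)) ^ 2 :=
          pow_le_pow_left₀ (sq_nonneg _) e1 2
        nlinarith [sq_nonneg (x ^ 2 - y ^ 2)]
      have h5 := h4 (L z) (Z A z - a - L z)
      rw [add_sub_cancel] at h5
      nlinarith
    rw [Mx_same h1, integral_add (hL.const_mul _) (hW.const_mul _), integral_const_mul,
      integral_const_mul, hL4, hM] at h2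
    refine h2.trans ?_
    have e1 : 0 ≤ τ * (ρ ^ 2 * (8 * M + 1)) := by positivity
    have e2 : 0 ≤ ρ ^ 4 * M ^ 2 := by positivity
    have e3 : 0 ≤ ρ ^ 4 * M := by positivity
    have e4 : 0 ≤ ρ ^ 4 := by positivity
    rw [hn]
    nlinarith [sq_nonneg τ]
  have h6 : Mx S w ν (fun A z => Z A z ^ 4) ≤ Mx S w ν (fun A z => (a ^ 4 + 4 * a ^ 2 * n) * 1 +
      (4 * a ^ 3 * (Z A z - a) + (4 * a ^ 2 / n + 3) * (Z A z - a) ^ 4)) := by
    refine Mx_mono hw (fun A => ((hZ A).pow 4).integrable ν) (fun A => (integrable_const _).add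
      ((((hD A).integrable ν).const_mul _).add ((((hD A).pow 4).integrable ν).const_mul _)))
      fun A _ z => ?_
    obtain ⟨D, hD⟩ : ∃ D, Z A z = a + D := ⟨Z A z - a, by ring⟩
    rw [hD, add_sub_cancel_left]
    have e1 : 2 * D ^ 2 ≤ D ^ 4 / n + n := by
      rw [div_add' _ _ _ hn0.ne', le_div_iff₀ hn0]
      nlinarith [sq_nonneg (D ^ 2 - n)]
    have e2 := mul_le_mul_of_nonneg_left e1 (show 0 ≤ 4 * a ^ 2 by positivity)
    have e3 : 0 ≤ D ^ 2 * (a - D) ^ 2 := by positivity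
    have e4 : (4 * a ^ 2 / n + 3) * D ^ 4 = 4 * a ^ 2 * (D ^ 4 / n) + 3 * D ^ 4 := by ring
    rw [e4]
    nlinarith
  rw [Mx_lin3 (F := fun _ _ => 1) (fun _ => integrable_const _) (fun A => (hD A).integrable ν)
    (fun A => ((hD A).pow 4).integrable ν), Mx_const h1, hD0] at h6
  have h7 := mul_le_mul_of_nonneg_left hD4 (show 0 ≤ 4 * a ^ 2 / n + 3 by positivity)
  have h8 : (4 * a ^ 2 / n + 3) * n ^ 2 = 4 * a ^ 2 * n + 3 * n ^ 2 := by field_simp
  have h9 : a ^ 2 + 20 * τ + 4 * ρ ^ 2 * (8 * M + 1) = a ^ 2 + 4 * n := by rw [hn]; ring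
  rw [h9]
  nlinarith [sq_nonneg n]

end Mx

variable {V : Type*} [DecidableEq V] {Λ : Finset V} {μ : Finset V → ℝ}

/-- posterior weights -/
noncomputable def pw (Λ : Finset V) (μ : Finset V → ℝ) (y : V → ℝ) (A : Finset V) : ℝ :=
  wt Λ μ y A / ∑ B ∈ Λ.powerset, wt Λ μ y B

theorem pw_nonneg (h : Prior Λ μ) (y : V → ℝ) (A : Finset V) : 0 ≤ pw Λ μ y A :=
  div_nonneg (h.wt_pos y A).le (h.Z_pos y).le

theorem Ex_eq (y : V → ℝ) (ψ : Finset V → ℝ) :
    Ex Λ μ y ψ = ∑ A ∈ Λ.powerset, pw Λ μ y A * ψ A := by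
  simp only [Ex, pw, sum_div, div_mul_eq_mul_div]

theorem pw_sum (h : Prior Λ μ) (y : V → ℝ) : ∑ A ∈ Λ.powerset, pw Λ μ y A = 1 := by
  have := h.Ex_const y 1
  simpa [Ex_eq] using this

theorem Ex_Mx {Ω : Type*} [MeasurableSpace Ω] (ν : Measure Ω) (y : V → ℝ)
    (F : Finset V → Ω → ℝ) :
    Ex Λ μ y (fun A => ∫ g, F A g ∂ν) = Mx Λ.powerset (pw Λ μ y) ν F := Ex_eq _ _

theorem Ex_tilt (h : Prior Λ μ) (y k : V → ℝ) (c : ℝ) (ψ : Finset V → ℝ) :
    Ex Λ μ (fun x => y x + k x) ψ * Ex Λ μ y (fun A => Real.exp (∑ x ∈ Λ, k x * sp A x - c)) =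
      Ex Λ μ y (fun A => Real.exp (∑ x ∈ Λ, k x * sp A x - c) * ψ A) := by
  have hw : ∀ A, wt Λ μ (fun x => y x + k x) A =
      Real.exp c * (wt Λ μ y A * Real.exp (∑ x ∈ Λ, k x * sp A x - c)) := by
    intro A
    simp only [wt, add_mul, sum_add_distrib, Real.exp_add, Real.exp_sub]
    field_simp
  have hZ := h.Z_pos (fun x => y x + k x)
  simp only [hw, ← mul_sum] at hZ
  have hZ' := (pos_of_mul_pos_right hZ (Real.exp_pos c).le).ne'
  simp only [Ex, hw, mul_assoc, ← mul_sum]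
  rw [mul_div_mul_left _ _ (Real.exp_pos c).ne']
  field_simp

/-- centred spin -/
noncomputable def sb (Λ : Finset V) (μ : Finset V → ℝ) (y : V → ℝ) (x : V) (A : Finset V) : ℝ :=
  sp A x - mg Λ μ y x

theorem Ex_sb (h : Prior Λ μ) (y : V → ℝ) (x : V) : Ex Λ μ y (sb Λ μ y x) = 0 := by
  unfold sb
  rw [Ex_sub, h.Ex_const]
  exact sub_self _

theorem abs_sb (h : Prior Λ μ) (y : V → ℝ) (x : V) (A : Finset V) : |sb Λ μ y x A| ≤ 2 :=
  h.abs_sub_mg_le y A x

/-- covariance with a spin -/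
noncomputable def co (Λ : Finset V) (μ : Finset V → ℝ) (y : V → ℝ) (ψ : Finset V → ℝ) (x : V) : ℝ :=
  Ex Λ μ y (fun A => ψ A * sb Λ μ y x A)

theorem abs_co (h : Prior Λ μ) (y : V → ℝ) {ψ : Finset V → ℝ} {B : ℝ} (hB : ∀ A, |ψ A| ≤ B)
    (x : V) : |co Λ μ y ψ x| ≤ 2 * B :=
  h.abs_Ex_le y fun A _ => by
    rw [abs_mul, mul_comm]
    exact mul_le_mul (abs_sb h y x A) (hB A) (abs_nonneg _) (by norm_num)

theorem abs_lin_le {k a : V → ℝ} {c : ℝ} (ha : ∀ x ∈ Λ, |a x| ≤ c) :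
    |∑ x ∈ Λ, k x * a x| ≤ c * ∑ x ∈ Λ, |k x| := by
  refine (abs_sum_le_sum_abs _ _).trans ?_
  rw [mul_sum]
  exact sum_le_sum fun x hx => by
    rw [abs_mul, mul_comm]
    exact mul_le_mul_of_nonneg_right (ha x hx) (abs_nonneg _)

theorem tay (h : Prior Λ μ) (y k : V → ℝ) {ψ : Finset V → ℝ} {B r : ℝ} (hB : ∀ A, |ψ A| ≤ B)
    (hr : ∑ x ∈ Λ, |k x| ≤ r) :
    |∑ x ∈ Λ, k x * co Λ μ y ψ x| ≤ 2 * B * r ∧
    |Ex Λ μ (fun x => y x + k x) ψ - Ex Λ μ y ψ - ∑ x ∈ Λ, k x * co Λ μ y ψ x| ≤ 16 * B * r ^ 2 ∧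
    |Ex Λ μ (fun x => y x + k x) ψ - Ex Λ μ y ψ| ≤ 8 * B * r := by
  have hB0 : 0 ≤ B := (abs_nonneg _).trans (hB ∅)
  have hr0 : 0 ≤ r := (sum_nonneg fun x _ => abs_nonneg _).trans hr
  have h1 : |∑ x ∈ Λ, k x * co Λ μ y ψ x| ≤ 2 * B * r :=
    (abs_lin_le fun x _ => abs_co h y hB x).trans
      (mul_le_mul_of_nonneg_left hr (by positivity))
  have h0 : |Ex Λ μ (fun x => y x + k x) ψ - Ex Λ μ y ψ| ≤ 2 * B :=
    (abs_sub _ _).trans (by
      linarith [h.abs_Ex_le (fun x => y x + k x) fun A _ => hB A, h.abs_Ex_le y fun A _ => hB A])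
  have h2 : |Ex Λ μ (fun x => y x + k x) ψ - Ex Λ μ y ψ - ∑ x ∈ Λ, k x * co Λ μ y ψ x| ≤
      16 * B * r ^ 2 := by
    by_cases hr2 : r ≤ 1 / 2
    · set l := ∑ x ∈ Λ, k x * co Λ μ y ψ x with hl
      set p := Ex Λ μ y ψ with hp
      let X : Finset V → ℝ := fun A => ∑ x ∈ Λ, k x * sp A x - ∑ x ∈ Λ, k x * mg Λ μ y x
      have hX : ∀ A, X A = ∑ x ∈ Λ, k x * sb Λ μ y x A := fun A => by
        simp only [X, sb, mul_sub, sum_sub_distrib]
      have hXb : ∀ A, |X A| ≤ 2 * r := fun A => by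
        rw [hX]
        exact (abs_lin_le fun x _ => abs_sb h y x A).trans (by linarith)
      have hX0 : Ex Λ μ y X = 0 := by
        rw [show X = fun A => ∑ x ∈ Λ, k x * sb Λ μ y x A from funext hX, Ex_sum]
        simp only [Ex_mul, Ex_sb h, mul_zero, sum_const_zero]
      have hXl : Ex Λ μ y (fun A => ψ A * X A) = l := by
        simp only [hX, mul_sum, mul_left_comm (ψ _)]
        rw [Ex_sum]
        simp only [Ex_mul]
        rfl
      have hE : ∀ A, |Real.exp (X A) - 1 - X A| ≤ 4 * r ^ 2 := fun A => by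
        refine (Real.abs_exp_sub_one_sub_id_le ((hXb A).trans (by linarith))).trans ?_
        have := pow_le_pow_left₀ (abs_nonneg _) (hXb A) 2
        rw [sq_abs] at this
        linarith
      have ht := Ex_tilt h y k (∑ x ∈ Λ, k x * mg Λ μ y x) ψ
      change _ * Ex Λ μ y (fun A => Real.exp (X A)) =
        Ex Λ μ y (fun A => Real.exp (X A) * ψ A) at ht
      set e1 := Ex Λ μ y (fun A => Real.exp (X A) - 1 - X A) with he1
      set e2 := Ex Λ μ y (fun A => (Real.exp (X A) - 1 - X A) * (ψ A - p)) with he2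
      have b1 : |e1| ≤ 4 * r ^ 2 := h.abs_Ex_le y fun A _ => hE A
      have b1' : 0 ≤ e1 := by
        rw [← h.Ex_const y 0]
        exact h.Ex_mono y fun A _ => by linarith [Real.add_one_le_exp (X A)]
      have b2 : |e2| ≤ 4 * r ^ 2 * (2 * B) := h.abs_Ex_le y fun A _ => by
        rw [abs_mul]
        refine mul_le_mul (hE A) ((abs_sub _ _).trans ?_) (abs_nonneg _) (by positivity)
        linarith [hB A, h.abs_Ex_le y fun A _ => hB A]
      have q1 : Ex Λ μ y (fun A => Real.exp (X A)) = 1 + e1 := by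
        rw [he1, Ex_sub, Ex_sub, hX0, h.Ex_const]; ring
      have q2 : Ex Λ μ y (fun A => Real.exp (X A) * ψ A) = p + l + e2 + p * e1 := by
        have : (fun A => Real.exp (X A) * ψ A) = fun A => ψ A + ψ A * X A +
            (Real.exp (X A) - 1 - X A) * (ψ A - p) + p * (Real.exp (X A) - 1 - X A) := by
          funext A; ring
        rw [this, Ex_add, Ex_add, Ex_add, Ex_mul, hXl]
      rw [q1, q2] at ht
      have q3 : (Ex Λ μ (fun x => y x + k x) ψ - p - l) * (1 + e1) = e2 - l * e1 := by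
        linear_combination ht
      have q4 : |Ex Λ μ (fun x => y x + k x) ψ - p - l| * (1 + e1) ≤ 16 * B * r ^ 2 := by
        rw [← abs_of_nonneg (show 0 ≤ 1 + e1 by linarith), ← abs_mul, q3]
        refine (abs_sub _ _).trans ?_
        rw [abs_mul]
        have := mul_le_mul h1 b1 (abs_nonneg _) (by positivity)
        have e : 0 ≤ B * r ^ 2 * (1 / 2 - r) := mul_nonneg (by positivity) (by linarith)
        have e' : 0 ≤ B * r ^ 2 := by positivity
        nlinarith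
      nlinarith [abs_nonneg (Ex Λ μ (fun x => y x + k x) ψ - p - l)]
    · refine (abs_sub _ _).trans ?_
      have e : 0 ≤ B * (r - 1 / 2) := mul_nonneg hB0 (by linarith)
      have e' : 0 ≤ B * (r - 1 / 2) * r := mul_nonneg e hr0
      nlinarith
  refine ⟨h1, h2, ?_⟩
  by_cases hr4 : r ≤ 1 / 4
  · have := abs_add_le (Ex Λ μ (fun x => y x + k x) ψ - Ex Λ μ y ψ - ∑ x ∈ Λ, k x * co Λ μ y ψ x)
      (∑ x ∈ Λ, k x * co Λ μ y ψ x)
    rw [sub_add_cancel] at this
    have e : 0 ≤ B * r * (1 / 4 - r) := mul_nonneg (by positivity) (by linarith)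
    have e' : 0 ≤ B * r := by positivity
    nlinarith
  · have e : 0 ≤ B * (r - 1 / 4) := mul_nonneg hB0 (by linarith)
    nlinarith

theorem bm_Ex (h : Prior Λ μ) {α : Type*} [MeasurableSpace α] {y : α → V → ℝ} (hy : Measurable y)
    {ψ : Finset V → ℝ} : BM fun a => Ex Λ μ (y a) ψ :=
  ⟨measurable_Ex hy fun _ => measurable_const, ∑ A ∈ Λ.powerset, |ψ A|, fun _ =>
    h.abs_Ex_le _ fun _ hA => single_le_sum (f := fun A => |ψ A|) (fun _ _ => abs_nonneg _)
      (mem_powerset.2 hA)⟩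

/-- the posterior expectation is a martingale -/
theorem mart_exact (h : Prior Λ μ) {δ : ℝ} (hδ : 0 ≤ δ) (y : V → ℝ) (ψ : Finset V → ℝ) :
    Mx Λ.powerset (pw Λ μ y) (gam V)
      (fun A g => Ex Λ μ (fun x => y x + √δ * (g x + √δ * sp A x)) ψ) = Ex Λ μ y ψ := by
  let f : (V → ℝ) → ℝ := fun g => Ex Λ μ (fun x => y x + √δ * g x) ψ
  have hf : BM f := bm_Ex h (by fun_prop)
  let e : Finset V → (V → ℝ) → ℝ := fun A g =>
    Real.exp (∑ x ∈ Λ, √δ * g x * sp A x - #Λ * δ / 2)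
  have he : ∀ A g, e A g = Real.exp (-(#Λ * δ / 2)) *
      Real.exp (∑ x ∈ Λ, (√δ * sp A x) * g x) := fun A g => by
    simp only [e]
    rw [← Real.exp_add]
    congr 1
    rw [sum_congr rfl fun x _ => mul_right_comm (√δ) (g x) (sp A x)]
    ring
  have hsq : ∀ A, ∑ x ∈ Λ, (√δ * sp A x) ^ 2 = #Λ * δ := fun A => by
    simp only [mul_pow, sp_sq, Real.sq_sqrt hδ, mul_one, sum_const, nsmul_eq_mul]
  have hei : ∀ A, Integrable (e A) (gam V) := fun A => by
    rw [show e A = _ from funext (he A)]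
    exact (integrable_exp_lin Λ _).const_mul _
  have he1 : ∀ A, ∫ g, e A g ∂gam V = 1 := fun A => by
    simp only [he]
    rw [integral_const_mul, integral_exp_lin, hsq, ← Real.exp_add]
    simp
  have h1 : ∀ A, ∫ g, Ex Λ μ (fun x => y x + √δ * (g x + √δ * sp A x)) ψ ∂gam V =
      ∫ g, e A g * f g ∂gam V := fun A => by
    have := integral_shift Λ (fun x => √δ * sp A x) hf.1
    convert this using 3 with g g
    · exact Ex_dep (fun x hx => by simp only [if_pos hx]) _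
    · simp only [e, sum_sub_distrib, ← sum_div, hsq]
      rw [sum_congr rfl fun x _ => mul_right_comm (√δ) (g x) (sp A x)]
  obtain ⟨C, hC⟩ := hf.2
  have hi : ∀ A, Integrable (fun g => e A g * f g) (gam V) := fun A =>
    (hei A).mul_bdd hf.1.aestronglyMeasurable (ae_of_all _ hC)
  unfold Mx
  simp only [h1, ← integral_const_mul]
  rw [← integral_finsetSum _ fun A _ => (hi A).const_mul _]
  have h2 : ∀ g, ∑ A ∈ Λ.powerset, pw Λ μ y A * (e A g * f g) =
      ∑ A ∈ Λ.powerset, pw Λ μ y A * ψ A * e A g := fun g => by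
    have := Ex_tilt h y (fun x => √δ * g x) (#Λ * δ / 2) ψ
    rw [Ex_eq y, Ex_eq y, mul_sum] at this
    refine Eq.trans ?_ (this.trans ?_)
    · exact sum_congr rfl fun A _ => by simp only [f, e]; ring
    · exact sum_congr rfl fun A _ => by simp only [e]; ring
  simp only [h2]
  rw [integral_finsetSum _ fun A _ => (hei A).const_mul _, Ex_eq]
  simp only [integral_const_mul, he1, mul_one]

end Crest.Agent.R160.C
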