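import Crest.Agent.R160.Tree2

/-! Row 160, sub-task T: the posterior law on a finite subtree (see also `Tree1`, `Tree2`). -/

set_option autoImplicit false
set_option linter.unusedSectionVars false

namespace Crest.Agent.R160

open Finset

variable {V : Type*} [DecidableEq V] {G : SimpleGraph V} (hT : G.IsTree) {θ : ℝ} {Λ : Finset V}

theorem measurable_tanh' : Measurable Real.tanh := by
  have : Real.tanh = fun x => Real.sinh x / Real.cosh x := funext Real.tanh_eq_sinh_div_cosh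
  rw [this]; fun_prop

theorem measurable_Ath : Measurable (Ath θ) := by
  have := measurable_tanh'
  unfold Ath; fun_prop

theorem measurable_gg : Measurable (gg θ) := by
  have := measurable_tanh'
  unfold gg; fun_prop

theorem bm_gg (h0 : 0 ≤ θ) (h1 : θ < 1) : BM (gg θ) :=
  ⟨measurable_gg, θ, fun h => by rw [abs_of_nonneg (gg_mem h0 h1 h).1]; exact (gg_mem h0 h1 h).2⟩

theorem pg_mem (h0 : 0 ≤ θ) (h1 : θ < 1) (h : V → ℝ) (l : List V) :
    0 ≤ pg θ h l ∧ pg θ h l ≤ θ ^ l.length := by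
  induction l with
  | nil => simp [pg]
  | cons x l ih =>
    obtain ⟨a, b⟩ := gg_mem h0 h1 (h x)
    simp only [pg, List.map_cons, List.prod_cons, List.length_cons, pow_succ'] at *
    exact ⟨mul_nonneg a ih.1, mul_le_mul b ih.2 ih.1 h0⟩

theorem bm_pg (h0 : 0 ≤ θ) (h1 : θ < 1) (l : List V) : BM fun h => pg θ h l := by
  induction l with
  | nil => simpa [pg] using BM.const 1
  | cons x l ih =>
    simp only [pg, List.map_cons, List.prod_cons] at *
    exact ((bm_gg h0 h1).comp (measurable_pi_apply x)).mul ih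

theorem bm_L (F : Fo V) (h0 : 0 ≤ θ) (h1 : θ < 1) (x : V) : BM fun h => F.L θ h x := by
  induction x using F.ind with
  | _ x ih =>
    simp only [F.L_eq θ _ x]
    exact (BM.const 1).add (BM.sum _ fun z hz =>
      (((bm_gg h0 h1).comp (measurable_pi_apply z)).pow 2).mul (ih z hz))

theorem L_nonneg (F : Fo V) (h : V → ℝ) (x : V) : 0 ≤ F.L θ h x := by
  induction x using F.ind with
  | _ x ih =>
    rw [F.L_eq]
    exact add_nonneg zero_le_one (sum_nonneg fun z hz => mul_nonneg (sq_nonneg _) (ih z hz))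

theorem length_dn (c : V) (n : ℕ) (v : V) : (dn G c n v).length = n := by
  induction n generalizing v with
  | zero => rfl
  | succ n ih => simp [dn, ih]

include hT

theorem dn_spec (hΛ : Cvx G Λ) {c v : V} (hc : c ∈ Λ) (hv : v ∈ Λ) :
    (tfo hT Λ c).Chain (dn G c (G.dist v c) v) ∧ c ∉ dn G c (G.dist v c) v ∧
      (dn G c (G.dist v c) v).length = G.dist v c ∧ ∀ x ∈ dn G c (G.dist v c) v, x ∈ Λ := by
  have key : ∀ n v, G.dist v c = n → v ∈ Λ → (tfo hT Λ c).Chain (dn G c n v) ∧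
      (∀ x ∈ dn G c n v, x ∈ Λ ∧ x ≠ c) ∧ ∀ x ∈ (dn G c n v).getLast?, x = v := by
    intro n
    induction n with
    | zero => intro v _ _; simp [dn, Fo.Chain]
    | succ n ih =>
      intro v h hv
      have hvc : v ≠ c := by rintro rfl; simp at h
      have := (par_spec hT hvc).2
      obtain ⟨a1, a2, a3⟩ := ih _ (show G.dist (par G c v) c = n by omega) (hΛ c hc v hv)
      refine ⟨List.IsChain.append a1 (List.isChain_singleton _) fun x hx z hz => ?_,
        fun x hx => ?_, by simp [dn]⟩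
      · obtain rfl : v = z := by simpa using hz
        exact (mem_ch hT).2 ⟨hv, hvc, (a3 x hx).symm⟩
      · rcases List.mem_append.1 hx with hx | hx
        · exact a2 x hx
        · obtain rfl : x = v := by simpa using hx
          exact ⟨hv, hvc⟩
  obtain ⟨a1, a2, -⟩ := key _ v rfl hv
  exact ⟨a1, fun h => (a2 c h).2 rfl, length_dn _ _ _, fun x hx => (a2 x hx).1⟩

theorem measurable_hr (c : V) : Measurable fun y => hr hT θ Λ y c := by
  refine measurable_pi_lambda _ fun x => ?_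
  induction x using (tfo hT Λ c).ind with
  | _ x ih =>
    simp only [hr_eq hT _ c x]
    exact (measurable_pi_apply x).add (Finset.measurable_sum _ fun z hz =>
      measurable_Ath.comp (ih z hz))

theorem rv_mem (h0 : 0 ≤ θ) (h1 : θ < 1) (y : V → ℝ) (c v : V) :
    0 ≤ rv hT θ Λ y c v ∧ rv hT θ Λ y c v ≤ θ ^ G.dist v c := by
  have := pg_mem h0 h1 (hr hT θ Λ y c) (dn G c (G.dist v c) v)
  rwa [length_dn] at this

theorem bm_rv (h0 : 0 ≤ θ) (h1 : θ < 1) (c v : V) : BM fun y => rv hT θ Λ y c v :=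
  (bm_pg h0 h1 _).comp (measurable_hr hT c)

theorem bm_LL (h0 : 0 ≤ θ) (h1 : θ < 1) (c : V) : BM fun y => LL hT θ Λ y c :=
  (bm_L _ h0 h1 c).comp (measurable_hr hT c)

theorem LL_nonneg (y : V → ℝ) (c : V) : 0 ≤ LL hT θ Λ y c := L_nonneg _ _ _

theorem bm_kap (hΛ : Cvx G Λ) (hne : Λ.Nonempty) (h0 : 0 ≤ θ) (h1 : θ < 1) (B : ℝ) (u c v : V) :
    BM fun y => kap hT θ B Λ u y c v := by
  unfold kap
  split_ifs
  · exact ((BM.const 4).mul (((prior_mu hT hΛ hne h0 h1).bm_mg c).pow 2)).mul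
      (BM.sum _ fun c' _ => (BM.const _).mul ((((bm_rv hT h0 h1 c v).pow 2).mul
        (bm_LL hT h0 h1 c')).add ((bm_LL hT h0 h1 c).mul ((bm_rv hT h0 h1 c' v).pow 2))))
  · exact BM.const 0

theorem kap_nonneg {B : ℝ} (hB : 0 < B) (u : V) (y : V → ℝ) (c v : V) :
    0 ≤ kap hT θ B Λ u y c v := by
  unfold kap
  split_ifs
  · refine mul_nonneg (by positivity) (sum_nonneg fun c' _ => ?_)
    have := LL_nonneg hT (θ := θ) (Λ := Λ) y c
    have := LL_nonneg hT (θ := θ) (Λ := Λ) y c'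
    positivity
  · exact le_rfl

theorem hr_dep {y y' : V → ℝ} (h : ∀ v ∈ Λ, y v = y' v) (c x : V) (hx : x ∈ Λ) :
    hr hT θ Λ y c x = hr hT θ Λ y' c x := by
  induction x using (tfo hT Λ c).ind with
  | _ x ih =>
    rw [hr_eq hT y, hr_eq hT y', h x hx]
    congr 1
    exact sum_congr rfl fun z hz => by rw [ih z hz ((mem_ch hT).1 hz).1]

theorem L_dep {h h' : V → ℝ} (hh : ∀ v ∈ Λ, gg θ (h v) = gg θ (h' v)) (c x : V) :
    (tfo hT Λ c).L θ h x = (tfo hT Λ c).L θ h' x := by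
  induction x using (tfo hT Λ c).ind with
  | _ x ih =>
    rw [Fo.L_eq _ _ h, Fo.L_eq _ _ h']
    congr 1
    exact sum_congr rfl fun z hz => by rw [ih z hz, hh z ((mem_ch hT).1 hz).1]

theorem kap_dep (hΛ : Cvx G Λ) (B : ℝ) (u : V) {y y' : V → ℝ} (h : ∀ v ∈ Λ, y v = y' v) :
    kap hT θ B Λ u y = kap hT θ B Λ u y' := by
  have e1 : ∀ c, LL hT θ Λ y c = LL hT θ Λ y' c := fun c =>
    L_dep hT (fun v hv => by rw [hr_dep hT h c v hv]) c c
  have e2 : ∀ c ∈ Λ, ∀ v ∈ Λ, rv hT θ Λ y c v = rv hT θ Λ y' c v := fun c hc v hv => by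
    unfold rv pg
    rw [List.map_congr_left fun x hx => by rw [hr_dep hT h c x ((dn_spec hT hΛ hc hv).2.2.2 x hx)]]
  funext c v
  unfold kap
  split_ifs with hcv
  · rw [mg_dep h, e2 c hcv.1 v hcv.2, e1]
    congr 1
    exact sum_congr rfl fun c' hc' => by rw [e1, e2 c' hc' v hcv.2]
  · rfl

open Classical in
theorem sum_rv_le (hΛ : Cvx G Λ) (y : V → ℝ) {c : V} (x : V) (hx : x ∈ Λ) :
    ∑ w ∈ Λ with Btw G w x c, rv hT θ Λ y c w ^ 2 ≤
      rv hT θ Λ y c x ^ 2 * (tfo hT Λ c).L θ (hr hT θ Λ y c) x := by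
  induction x using (tfo hT Λ c).ind with
  | _ x ih =>
    have hsub : Λ.filter (fun w => Btw G w x c) ⊆ insert x
        (((tfo hT Λ c).ch x).biUnion fun z => Λ.filter (fun w => Btw G w z c)) := by
      intro w hw
      obtain ⟨a1, a2⟩ := mem_filter.1 hw
      by_cases hwx : x = w
      · simp [hwx]
      obtain ⟨b1, b2⟩ := par_spec hT hwx
      have t1 := tri hT w (par G w x) c
      have t2 := adj_dist hT c b1
      rw [G.dist_comm (u := x), G.dist_comm (v := w)] at b2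
      unfold Btw at a2
      have t3 : G.dist x c + 1 = G.dist (par G w x) c := by omega
      refine mem_insert_of_mem (mem_biUnion.2 ⟨par G w x, (mem_ch hT).2 ⟨hΛ w a1 x hx, ?_,
        par_uniq hT b1.symm t3⟩, mem_filter.2 ⟨a1, by unfold Btw; omega⟩⟩)
      intro h; rw [h] at t3; simp at t3
    refine (sum_le_sum_of_subset_of_nonneg hsub fun _ _ _ => sq_nonneg _).trans ?_
    rw [sum_insert, sum_biUnion, Fo.L_eq, mul_add, mul_one, mul_sum]
    · refine add_le_add_right (sum_le_sum fun z hz => ?_) _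
      obtain ⟨a1, a2, a3⟩ := (mem_ch hT).1 hz
      refine (ih z hz a1).trans_eq ?_
      rw [rv_step hT y a2, a3]; ring
    · intro z hz z' hz' hne
      refine disjoint_left.2 fun a ha ha' => Set.disjoint_left.1
        ((tfo hT Λ c).disj x z hz z' hz' hne) (mem_filter.1 ha).2 (mem_filter.1 ha').2
    · intro h
      obtain ⟨z, hz, h⟩ := mem_biUnion.1 h
      exact (tfo hT Λ c).nself x z hz (mem_filter.1 h).2

theorem sum_rv_LL (hΛ : Cvx G Λ) (y : V → ℝ) {c : V} (hc : c ∈ Λ) :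
    ∑ w ∈ Λ, rv hT θ Λ y c w ^ 2 ≤ LL hT θ Λ y c := by
  classical
  have := sum_rv_le hT (θ := θ) hΛ y (c := c) c hc
  rwa [rv_self, one_pow, one_mul, filter_true_of_mem fun w _ => btw_right (G := G) w c] at this

theorem cv_nonneg (hΛ : Cvx G Λ) (h0 : 0 ≤ θ) (h1 : θ < 1) (y : V → ℝ) {c u : V} (hc : c ∈ Λ)
    (hu : u ∈ Λ) : 0 ≤ cv Λ (mu G θ Λ) y c u ∧ cv Λ (mu G θ Λ) y c u ≤ rv hT θ Λ y c u := by
  rw [cv_eq hT hΛ h0 h1 y hc hu]
  have a := (rv_mem hT (Λ := Λ) h0 h1 y c u).1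
  have b := abs_le.1 ((prior_mu hT hΛ ⟨c, hc⟩ h0 h1).abs_mg_le y c)
  exact ⟨mul_nonneg a (by nlinarith), mul_le_of_le_one_right a (by nlinarith)⟩

theorem four_le (hΛ : Cvx G Λ) (h0 : 0 ≤ θ) (h1 : θ < 1) (y : V → ℝ) {c c' v w : V} (hc : c ∈ Λ)
    (hc' : c' ∈ Λ) (hv : v ∈ Λ) (hw : w ∈ Λ) (a : Btw G v c w) (a' : Btw G v c' w)
    (h : G.dist v c ≤ G.dist v c') :
    rv hT θ Λ y c v * rv hT θ Λ y c w * (rv hT θ Λ y c' v * rv hT θ Λ y c' w) ≤
      (θ ^ 2) ^ G.dist c c' * (rv hT θ Λ y c v ^ 2 * rv hT θ Λ y c' w ^ 2) := by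
  obtain ⟨b1, b2⟩ := btw_total hT _ v rfl a a' h
  rw [rv_mul hT hΛ h0 h1 y hc hv hc' b1, rv_mul hT hΛ h0 h1 y hc' hw hc b2.symm]
  obtain ⟨p1, p2⟩ := rv_mem hT (Λ := Λ) h0 h1 y c c'
  obtain ⟨q1, q2⟩ := rv_mem hT (Λ := Λ) h0 h1 y c' c
  rw [G.dist_comm] at p2
  have := mul_le_mul p2 q2 q1 (pow_nonneg h0 _)
  rw [← mul_pow, ← sq] at this
  refine le_of_eq_of_le (by ring) (mul_le_mul_of_nonneg_right this (by positivity))

theorem kernel (hΛ : Cvx G Λ) (h0 : 0 ≤ θ) (h1 : θ < 1) {B : ℝ} (hB : 0 < B)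
    (hθ : B ^ 3 * θ ^ 2 ≤ 1) (u : V) (y ξ : V → ℝ) (hξ : ∀ x ∈ Λ, 0 ≤ ξ x) {v : V} (hv : v ∈ Λ) :
    ∑ w ∈ Λ, (∑ x ∈ Λ, k3 Λ (mu G θ Λ) y x v w * ξ x) ^ 2 ≤
      ∑ c ∈ Λ, kap hT θ B Λ u y c v * (∑ x ∈ Λ, cv Λ (mu G θ Λ) y c x * ξ x) ^ 2 := by
  classical
  set m := mg Λ (mu G θ Λ) y with hm
  set r := rv hT θ Λ y with hr
  set L := LL hT θ Λ y with hL
  have hr0 : ∀ c v, 0 ≤ r c v := fun c v => (rv_mem hT h0 h1 y c v).1
  have hL0 : ∀ c, 0 ≤ L c := LL_nonneg hT y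
  set ζ : V → ℝ := fun c => ∑ x ∈ Λ, cv Λ (mu G θ Λ) y c x * ξ x with hζ
  have hζ0 : ∀ c ∈ Λ, 0 ≤ ζ c := fun c hc => sum_nonneg fun x hx =>
    mul_nonneg (cv_nonneg hT hΛ h0 h1 y hc hx).1 (hξ x hx)
  set a : V → V → ℝ := fun c w => if Btw G v c w then r c v * r c w else 0 with ha
  have ha0 : ∀ c w, 0 ≤ a c w := fun c w => by
    simp only [ha]; split_ifs; exacts [mul_nonneg (hr0 _ _) (hr0 _ _), le_rfl]
  set X : V → ℝ := fun c => 2 * |m c| * ζ c with hX
  have s1 : ∀ w ∈ Λ, |∑ x ∈ Λ, k3 Λ (mu G θ Λ) y x v w * ξ x| ≤ ∑ c ∈ Λ, a c w * X c := by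
    intro w hw
    refine (abs_sum_le_sum_abs _ _).trans ?_
    simp only [hX, hζ, mul_sum]
    rw [sum_comm]
    refine sum_le_sum fun x hx => ?_
    obtain ⟨c, c1, c2, c3⟩ := median hT v w _ x rfl
    have hc := hΛ.btw hT hw _ v rfl hv c2
    refine le_of_eq_of_le ?_ (single_le_sum (fun c hc => mul_nonneg (ha0 c w) (mul_nonneg
      (by positivity) (mul_nonneg (cv_nonneg hT hΛ h0 h1 y hc hx).1 (hξ x hx)))) hc)
    rw [k3_eq hT hΛ h0 h1 y hc hx hv hw c1 c2 c3]
    simp only [ha, if_pos c2, abs_mul, abs_neg, abs_two, ← hr, ← hm, abs_of_nonneg (hr0 _ _),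
      abs_of_nonneg (hξ x hx), abs_of_nonneg (cv_nonneg hT hΛ h0 h1 y hc hx).1]
    ring
  set W : V → V → ℝ := fun c c' => B ^ (-3 * (G.dist c c' : ℤ)) *
    (r c v ^ 2 * L c' + L c * r c' v ^ 2) with hW
  have hW0 : ∀ c c', 0 ≤ W c c' := fun c c' => by
    have := hL0 c; have := hL0 c'; positivity
  have hWs : ∀ c c', W c c' = W c' c := fun c c' => by
    simp only [hW]; rw [G.dist_comm]; ring
  have hpow : ∀ n : ℕ, (θ ^ 2) ^ n ≤ B ^ (-3 * (n : ℤ)) := fun n => by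
    rw [zpow_mul, zpow_natCast]
    refine pow_le_pow_left₀ (sq_nonneg _) ?_ _
    rw [zpow_neg, ← one_div, le_div_iff₀ (by positivity)]
    rw [mul_comm]; exact_mod_cast hθ
  have s2 : ∀ c ∈ Λ, ∀ c' ∈ Λ, ∑ w ∈ Λ, a c w * a c' w ≤ W c c' := by
    intro c hc c' hc'
    have : ∀ w ∈ Λ, a c w * a c' w ≤ B ^ (-3 * (G.dist c c' : ℤ)) *
        (r c v ^ 2 * r c' w ^ 2 + r c w ^ 2 * r c' v ^ 2) := by
      intro w hw
      simp only [ha]
      split_ifs with b b'
      · refine le_trans ?_ (mul_le_mul_of_nonneg_right (hpow _) (by positivity))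
        rcases le_total (G.dist v c) (G.dist v c') with h | h
        · refine (four_le hT hΛ h0 h1 y hc hc' hv hw b b' h).trans ?_
          exact mul_le_mul_of_nonneg_left (le_add_of_nonneg_right (by positivity)) (by positivity)
        · have := four_le hT hΛ h0 h1 y hc' hc hv hw b' b h
          rw [mul_comm, G.dist_comm, mul_comm (_ ^ 2) (_ ^ 2)] at this
          refine this.trans ?_
          exact mul_le_mul_of_nonneg_left (le_add_of_nonneg_left (by positivity)) (by positivity)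
      all_goals simp only [mul_zero, zero_mul]; positivity
    refine (sum_le_sum this).trans ?_
    rw [← mul_sum, sum_add_distrib, ← mul_sum, ← sum_mul]
    have := sum_rv_LL hT (θ := θ) hΛ y hc
    have := sum_rv_LL hT (θ := θ) hΛ y hc'
    simp only [hW]
    gcongr
  set f : V → V → ℝ := fun c c' => B ^ ((G.dist c u : ℤ) - G.dist c' u) with hf
  have hf0 : ∀ c c', 0 < f c c' := fun c c' => zpow_pos hB _
  have hf1 : ∀ c c', f c c' * f c' c = 1 := fun c c' => by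
    simp only [hf]; rw [← zpow_add₀ hB.ne']; simp
  calc _ ≤ ∑ w ∈ Λ, (∑ c ∈ Λ, a c w * X c) ^ 2 := sum_le_sum fun w hw => by
        rw [← sq_abs]; exact pow_le_pow_left₀ (abs_nonneg _) (s1 w hw) _
    _ = ∑ c ∈ Λ, ∑ c' ∈ Λ, (∑ w ∈ Λ, a c w * a c' w) * (X c * X c') := by
        simp only [sq, sum_mul_sum]
        simp only [sum_mul]
        rw [sum_comm]
        refine sum_congr rfl fun c _ => ?_
        rw [sum_comm]
        exact sum_congr rfl fun c' _ => sum_congr rfl fun w _ => by ring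
    _ ≤ ∑ c ∈ Λ, ∑ c' ∈ Λ, (W c c' * (f c c' * X c ^ 2) / 2 + W c' c * (f c' c * X c' ^ 2) / 2) := by
        refine sum_le_sum fun c hc => sum_le_sum fun c' hc' => ?_
        have x1 : 0 ≤ X c := mul_nonneg (by positivity) (hζ0 c hc)
        have x2 : 0 ≤ X c' := mul_nonneg (by positivity) (hζ0 c' hc')
        refine (mul_le_mul_of_nonneg_right (s2 c hc c' hc') (mul_nonneg x1 x2)).trans ?_
        have : X c * X c' ≤ (f c c' * X c ^ 2 + f c' c * X c' ^ 2) / 2 := by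
          have e := mul_nonneg (hf0 c' c).le (sq_nonneg (f c c' * X c - X c'))
          have e1 := hf1 c c'
          have : f c' c * (f c c' * X c - X c') ^ 2 = (f c c' * f c' c) * (f c c' * X c ^ 2) -
            2 * (f c c' * f c' c) * (X c * X c') + f c' c * X c' ^ 2 := by ring
          rw [this, e1] at e
          linarith
        rw [hWs c' c]
        refine (mul_le_mul_of_nonneg_left this (hW0 c c')).trans_eq (by ring)
    _ = ∑ c ∈ Λ, ∑ c' ∈ Λ, W c c' * (f c c' * X c ^ 2) := by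
        simp only [sum_add_distrib]
        rw [sum_comm (f := fun c c' => W c' c * (f c' c * X c' ^ 2) / 2), ← sum_add_distrib]
        refine sum_congr rfl fun c _ => ?_
        rw [← sum_add_distrib]
        exact sum_congr rfl fun c' _ => by ring
    _ = _ := by
        refine sum_congr rfl fun c hc => ?_
        rw [kap, if_pos ⟨hc, hv⟩, mul_sum, sum_mul]
        refine sum_congr rfl fun c' _ => ?_
        rw [sub_eq_add_neg (_ - _), zpow_add₀ hB.ne', ← neg_mul]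
        simp only [hW, hf, hX, mul_pow, sq_abs, ← hm, ← hr, ← hL]
        ring

end Crest.Agent.R160
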