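import Crest.Agent.R160.KDefs

/-! Row 160: Markov fields on a finite rooted subtree. -/

set_option autoImplicit false
set_option linter.unusedSectionVars false

namespace Crest.Agent.R160

open Finset

variable {V : Type*} [DecidableEq V] {G : SimpleGraph V} (hT : G.IsTree) {θ : ℝ} {Λ : Finset V}

theorem sp_insert_ne {x z : V} (h : z ≠ x) (A : Finset V) : sp (insert x A) z = sp A z := by
  simp [sp, h]

theorem sp_inter {S : Finset V} {z : V} (h : z ∈ S) (A : Finset V) : sp (A ∩ S) z = sp A z := by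
  simp [sp, h]

theorem sp_pm (A : Finset V) (v : V) : sp A v = 1 ∨ sp A v = -1 := by
  unfold sp; split_ifs <;> simp

variable (G) in
/-- weight of a Markov field rooted at `c` -/
noncomputable def MP (Λ : Finset V) (c : V) (p : ℝ → ℝ) (k : V → ℝ → ℝ → ℝ) (A : Finset V) : ℝ :=
  p (sp A c) * ∏ x ∈ Λ.erase c, k x (sp A x) (sp A (par G c x))

variable (G) in
def Cl (Λ : Finset V) (c : V) : Prop := c ∈ Λ ∧ ∀ x ∈ Λ, par G c x ∈ Λ

theorem Cvx.cl (h : Cvx G Λ) {c : V} (hc : c ∈ Λ) : Cl G Λ c := ⟨hc, h c hc⟩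

section
variable {c : V} {p : ℝ → ℝ} {k : V → ℝ → ℝ → ℝ}

theorem leaf (h : Cl G Λ c) {x : V} (hx : x ∉ Λ) (hp : par G c x ∈ Λ) (ψ : Finset V → ℝ) :
    ∑ A ∈ (insert x Λ).powerset, MP G (insert x Λ) c p k A * ψ A =
      ∑ A ∈ Λ.powerset, MP G Λ c p k A * (k x (-1) (sp A (par G c x)) * ψ A +
        k x 1 (sp A (par G c x)) * ψ (insert x A)) := by
  have hne : ∀ z ∈ Λ, z ≠ x := fun z hz h => hx (h ▸ hz)
  have e1 : ∀ A, MP G (insert x Λ) c p k A =
      MP G Λ c p k A * k x (sp A x) (sp A (par G c x)) := fun A => by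
    unfold MP
    rw [erase_insert_of_ne (hne c h.1).symm, prod_insert (fun h => hx (mem_of_mem_erase h))]
    ring
  have e2 : ∀ A, MP G Λ c p k (insert x A) = MP G Λ c p k A := fun A => by
    unfold MP
    rw [sp_insert_ne (hne c h.1)]
    congr 1
    exact prod_congr rfl fun z hz => by
      rw [sp_insert_ne (hne z (mem_of_mem_erase hz)),
        sp_insert_ne (hne _ (h.2 z (mem_of_mem_erase hz)))]
  rw [sum_powerset_insert hx, ← sum_add_distrib]
  refine sum_congr rfl fun A hA => ?_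
  have h1 : sp A x = -1 := if_neg fun h => hx (mem_powerset.1 hA h)
  have h2 : sp (insert x A) x = 1 := if_pos (mem_insert_self _ _)
  rw [e1, e1, e2, h1, h2, sp_insert_ne (hne _ hp)]
  ring

include hT in
theorem sumout (hk : ∀ x (A : Finset V) z, k x (-1) (sp A z) + k x 1 (sp A z) = 1)
    {Λ' : Finset V} (h' : Cl G Λ' c) (φ : Finset V → ℝ) : ∀ (n : ℕ) (Λ : Finset V),
    (Λ \ Λ').card = n → Cl G Λ c → Λ' ⊆ Λ →
    ∑ A ∈ Λ.powerset, MP G Λ c p k A * φ (A ∩ Λ') = ∑ A ∈ Λ'.powerset, MP G Λ' c p k A * φ A := by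
  intro n
  induction n with
  | zero =>
    intro Λ h1 _ h3
    obtain rfl : Λ = Λ' := Subset.antisymm (sdiff_eq_empty_iff_subset.1 (card_eq_zero.1 h1)) h3
    exact sum_congr rfl fun A hA => by rw [inter_eq_left.2 (mem_powerset.1 hA)]
  | succ n ih =>
    intro Λ h1 h2 h3
    obtain ⟨x, hx, hmax⟩ := exists_max_image (Λ \ Λ') (fun z => G.dist z c) (card_pos.1 (by omega))
    obtain ⟨hx1, hx2⟩ := mem_sdiff.1 hx
    have hxc : x ≠ c := fun h => hx2 (h ▸ h'.1)
    have hcl : Cl G (Λ.erase x) c := by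
      refine ⟨mem_erase.2 ⟨hxc.symm, h2.1⟩, fun z hz => mem_erase.2 ⟨fun h => ?_,
        h2.2 z (mem_of_mem_erase hz)⟩⟩
      by_cases hz' : z ∈ Λ'
      · exact hx2 (h ▸ h'.2 z hz')
      · have a1 := hmax z (mem_sdiff.2 ⟨mem_of_mem_erase hz, hz'⟩)
        have a2 := (par_spec hT (c := c) (x := z) fun h => hz' (h ▸ h'.1)).2
        rw [h] at a2
        omega
    have hp : par G c x ∈ Λ.erase x := by
      refine mem_erase.2 ⟨fun h => ?_, h2.2 x hx1⟩
      have := (par_spec hT hxc).2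
      rw [h] at this; omega
    rw [← ih (Λ.erase x) ?_ hcl fun z hz => mem_erase.2 ⟨fun h => hx2 (h ▸ hz), h3 hz⟩]
    · conv_lhs => rw [← insert_erase hx1]
      rw [leaf hcl (notMem_erase _ _) hp]
      refine sum_congr rfl fun A _ => ?_
      rw [insert_inter_of_notMem hx2, ← add_mul, hk, one_mul]
    · rw [erase_sdiff_comm, card_erase_of_mem hx, h1]; rfl

include hT in
theorem sum_root (hk : ∀ x (A : Finset V) z, k x (-1) (sp A z) + k x 1 (sp A z) = 1)
    (h : Cl G Λ c) (f : ℝ → ℝ) :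
    ∑ A ∈ Λ.powerset, MP G Λ c p k A * f (sp A c) = p (-1) * f (-1) + p 1 * f 1 := by
  have h' : Cl G {c} c := ⟨mem_singleton_self _, fun x hx => by
    rw [mem_singleton.1 hx, par_self]; exact mem_singleton_self _⟩
  have := sumout hT (p := p) hk h' (fun A => f (sp A c)) _ Λ rfl h (singleton_subset_iff.2 h.1)
  simp only [sp_inter (mem_singleton_self c)] at this
  rw [this, show ({c} : Finset V) = insert c ∅ from rfl, sum_powerset_insert (notMem_empty _)]
  simp [MP, sp]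

include hT in
/-- one step towards the root -/
theorem step (hk : ∀ x (A : Finset V) z, k x (-1) (sp A z) + k x 1 (sp A z) = 1)
    (h : Cl G Λ c) {u : V} (hu : u ∈ Λ) (huc : u ≠ c) {F : Finset V → ℝ}
    (hF : ∀ A B : Finset V, (∀ z, ¬ Btw G z u c → (z ∈ A ↔ z ∈ B)) → F A = F B) :
    ∑ A ∈ Λ.powerset, MP G Λ c p k A * (F A * sp A u) = ∑ A ∈ Λ.powerset, MP G Λ c p k A *
      (F A * (k u 1 (sp A (par G c u)) - k u (-1) (sp A (par G c u)))) := by
  classical
  set Λ0 := Λ.filter (fun z => ¬ Btw G z u c) with hΛ0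
  obtain ⟨a1, a2⟩ := par_spec hT huc
  have hu0 : u ∉ Λ0 := fun h => (mem_filter.1 h).2 (btw_left _ _)
  have hp0 : par G c u ∈ Λ0 := mem_filter.2 ⟨h.2 u hu, by unfold Btw; omega⟩
  have hcl : Cl G Λ0 c := by
    refine ⟨mem_filter.2 ⟨h.1, by unfold Btw; simp; omega⟩, fun z hz => ?_⟩
    obtain ⟨b1, b2⟩ := mem_filter.1 hz
    refine mem_filter.2 ⟨h.2 z b1, fun b3 => b2 ?_⟩
    by_cases hz : z = c
    · rw [hz, par_self] at b3; rwa [hz]
    obtain ⟨c1, c2⟩ := par_spec hT hz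
    have t1 := tri hT z (par G c z) u
    have t2 := tri hT z u c
    have t3 := SimpleGraph.dist_eq_one_iff_adj.2 c1
    unfold Btw at *
    omega
  have hcl' : Cl G (insert u Λ0) c := ⟨mem_insert_of_mem hcl.1, fun z hz => by
    rcases mem_insert.1 hz with rfl | hz
    exacts [mem_insert_of_mem hp0, mem_insert_of_mem (hcl.2 z hz)]⟩
  have hsub : Λ0 ⊆ Λ := filter_subset _ _
  have hF1 : ∀ S, Λ0 ⊆ S → ∀ A ∈ Λ.powerset, F (A ∩ S) = F A := fun S hS A hA =>
    hF _ _ fun z hz => by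
      rw [mem_inter]
      exact ⟨fun h => h.1, fun h => ⟨h, hS (mem_filter.2 ⟨mem_powerset.1 hA h, hz⟩)⟩⟩
  have e1 := sumout hT (p := p) hk hcl' (fun A => F A * sp A u) _ Λ rfl h (insert_subset hu hsub)
  have e2 := sumout hT (p := p) hk hcl (fun A =>
    F A * (k u 1 (sp A (par G c u)) - k u (-1) (sp A (par G c u)))) _ Λ rfl h hsub
  rw [sum_congr rfl fun A hA => by
    rw [hF1 _ (subset_insert _ _) A hA, sp_inter (mem_insert_self _ _)]] at e1
  rw [sum_congr rfl fun A hA => by rw [hF1 _ Subset.rfl A hA, sp_inter hp0]] at e2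
  rw [e1, e2, leaf hcl hu0 hp0]
  refine sum_congr rfl fun A hA => ?_
  have h1 : sp A u = -1 := if_neg fun h => hu0 (mem_powerset.1 hA h)
  have h2 : sp (insert u A) u = 1 := if_pos (mem_insert_self _ _)
  rw [h1, h2, hF (insert u A) A fun z hz => by
    have : z ≠ u := fun h => hz (h ▸ btw_left _ _)
    simp [this]]
  ring

end

include hT

theorem mu_eq (hΛ : Cvx G Λ) {c : V} (hc : c ∈ Λ) (A : Finset V) :
    mu G θ Λ A = 1 / 2 * ∏ x ∈ Λ.erase c, (1 + θ * (sp A x * sp A (par G c x))) / 2 := by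
  unfold mu Crest.ProbabilityR.TreeIsing.isingWeight
  congr 1
  symm
  refine prod_bij (fun x _ => s(x, par G c x)) ?_ ?_ ?_ ?_
  · intro x hx
    obtain ⟨h1, h2⟩ := mem_erase.1 hx
    simp only [mem_filter, mk_mem_sym2_iff, SimpleGraph.mem_edgeSet]
    exact ⟨⟨h2, hΛ c hc x h2⟩, (par_spec hT h1).1⟩
  · intro x hx z hz h
    have a1 := (par_spec hT (mem_erase.1 hx).1).2
    have a2 := (par_spec hT (mem_erase.1 hz).1).2
    rcases Sym2.eq_iff.1 h with h | ⟨h1, h2⟩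
    · exact h.1
    · rw [← h1] at a2; rw [h2] at a1; omega
  · intro e he
    induction e using Sym2.ind with
    | _ a b =>
      simp only [mem_filter, mk_mem_sym2_iff, SimpleGraph.mem_edgeSet] at he
      obtain ⟨⟨h1, h2⟩, h3⟩ := he
      rcases adj_dist hT c h3 with h | h
      · exact ⟨a, mem_erase.2 ⟨by rintro rfl; simp at h, h1⟩, by rw [par_uniq hT h3 h]⟩
      · exact ⟨b, mem_erase.2 ⟨by rintro rfl; simp at h, h2⟩, by
          rw [par_uniq hT h3.symm h, Sym2.eq_swap]⟩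
  · intro x _
    simp only [Sym2.map_mk, Sym2.mk_isDiag_iff, sp]
    by_cases h1 : x ∈ A <;> by_cases h2 : par G c x ∈ A <;> simp [h1, h2, sub_eq_add_neg]

theorem mu_MP (hΛ : Cvx G Λ) {c : V} (hc : c ∈ Λ) :
    mu G θ Λ = MP G Λ c (fun _ => 1 / 2) (fun _ t s => (1 + θ * (t * s)) / 2) :=
  funext fun A => mu_eq hT hΛ hc A

theorem prior_mu (hΛ : Cvx G Λ) (hne : Λ.Nonempty) (h0 : 0 ≤ θ) (h1 : θ < 1) :
    Prior Λ (mu G θ Λ) := by
  obtain ⟨c, hc⟩ := hne
  constructor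
  · intro A
    rw [mu_eq hT hΛ hc]
    refine mul_pos (by norm_num) (prod_pos fun x _ => ?_)
    rcases sp_pm A x with a | a <;> rcases sp_pm A (par G c x) with b | b <;> rw [a, b] <;> linarith
  · have := sum_root hT (p := fun _ => 1 / 2) (k := fun _ t s => (1 + θ * (t * s)) / 2)
      (fun _ _ _ => by ring) (hΛ.cl hc) (fun _ => 1)
    rw [mu_MP hT hΛ hc]
    simp only [mul_one] at this
    rw [this]; norm_num

theorem mu_marg (hΛ : Cvx G Λ) {Λ' : Finset V} (hΛ' : Cvx G Λ') (hsub : Λ' ⊆ Λ)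
    (hne : Λ'.Nonempty) (φ : Finset V → ℝ) :
    ∑ A ∈ Λ.powerset, mu G θ Λ A * φ (A ∩ Λ') = ∑ A ∈ Λ'.powerset, mu G θ Λ' A * φ A := by
  obtain ⟨c, hc⟩ := hne
  rw [mu_MP hT hΛ (hsub hc), mu_MP hT hΛ' hc]
  exact sumout hT (fun _ _ _ => by ring) (hΛ'.cl hc) φ _ Λ rfl (hΛ.cl (hsub hc)) hsub

end Crest.Agent.R160
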