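import Crest.Agent.R160.Tree1

/-! Row 160: the posterior law on a finite subtree is a Markov field; its cumulants. -/

set_option autoImplicit false
set_option linter.unusedSectionVars false

namespace Crest.Agent.R160

open Finset

variable {V : Type*} [DecidableEq V] {G : SimpleGraph V} (hT : G.IsTree) {θ : ℝ} {Λ : Finset V}

theorem tanh_mem (x : ℝ) : -1 < Real.tanh x ∧ Real.tanh x < 1 :=
  ⟨Real.neg_one_lt_tanh x, Real.tanh_lt_one x⟩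

theorem den_pos (h0 : 0 ≤ θ) (h1 : θ < 1) (h : ℝ) :
    0 < 1 + θ * Real.tanh h ∧ 0 < 1 - θ * Real.tanh h := by
  obtain ⟨a, b⟩ := tanh_mem h
  constructor <;> nlinarith

theorem gg_mem (h0 : 0 ≤ θ) (h1 : θ < 1) (h : ℝ) : 0 ≤ gg θ h ∧ gg θ h ≤ θ := by
  obtain ⟨a, b⟩ := tanh_mem h
  obtain ⟨c, d⟩ := den_pos h0 h1 h
  have e : 0 < 1 - θ ^ 2 * Real.tanh h ^ 2 := by nlinarith
  unfold gg
  refine ⟨div_nonneg (mul_nonneg h0 (by nlinarith)) e.le, (div_le_iff₀ e).2 ?_⟩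
  refine mul_le_mul_of_nonneg_left ?_ h0
  nlinarith [mul_nonneg (sq_nonneg (Real.tanh h)) (show 0 ≤ 1 - θ ^ 2 by nlinarith)]

theorem exp_pm (h : ℝ) {t : ℝ} (ht : t = 1 ∨ t = -1) :
    Real.exp (h * t) = Real.cosh h * (1 + Real.tanh h * t) := by
  have := (Real.cosh_pos h).ne'
  rw [Real.tanh_eq_sinh_div_cosh]
  rcases ht with rfl | rfl
  · rw [mul_one, ← Real.cosh_add_sinh]; field_simp
  · rw [mul_neg_one, ← Real.cosh_sub_sinh]; field_simp; ring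

/-- transition kernel of the posterior field -/
noncomputable def kk (θ h t s : ℝ) : ℝ :=
  (1 + θ * (t * s)) * (1 + Real.tanh h * t) / (2 * (1 + θ * Real.tanh h * s))

theorem kk_fac (h0 : 0 ≤ θ) (h1 : θ < 1) (h : ℝ) {t s : ℝ} (ht : t = 1 ∨ t = -1)
    (hs : s = 1 ∨ s = -1) : (1 + θ * (t * s)) / 2 * Real.exp (h * t) =
      Real.cosh h * ((1 + θ * Real.tanh h) * Real.exp (-Ath θ h)) * Real.exp (Ath θ h * s) *
        kk θ h t s := by
  obtain ⟨c, d⟩ := den_pos h0 h1 h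
  have e : (1 + θ * Real.tanh h) * Real.exp (-Ath θ h) * Real.exp (Ath θ h * s) =
      1 + θ * Real.tanh h * s := by
    rw [mul_assoc, ← Real.exp_add]
    rcases hs with rfl | rfl
    · simp
    · have : -Ath θ h + Ath θ h * -1 =
        -Real.log ((1 + θ * Real.tanh h) / (1 - θ * Real.tanh h)) := by unfold Ath; ring
      rw [this, Real.exp_neg, Real.exp_log (div_pos c d)]
      field_simp; ring
  have e2 : 1 + θ * Real.tanh h * s ≠ 0 := by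
    rcases hs with rfl | rfl <;> linarith
  rw [mul_assoc (Real.cosh h), e, exp_pm h ht, kk]
  generalize 1 + θ * Real.tanh h * s = D at e2
  field_simp

theorem kk_sum (h0 : 0 ≤ θ) (h1 : θ < 1) (h : ℝ) {s : ℝ} (hs : s = 1 ∨ s = -1) :
    kk θ h (-1) s + kk θ h 1 s = 1 := by
  obtain ⟨c, d⟩ := den_pos h0 h1 h
  have e2 : 1 + θ * Real.tanh h * s ≠ 0 := by
    rcases hs with rfl | rfl <;> linarith
  unfold kk
  rw [← add_div, div_eq_one_iff_eq (mul_ne_zero two_ne_zero e2)]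
  ring

theorem kk_sub (h0 : 0 ≤ θ) (h1 : θ < 1) (h : ℝ) : ∃ α, ∀ s : ℝ, s = 1 ∨ s = -1 →
    kk θ h 1 s - kk θ h (-1) s = α + gg θ h * s := by
  obtain ⟨c, d⟩ := den_pos h0 h1 h
  have e : 1 - θ ^ 2 * Real.tanh h ^ 2 = (1 + θ * Real.tanh h) * (1 - θ * Real.tanh h) := by ring
  refine ⟨Real.tanh h * (1 - θ ^ 2) / (1 - θ ^ 2 * Real.tanh h ^ 2), ?_⟩
  unfold kk gg
  rw [e]
  rintro s (rfl | rfl)
  · simp only [mul_one]
    field_simp
    ring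
  · simp only [mul_neg_one, ← sub_eq_add_neg]
    field_simp
    ring

include hT

theorem hr_eq (y : V → ℝ) (c x : V) : hr hT θ Λ y c x =
    y x + ∑ z ∈ (tfo hT Λ c).ch x, Ath θ (hr hT θ Λ y c z) := by
  unfold hr
  rw [Fo.H_eq]
  simp only [one_mul]

theorem wt_MP (hΛ : Cvx G Λ) (h0 : 0 ≤ θ) (h1 : θ < 1) (y : V → ℝ) {c : V} (hc : c ∈ Λ) :
    ∃ Z : ℝ, 0 < Z ∧ ∀ A, wt Λ (mu G θ Λ) y A = Z * MP G Λ c
      (fun t => (1 + Real.tanh (hr hT θ Λ y c c) * t) / 2)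
      (fun x => kk θ (hr hT θ Λ y c x)) A := by
  set h := hr hT θ Λ y c with hh
  refine ⟨Real.cosh (h c) * ∏ x ∈ Λ.erase c,
    Real.cosh (h x) * ((1 + θ * Real.tanh (h x)) * Real.exp (-Ath θ (h x))),
    mul_pos (Real.cosh_pos _) (prod_pos fun x _ => mul_pos (Real.cosh_pos _)
      (mul_pos (den_pos h0 h1 _).1 (Real.exp_pos _))), fun A => ?_⟩
  have e1 : ∑ x ∈ Λ.erase c, Ath θ (h x) * sp A (par G c x) =
      ∑ x ∈ Λ, (h x - y x) * sp A x := by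
    rw [← sum_fiberwise_of_maps_to (g := par G c) (t := Λ)
      fun x hx => hΛ c hc x (mem_of_mem_erase hx)]
    refine sum_congr rfl fun x _ => ?_
    rw [hh, hr_eq hT y c x, add_sub_cancel_left, sum_mul]
    refine sum_congr ?_ fun z hz => by rw [((mem_ch hT).1 hz).2.2]
    ext z
    simp only [mem_ch, mem_filter, mem_erase]
    tauto
  have e2 : ∑ x ∈ Λ, y x * sp A x = h c * sp A c + (∑ x ∈ Λ.erase c, h x * sp A x -
      ∑ x ∈ Λ.erase c, Ath θ (h x) * sp A (par G c x)) := by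
    rw [e1, ← add_sub_assoc, add_sum_erase Λ (fun x => h x * sp A x) hc, ← sum_sub_distrib]
    exact sum_congr rfl fun x _ => by ring
  have e3 := prod_congr (s₁ := Λ.erase c) rfl fun x _ =>
    kk_fac h0 h1 (h x) (sp_pm A x) (sp_pm A (par G c x))
  rw [prod_mul_distrib, prod_mul_distrib, prod_mul_distrib, ← Real.exp_sum, ← Real.exp_sum] at e3
  unfold wt MP
  rw [mu_eq hT hΛ hc, e2, Real.exp_add, Real.exp_sub, exp_pm _ (sp_pm A c)]
  have := (Real.exp_pos (∑ x ∈ Λ.erase c, Ath θ (h x) * sp A (par G c x))).ne'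
  have key : ∀ a b c d e f g : ℝ, d ≠ 0 → a * b = c * d * e →
      1 / 2 * a * (f * g * (b / d)) = f * c * (g / 2 * e) := by
    intro a b c d e f g h1 h2
    rw [show 1 / 2 * a * (f * g * (b / d)) = f * g / 2 * (a * b) / d by ring, h2]
    field_simp
  exact key _ _ _ _ _ _ _ this e3

theorem Ex_MP (hΛ : Cvx G Λ) (h0 : 0 ≤ θ) (h1 : θ < 1) (y : V → ℝ) {c : V} (hc : c ∈ Λ)
    (ψ : Finset V → ℝ) : Ex Λ (mu G θ Λ) y ψ = ∑ A ∈ Λ.powerset, MP G Λ c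
      (fun t => (1 + Real.tanh (hr hT θ Λ y c c) * t) / 2)
      (fun x => kk θ (hr hT θ Λ y c x)) A * ψ A := by
  obtain ⟨Z, hZ, h⟩ := wt_MP hT hΛ h0 h1 y hc
  have := sum_root hT (p := fun t => (1 + Real.tanh (hr hT θ Λ y c c) * t) / 2)
    (k := fun x => kk θ (hr hT θ Λ y c x)) (fun _ A z => kk_sum h0 h1 _ (sp_pm A z))
    (hΛ.cl hc) (fun _ => 1)
  simp only [mul_one] at this
  unfold Ex
  simp only [h, mul_assoc, ← mul_sum]
  rw [this, mul_div_mul_left _ _ hZ.ne', div_eq_iff] <;> ring_nf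
  norm_num

theorem mg_eq (hΛ : Cvx G Λ) (h0 : 0 ≤ θ) (h1 : θ < 1) (y : V → ℝ) {c : V} (hc : c ∈ Λ) :
    mg Λ (mu G θ Λ) y c = Real.tanh (hr hT θ Λ y c c) := by
  unfold mg
  rw [Ex_MP hT hΛ h0 h1 y hc, sum_root hT (fun _ A z => kk_sum h0 h1 _ (sp_pm A z))
    (hΛ.cl hc) (fun t => t)]
  ring

theorem reg1 (hΛ : Cvx G Λ) (h0 : 0 ≤ θ) (h1 : θ < 1) (y : V → ℝ) {c : V} (hc : c ∈ Λ)
    {u : V} (hu : u ∈ Λ) (huc : u ≠ c) {F : Finset V → ℝ}
    (hF : ∀ A B : Finset V, (∀ z, ¬ Btw G z u c → (z ∈ A ↔ z ∈ B)) → F A = F B) :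
    Ex Λ (mu G θ Λ) y (fun A => F A * (sp A u - mg Λ (mu G θ Λ) y u)) =
      gg θ (hr hT θ Λ y c u) * Ex Λ (mu G θ Λ) y
        (fun A => F A * (sp A (par G c u) - mg Λ (mu G θ Λ) y (par G c u))) := by
  obtain ⟨α, hα⟩ := kk_sub h0 h1 (hr hT θ Λ y c u)
  have hP := prior_mu hT hΛ ⟨c, hc⟩ h0 h1
  have key : ∀ F : Finset V → ℝ,
      (∀ A B : Finset V, (∀ z, ¬ Btw G z u c → (z ∈ A ↔ z ∈ B)) → F A = F B) →
      Ex Λ (mu G θ Λ) y (fun A => F A * sp A u) = α * Ex Λ (mu G θ Λ) y F +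
        gg θ (hr hT θ Λ y c u) * Ex Λ (mu G θ Λ) y (fun A => F A * sp A (par G c u)) := by
    intro F hF
    rw [Ex_MP hT hΛ h0 h1 y hc, step hT (fun _ A z => kk_sum h0 h1 _ (sp_pm A z))
      (hΛ.cl hc) hu huc hF, ← Ex_MP hT hΛ h0 h1 y hc, ← Ex_mul, ← Ex_mul, ← Ex_add]
    exact Ex_congr _ fun A _ => by rw [hα _ (sp_pm _ _)]; ring
  have k1 := key (fun _ => 1) fun _ _ _ => rfl
  simp only [one_mul, hP.Ex_const, mul_one] at k1
  have k2 := key F hF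
  simp only [mul_sub, Ex_sub, mul_comm (F _) (mg _ _ _ _), Ex_mul]
  rw [k2]
  unfold mg
  rw [k1]
  ring

theorem rv_self (y : V → ℝ) (c : V) : rv hT θ Λ y c c = 1 := by simp [rv, dn, pg]

theorem rv_step (y : V → ℝ) {c u : V} (huc : u ≠ c) :
    rv hT θ Λ y c u = gg θ (hr hT θ Λ y c u) * rv hT θ Λ y c (par G c u) := by
  unfold rv
  rw [← (par_spec hT huc).2, dn]
  simp [pg, mul_comm]

theorem reg (hΛ : Cvx G Λ) (h0 : 0 ≤ θ) (h1 : θ < 1) (y : V → ℝ) {c : V} (hc : c ∈ Λ)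
    {F : Finset V → ℝ} : ∀ (n : ℕ) (u : V), G.dist u c = n → u ∈ Λ →
    (∀ A B : Finset V, (∀ z, Btw G u c z → (z ∈ A ↔ z ∈ B)) → F A = F B) →
    Ex Λ (mu G θ Λ) y (fun A => F A * (sp A u - mg Λ (mu G θ Λ) y u)) =
      rv hT θ Λ y c u * Ex Λ (mu G θ Λ) y (fun A => F A * (sp A c - mg Λ (mu G θ Λ) y c)) := by
  intro n
  induction n with
  | zero =>
    intro u h _ _
    rw [(dist_zero hT).1 h, rv_self, one_mul]
  | succ n ih =>
    intro u h hu hF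
    have huc : u ≠ c := by rintro rfl; simp at h
    have := (par_spec hT huc).2
    rw [reg1 hT hΛ h0 h1 y hc hu huc fun A B hAB => hF A B fun z hz => hAB z fun h2 => ?_,
      ih _ (by omega) (hΛ c hc u hu) fun A B hAB => hF A B fun z hz =>
        hAB z (par_btw hT hz huc).2, rv_step hT y huc, mul_assoc]
    unfold Btw at *
    rw [G.dist_comm (u := z) (v := c), G.dist_comm (u := z) (v := u)] at h2
    omega

omit hT in
theorem sp_congr {A B : Finset V} {z : V} (h : z ∈ A ↔ z ∈ B) : sp A z = sp B z := by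
  simp [sp, h]

theorem cv_self (hΛ : Cvx G Λ) (h0 : 0 ≤ θ) (h1 : θ < 1) (y : V → ℝ) {c : V} (hc : c ∈ Λ) :
    cv Λ (mu G θ Λ) y c c = 1 - mg Λ (mu G θ Λ) y c ^ 2 := by
  have hP := prior_mu hT hΛ ⟨c, hc⟩ h0 h1
  unfold cv
  set m := mg Λ (mu G θ Λ) y c with hm
  rw [Ex_congr (φ := fun A => (1 + m ^ 2) - 2 * m * sp A c) _ fun A _ => by
    linear_combination sp_sq A c, Ex_sub, Ex_mul, hP.Ex_const]
  change _ - 2 * m * m = _
  ring

theorem cv_btw (hΛ : Cvx G Λ) (h0 : 0 ≤ θ) (h1 : θ < 1) (y : V → ℝ) {c u w : V} (hc : c ∈ Λ)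
    (hu : u ∈ Λ) (h : Btw G u c w) :
    cv Λ (mu G θ Λ) y w u = rv hT θ Λ y c u * cv Λ (mu G θ Λ) y w c :=
  reg hT hΛ h0 h1 y hc _ u rfl hu fun A B hAB => by rw [sp_congr (hAB w h)]

theorem cv_eq (hΛ : Cvx G Λ) (h0 : 0 ≤ θ) (h1 : θ < 1) (y : V → ℝ) {c u : V} (hc : c ∈ Λ)
    (hu : u ∈ Λ) : cv Λ (mu G θ Λ) y c u = rv hT θ Λ y c u * (1 - mg Λ (mu G θ Λ) y c ^ 2) := by
  rw [cv_btw hT hΛ h0 h1 y hc hu (btw_right _ _), cv_self hT hΛ h0 h1 y hc]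

theorem rv_mul (hΛ : Cvx G Λ) (h0 : 0 ≤ θ) (h1 : θ < 1) (y : V → ℝ) {c u w : V} (hc : c ∈ Λ)
    (hu : u ∈ Λ) (hw : w ∈ Λ) (h : Btw G u c w) :
    rv hT θ Λ y w u = rv hT θ Λ y c u * rv hT θ Λ y w c := by
  have := cv_btw hT hΛ h0 h1 y hc hu h
  rw [cv_eq hT hΛ h0 h1 y hw hu, cv_eq hT hΛ h0 h1 y hw hc, ← mul_assoc] at this
  refine mul_right_cancel₀ ?_ this
  rw [mg_eq hT hΛ h0 h1 y hw]
  obtain ⟨a, b⟩ := tanh_mem (hr hT θ Λ y w w)
  nlinarith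

theorem k3_eq (hΛ : Cvx G Λ) (h0 : 0 ≤ θ) (h1 : θ < 1) (y : V → ℝ) {c u v w : V} (hc : c ∈ Λ)
    (hu : u ∈ Λ) (hv : v ∈ Λ) (hw : w ∈ Λ) (a1 : Btw G u c v) (a2 : Btw G v c w)
    (a3 : Btw G u c w) : k3 Λ (mu G θ Λ) y u v w = -2 * mg Λ (mu G θ Λ) y c *
      rv hT θ Λ y c v * rv hT θ Λ y c w * cv Λ (mu G θ Λ) y c u := by
  have hP := prior_mu hT hΛ ⟨c, hc⟩ h0 h1
  rw [cv_eq hT hΛ h0 h1 y hc hu]
  unfold k3
  set m := mg Λ (mu G θ Λ) y with hm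
  have e1 := reg hT hΛ h0 h1 y hc (F := fun A => (sp A u - m u) * (sp A v - m v)) _ w rfl hw
    fun A B hAB => by rw [sp_congr (hAB u a3.symm), sp_congr (hAB v a2.symm)]
  have e2 := reg hT hΛ h0 h1 y hc (F := fun A => (sp A u - m u) * (sp A c - m c)) _ v rfl hv
    fun A B hAB => by rw [sp_congr (hAB u a1.symm), sp_congr (hAB c (btw_right _ _))]
  have e3 := reg hT hΛ h0 h1 y hc (F := fun A => (sp A c - m c) * (sp A c - m c)) _ u rfl hu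
    fun A B hAB => by rw [sp_congr (hAB c (btw_right _ _))]
  rw [← hm] at e1 e2 e3
  rw [e1, Ex_congr (φ := fun A => (sp A u - m u) * (sp A c - m c) * (sp A v - m v)) _
    fun A _ => by ring, e2, Ex_congr (φ := fun A => (sp A c - m c) * (sp A c - m c) *
    (sp A u - m u)) _ fun A _ => by ring, e3,
    Ex_congr (φ := fun A => (1 + 3 * m c ^ 2) * sp A c - (3 * m c + m c ^ 3)) _ fun A _ => by
      linear_combination (sp A c - 3 * m c) * sp_sq A c, Ex_sub, Ex_mul, hP.Ex_const]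
  change _ * (_ * (_ * (_ * m c - _))) = _
  ring

end Crest.Agent.R160
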