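import Crest.Agent.R160.Defs

/-! Row 160: geometry of trees. -/

set_option autoImplicit false
set_option linter.unusedSectionVars false

namespace Crest.Agent.R160

open Finset

variable {V : Type*} [DecidableEq V] (G : SimpleGraph V)

open Classical in
/-- the neighbour of `x` towards `c` -/
noncomputable def par (c x : V) : V :=
  if h : ∃ z, G.Adj x z ∧ G.dist z c + 1 = G.dist x c then h.choose else x

/-- `c` lies on the geodesic from `v` to `w` -/
def Btw (v c w : V) : Prop := G.dist v w = G.dist v c + G.dist c w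

def Cvx (Λ : Finset V) : Prop := ∀ c ∈ Λ, ∀ x ∈ Λ, par G c x ∈ Λ

def ball [G.LocallyFinite] (o : V) : ℕ → Finset V
  | 0 => {o}
  | R + 1 => ball o R ∪ (ball o R).biUnion (fun x => G.neighborFinset x)

/-- the free Ising prior on `Λ` -/
noncomputable def mu (θ : ℝ) (Λ A : Finset V) : ℝ :=
  Crest.ProbabilityR.TreeIsing.isingWeight G θ Λ (fun v => decide (v ∈ A))

/-- the descending path from `c` (excluded) to `v` -/
noncomputable def dn (c : V) : ℕ → V → List V
  | 0, _ => []
  | n + 1, v => dn c n (par G c v) ++ [v]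

variable {G}

section
variable (hT : G.IsTree)
include hT

theorem tri (a b c : V) : G.dist a c ≤ G.dist a b + G.dist b c := hT.connected.dist_triangle

theorem dist_zero {a b : V} : G.dist a b = 0 ↔ a = b := hT.connected.dist_eq_zero_iff

theorem par_spec {c x : V} (h : x ≠ c) :
    G.Adj x (par G c x) ∧ G.dist (par G c x) c + 1 = G.dist x c := by
  have : ∃ z, G.Adj x z ∧ G.dist z c + 1 = G.dist x c := by
    obtain ⟨p, hp⟩ := hT.connected.exists_walk_length_eq_dist x c
    cases p with
    | nil => exact absurd rfl h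
    | cons h1 p =>
      rename_i z
      refine ⟨z, h1, ?_⟩
      have h2 := SimpleGraph.dist_le p
      have h3 := tri hT x z c
      have h4 := SimpleGraph.dist_eq_one_iff_adj.2 h1
      simp only [SimpleGraph.Walk.length_cons] at hp
      omega
  unfold par
  rw [dif_pos this]
  exact this.choose_spec

theorem par_uniq {c x z : V} (h : G.Adj x z) (hd : G.dist z c + 1 = G.dist x c) :
    par G c x = z := by
  have hx : x ≠ c := by rintro rfl; simp at hd
  obtain ⟨h1, h2⟩ := par_spec hT hx
  obtain ⟨p, hp⟩ := hT.connected.exists_walk_length_eq_dist z c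
  obtain ⟨q, hq⟩ := hT.connected.exists_walk_length_eq_dist (par G c x) c
  have e1 := (SimpleGraph.Walk.cons h p).isPath_of_length_eq_dist (by simp; omega)
  have e2 := (SimpleGraph.Walk.cons h1 q).isPath_of_length_eq_dist (by simp; omega)
  have := congrArg (fun w => w.1.snd) (hT.isAcyclic.path_unique ⟨_, e1⟩ ⟨_, e2⟩)
  simpa using this.symm

omit hT in
theorem par_self (c : V) : par G c c = c := by
  unfold par
  rw [dif_neg]
  simp

theorem adj_dist (c : V) {x z : V} (h : G.Adj x z) :
    G.dist z c + 1 = G.dist x c ∨ G.dist x c + 1 = G.dist z c := by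
  have := hT.dist_eq_dist_add_one_of_adj c h
  rw [G.dist_comm (u := c), G.dist_comm (u := c)] at this
  omega

theorem dist_of_ne_par {c x z : V} (h : G.Adj x z) (hz : par G c x ≠ z) :
    G.dist x c + 1 = G.dist z c :=
  (adj_dist hT c h).resolve_left fun h1 => hz (par_uniq hT h h1)

theorem par_btw {v c w : V} (h : Btw G v c w) (hv : v ≠ c) :
    par G w v = par G c v ∧ Btw G (par G c v) c w := by
  obtain ⟨h1, h2⟩ := par_spec hT hv
  have h3 := tri hT (par G c v) c w
  have h4 := adj_dist hT w h1
  unfold Btw at *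
  exact ⟨par_uniq hT h1 (by omega), by omega⟩

theorem away {v w : V} : ∀ (n : ℕ) (u : V), G.dist u v = n + 1 →
    G.dist u w + 1 = G.dist (par G v u) w → Btw G v u w := by
  intro n
  induction n with
  | zero =>
    intro u h1 h2
    have hu : u ≠ v := by rintro rfl; simp at h1
    have h3 := (par_spec hT hu).2
    have h4 : par G v u = v := (dist_zero hT).1 (by omega)
    rw [h4] at h2
    unfold Btw; rw [G.dist_comm (u := v) (v := u)]; omega
  | succ n ih =>
    intro u h1 h2
    have hu : u ≠ v := by rintro rfl; simp at h1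
    obtain ⟨h3, h4⟩ := par_spec hT hu
    set x := par G v u
    have hx : x ≠ v := by intro h; rw [h] at h4; simp at h4; omega
    obtain ⟨h5, h6⟩ := par_spec hT hx
    have h7 : par G w x = u := par_uniq hT h3.symm h2
    have h8 := dist_of_ne_par hT (c := w) h5 (by rw [h7]; intro h; rw [← h] at h6; omega)
    have := ih x (by omega) h8
    unfold Btw at *
    rw [G.dist_comm (u := v) (v := u)]
    rw [G.dist_comm (u := v) (v := x)] at this
    omega

theorem btw_of_par_ne {u v w : V} (hv : u ≠ v) (h : par G w u ≠ par G v u) : Btw G v u w := by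
  obtain ⟨h1, h2⟩ := par_spec hT hv
  exact away hT (G.dist (par G v u) v) u h2.symm (dist_of_ne_par hT h1 h)

omit hT in
theorem Btw.symm {v c w : V} (h : Btw G v c w) : Btw G w c v := by
  unfold Btw at *
  rw [G.dist_comm (u := w) (v := v), G.dist_comm (u := w) (v := c), G.dist_comm (u := c) (v := v)]
  omega

omit hT in
theorem btw_left (v w : V) : Btw G v v w := by simp [Btw]

omit hT in
theorem btw_right (v w : V) : Btw G v w w := by simp [Btw]

theorem btw_total {c c' w : V} : ∀ (n : ℕ) (v : V), G.dist v c = n → Btw G v c w → Btw G v c' w →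
    G.dist v c ≤ G.dist v c' → Btw G v c c' ∧ Btw G c c' w := by
  intro n
  induction n with
  | zero =>
    intro v h1 _ h3 _
    obtain rfl := (dist_zero hT).1 h1
    exact ⟨btw_left _ _, h3⟩
  | succ n ih =>
    intro v h1 h2 h3 h4
    have hv : v ≠ c := by rintro rfl; simp at h1
    have hv' : v ≠ c' := by rintro rfl; rw [h1] at h4; simp at h4
    obtain ⟨a1, a2⟩ := par_btw hT h2 hv
    obtain ⟨b1, b2⟩ := par_btw hT h3 hv'
    have c1 := (par_spec hT hv).2
    have c2 := (par_spec hT hv').2
    rw [← b1, a1] at b2 c2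
    obtain ⟨d1, d2⟩ := ih _ (by omega) a2 b2 (by omega)
    refine ⟨?_, d2⟩
    unfold Btw at *
    omega

theorem median (v w : V) : ∀ (n : ℕ) (u : V), G.dist u w = n →
    ∃ c, Btw G u c v ∧ Btw G v c w ∧ Btw G u c w := by
  intro n
  induction n with
  | zero =>
    intro u h
    obtain rfl := (dist_zero hT).1 h
    exact ⟨u, btw_left _ _, btw_right _ _, btw_left _ _⟩
  | succ n ih =>
    intro u h
    by_cases h1 : Btw G v u w
    · exact ⟨u, btw_left _ _, h1, btw_left _ _⟩
    have hv : u ≠ v := by rintro rfl; exact h1 (btw_left _ _)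
    have hw : u ≠ w := by rintro rfl; exact h1 (btw_right _ _)
    have h2 : par G w u = par G v u := by
      by_contra h2; exact h1 (btw_of_par_ne hT hv h2)
    obtain ⟨a1, a2⟩ := par_spec hT hv
    obtain ⟨-, b2⟩ := par_spec hT hw
    rw [h2] at b2
    obtain ⟨c, c1, c2, c3⟩ := ih (par G v u) (by omega)
    have t1 := tri hT u (par G v u) c
    have t2 := tri hT u c v
    have t3 := tri hT u c w
    have t4 := SimpleGraph.dist_eq_one_iff_adj.2 a1
    refine ⟨c, ?_, c2, ?_⟩ <;> unfold Btw at * <;> omega

theorem Cvx.btw {Λ : Finset V} (hΛ : Cvx G Λ) {c w : V} (hw : w ∈ Λ) :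
    ∀ (n : ℕ) (v : V), G.dist v c = n → v ∈ Λ → Btw G v c w → c ∈ Λ := by
  intro n
  induction n with
  | zero => intro v h hv _; exact (dist_zero hT).1 h ▸ hv
  | succ n ih =>
    intro v h hv hb
    have hv' : v ≠ c := by rintro rfl; simp at h
    obtain ⟨a1, a2⟩ := par_btw hT hb hv'
    have := (par_spec hT hv').2
    exact ih _ (by omega) (a1 ▸ hΛ w hw v hv) a2

theorem mem_ball [G.LocallyFinite] {o : V} {R : ℕ} {x : V} : x ∈ ball G o R ↔ G.dist x o ≤ R := by
  induction R generalizing x with
  | zero => simp [ball, dist_zero hT]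
  | succ R ih =>
    simp only [ball, mem_union, mem_biUnion, ih, SimpleGraph.mem_neighborFinset]
    constructor
    · rintro (h | ⟨z, h1, h2⟩)
      · omega
      · have := adj_dist hT o h2; omega
    · intro h
      by_cases hx : x = o
      · left; simp [hx]
      · obtain ⟨h1, h2⟩ := par_spec hT hx
        exact Or.inr ⟨_, by omega, h1.symm⟩

theorem cvx_ball [G.LocallyFinite] (o : V) (R : ℕ) : Cvx G (ball G o R) := by
  intro c hc x hx
  rw [mem_ball hT] at *
  by_cases h : x = c
  · rw [h, par_self]; exact hc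
  obtain ⟨h1, h2⟩ := par_spec hT h
  rcases adj_dist hT o h1 with h3 | h3
  · omega
  · have := away hT _ x h2.symm h3
    unfold Btw at this
    rw [G.dist_comm (u := c) (v := x)] at this
    omega

theorem cvx_of_connected {S : Finset V} (h : (G.induce (S : Set V)).Connected) : Cvx G S := by
  have key : ∀ (x c : S) (_ : (G.induce (S : Set V)).Walk x c) (a : V), Btw G x a c → a ∈ S := by
    intro x c p
    induction p with
    | nil =>
      rename_i x
      intro a ha
      have : G.dist x.1 a = 0 := by unfold Btw at ha; simp at ha; omega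
      exact (dist_zero hT).1 this ▸ x.2
    | cons h1 p ih =>
      rename_i x z c
      intro a ha
      have h2 : G.Adj x.1 z.1 := h1
      by_cases hx : x.1 = a
      · exact hx ▸ x.2
      refine ih a ?_
      rcases adj_dist hT c.1 h2 with h3 | h3
      · obtain ⟨a1, a2⟩ := par_btw hT ha hx
        rw [← a1, par_uniq hT h2 h3] at a2
        exact a2
      · have t1 := tri hT z.1 x.1 a
        have t2 := tri hT z.1 a c.1
        have t3 := SimpleGraph.dist_eq_one_iff_adj.2 h2.symm
        unfold Btw at *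
        omega
  intro c hc x hx
  obtain ⟨p⟩ := h.preconnected ⟨x, hx⟩ ⟨c, hc⟩
  refine key _ _ p _ ?_
  by_cases h1 : x = c
  · subst h1; rw [par_self]; exact btw_left _ _
  · obtain ⟨h2, h3⟩ := par_spec hT h1
    have := SimpleGraph.dist_eq_one_iff_adj.2 h2
    unfold Btw; simp only; omega

/-- the tree `Λ` rooted at `c` -/
noncomputable def tfo (Λ : Finset V) (c : V) : Fo V where
  ch x := Λ.filter (fun z => z ≠ c ∧ par G c z = x)
  Sub x := {z | Btw G z x c}
  ht x := Λ.sup (fun z => G.dist z c) - G.dist x c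
  self x := btw_left _ _
  sub x z hz a ha := by
    obtain ⟨-, h1, rfl⟩ := mem_filter.1 hz
    obtain ⟨h2, h3⟩ := par_spec hT h1
    have t1 := tri hT a z (par G c z)
    have t2 := tri hT a (par G c z) c
    have t3 := SimpleGraph.dist_eq_one_iff_adj.2 h2
    simp only [Set.mem_ofPred_eq, Btw] at *
    omega
  nself x z hz ha := by
    obtain ⟨-, h1, rfl⟩ := mem_filter.1 hz
    have := (par_spec hT h1).2
    simp only [Set.mem_ofPred_eq, Btw] at *
    omega
  disj x z hz z' hz' hne := by
    obtain ⟨-, h1, h2⟩ := mem_filter.1 hz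
    obtain ⟨-, h3, h4⟩ := mem_filter.1 hz'
    have a1 := (par_spec hT h1).2
    have a2 := (par_spec hT h3).2
    rw [h2] at a1; rw [h4] at a2
    refine Set.disjoint_left.2 fun a ha ha' => hne ?_
    have := (btw_total hT _ a rfl ha ha' (by simp only [Set.mem_ofPred_eq, Btw] at *; omega)).1
    refine (dist_zero hT).1 ?_
    simp only [Set.mem_ofPred_eq, Btw] at *
    omega
  lt x z hz := by
    obtain ⟨h0, h1, rfl⟩ := mem_filter.1 hz
    have := (par_spec hT h1).2
    have : G.dist z c ≤ Λ.sup (fun z => G.dist z c) := le_sup (f := fun z => G.dist z c) h0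
    omega

theorem mem_ch {Λ : Finset V} {c x z : V} :
    z ∈ (tfo hT Λ c).ch x ↔ z ∈ Λ ∧ z ≠ c ∧ par G c z = x := mem_filter

/-- cavity fields towards the root `c` (and the full field at `c`) -/
noncomputable def hr (θ : ℝ) (Λ : Finset V) (y : V → ℝ) (c : V) : V → ℝ :=
  (tfo hT Λ c).H θ (fun _ => 1) y

/-- regression coefficient of the spin at `v` on the spin at `c` -/
noncomputable def rv (θ : ℝ) (Λ : Finset V) (y : V → ℝ) (c v : V) : ℝ :=
  pg θ (hr hT θ Λ y c) (dn G c (G.dist v c) v)

theorem ch_card [G.LocallyFinite] {d : ℕ} (hreg : G.IsRegularOfDegree d) (Λ : Finset V) (c x : V) :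
    ((tfo hT Λ c).ch x).card ≤ d ∧ (x ≠ c → ((tfo hT Λ c).ch x).card ≤ d - 1) := by
  have h1 : ∀ z ∈ (tfo hT Λ c).ch x, z ∈ G.neighborFinset x ∧ G.dist x c + 1 = G.dist z c := by
    intro z hz
    obtain ⟨-, h1, rfl⟩ := (mem_ch hT).1 hz
    obtain ⟨h2, h3⟩ := par_spec hT h1
    exact ⟨(G.mem_neighborFinset _ _).2 h2.symm, h3⟩
  have h2 : (G.neighborFinset x).card = d := hreg x
  refine ⟨h2 ▸ card_le_card fun z hz => (h1 z hz).1, fun hx => ?_⟩
  obtain ⟨h3, h4⟩ := par_spec hT hx
  rw [← h2, ← card_erase_of_mem ((G.mem_neighborFinset _ _).2 h3)]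
  refine card_le_card fun z hz => mem_erase.2 ⟨?_, (h1 z hz).1⟩
  intro h
  have := (h1 z hz).2
  rw [h] at this
  omega

end

end Crest.Agent.R160
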